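import Vale.Agent.P247.Defs

set_option maxSynthPendingDepth 3

open scoped Topology ContDiff RealInnerProductSpace Manifold
open Set Metric MeasureTheory Filter

noncomputable section
namespace Vale.Agent.P247

open Vale.Agent.P204 Vale.Agent.P204.Bridge

namespace Ad

def GG (a : ℝ) (g : E6) : E6 := Po g + a • b6 0

def hh (σ a : ℝ) (g : E6) : E6 := (√σ / √(wq (GG a g) (GG a g))) • GG a g

lemma GG_0 (a : ℝ) (g : E6) : GG a g 0 = g 0 + a := by simp [GG, b6_apply]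
lemma GG_Pm (a : ℝ) (g : E6) : Pm (GG a g) = 0 := by
  apply E6_ext <;> simp [GG, b6_apply]
lemma GG_Pa (a : ℝ) (g : E6) : Pa (GG a g) = Pa g := by
  apply E6_ext <;> simp [GG, b6_apply]
lemma GG_wq (a : ℝ) (g : E6) : wq (GG a g) (GG a g) = 2 * ((g 0 + a) ^ 2 - ‖Pa g‖ ^ 2) := by
  simp [wq_apply, GG, b6_apply, normsq_E6]; ring
lemma GG_normsq (a : ℝ) (g : E6) : ‖GG a g‖ ^ 2 = (g 0 + a) ^ 2 + ‖Pa g‖ ^ 2 := by
  simp [GG, b6_apply, normsq_E6]; ring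
lemma wq_GG (a : ℝ) (g : E6) :
    wq g (GG a g) = wq (GG a g) (GG a g) - 2 * a * (g 0 + a) := by
  simp [wq_apply, GG, b6_apply]; ring
lemma wq_self (g : E6) : wq g g = 2 * (g 0 ^ 2 + ‖Pm g‖ ^ 2 - ‖Pa g‖ ^ 2) := by
  simp [wq_apply, normsq_E6]; ring
lemma GG_le (a : ℝ) (g : E6) : wq (GG a g) (GG a g) ≤ wq g g + 4 * a * g 0 + 2 * a ^ 2 := by
  rw [GG_wq, wq_self]; nlinarith [sq_nonneg ‖Pm g‖]
lemma abs_0_le (g : E6) : |g 0| ≤ ‖g‖ := by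
  simpa using PiLp.norm_apply_le g 0

lemma ap_add {C t τ0 τs : ℝ} {g0 gs : E6} (h0 : AP C t τ0 g0) (hs : AP C t τs gs) :
    AP C t (τ0 + τs) (g0 + gs) := by
  obtain ⟨a1, a2, a3⟩ := h0
  obtain ⟨b1, b2, b3⟩ := hs
  refine ⟨?_, ?_, ?_⟩
  · have := norm_add_le g0 gs; linarith
  · rw [map_add]; have := norm_add_le (Pm g0) (Pm gs); linarith
  · rw [map_add]; have := norm_add_le (Pa g0) (Pa gs)
    simp only [PiLp.add_apply]; linarith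

lemma amgm {σ N A : ℝ} (hσ : 0 ≤ σ) (hN : 0 ≤ N) (hA : 0 < A) :
    √σ * √N ≤ A / 2 * σ + (2 * A)⁻¹ * N := by
  have h1 := Real.sq_sqrt hσ
  have h2 := Real.sq_sqrt hN
  have h3 : A / 2 * σ + (2 * A)⁻¹ * N - √σ * √N = (2 * A)⁻¹ * (A * √σ - √N) ^ 2 := by
    rw [sub_sq, mul_pow, h1, h2]; field_simp; ring
  have h4 : 0 ≤ (2 * A)⁻¹ * (A * √σ - √N) ^ 2 := by positivity
  linarith

lemma real1 {σ B C lam t δ η τ x p c : ℝ} (hσ : 0 ≤ σ) (hB : σ ≤ B) (hC : 0 ≤ C)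
    (hl' : 4 * B * C ≤ η ^ 2 * lam) (hl0 : 0 < lam) (hδ : 0 < δ)
    (htB : 4 * B * t ^ 2 ≤ η ^ 2) (hτ : 0 ≤ τ) (hp : 0 ≤ p)
    (hu : lam / 2 * (t ^ 2 * τ) + δ ≤ x - p) (e1 : x ≤ C * τ + (lam * t ^ 2 * τ + δ))
    (hc : c ^ 2 * (2 * (x - p) * x) ≤ σ) : t ^ 2 * (c ^ 2 * (x ^ 2 + p ^ 2)) ≤ η ^ 2 := by
  have hB0 : 0 ≤ B := hσ.trans hB
  have hls : 0 ≤ lam / 2 * (t ^ 2 * τ) := by positivity
  have hu0 : 0 < x - p := by linarith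
  have hx0 : 0 < x := by linarith
  have k2 : lam * t ^ 2 * x ≤ (2 * C + 2 * lam * t ^ 2) * (x - p) := by
    have e2 : lam * t ^ 2 * τ + δ ≤ 2 * (x - p) := by linarith
    have e3 : C * (lam * t ^ 2 * τ) ≤ C * (2 * (x - p)) :=
      mul_le_mul_of_nonneg_left (by linarith) hC
    have e4 : 0 ≤ lam * t ^ 2 := by positivity
    have e5 := mul_le_mul_of_nonneg_left e1 e4
    have e6 := mul_le_mul_of_nonneg_left e2 e4
    linarith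
  have k3 : c ^ 2 * (x ^ 2 + p ^ 2) * (x - p) ≤ B * x := by
    have e0 : p ^ 2 ≤ x ^ 2 := by gcongr; linarith
    have e1 : x ^ 2 + p ^ 2 ≤ 2 * x ^ 2 := by linarith
    calc c ^ 2 * (x ^ 2 + p ^ 2) * (x - p) ≤ c ^ 2 * (2 * x ^ 2) * (x - p) := by gcongr
      _ = c ^ 2 * (2 * (x - p) * x) * x := by ring
      _ ≤ B * x := mul_le_mul_of_nonneg_right (hc.trans hB) hx0.le
  have e1 : lam * (t ^ 2 * (c ^ 2 * (x ^ 2 + p ^ 2))) * (x - p) ≤ lam * η ^ 2 * (x - p) := by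
    calc lam * (t ^ 2 * (c ^ 2 * (x ^ 2 + p ^ 2))) * (x - p)
        = lam * t ^ 2 * (c ^ 2 * (x ^ 2 + p ^ 2) * (x - p)) := by ring
      _ ≤ lam * t ^ 2 * (B * x) := by gcongr
      _ = B * (lam * t ^ 2 * x) := by ring
      _ ≤ B * ((2 * C + 2 * lam * t ^ 2) * (x - p)) := by gcongr
      _ = ((4 * B * C) / 2 + lam * (4 * B * t ^ 2) / 2) * (x - p) := by ring
      _ ≤ ((η ^ 2 * lam) / 2 + lam * η ^ 2 / 2) * (x - p) := by gcongr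
      _ = lam * η ^ 2 * (x - p) := by ring
  exact le_of_mul_le_mul_left (le_of_mul_le_mul_right e1 hu0) hl0

/-- properties of the adapted form at a point -/
lemma cone {σ B C lam t δ η τ a : ℝ} {g : E6} (hσ : 0 ≤ σ) (hB : σ ≤ B) (hC : 0 ≤ C)
    (hl : 2 * C ≤ lam) (hl' : 4 * B * C ≤ η ^ 2 * lam) (hl0 : 0 < lam) (ht : 0 < t) (hδ : 0 < δ)
    (hη : 0 < η) (htB : 4 * B * t ^ 2 ≤ η ^ 2) (hτ : 0 ≤ τ) (hg : AP C t τ g)
    (ha : a = lam * t ^ 2 * τ + δ) :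
    0 < wq (GG a g) (GG a g) ∧ Pm (hh σ a g) = 0 ∧ ‖Pa (hh σ a g)‖ ≤ hh σ a g 0 ∧
    σ ≤ wq (hh σ a g) (hh σ a g) ∧ ‖hh σ a g‖ ≤ η / t ∧
    wq g (hh σ a g) ≤ √σ * √(wq (GG a g) (GG a g)) := by
  obtain ⟨g1, -, g3⟩ := hg
  have hs : 0 ≤ t ^ 2 * τ := by positivity
  have hp := norm_nonneg (Pa g)
  have h0 := abs_le.1 (abs_0_le g)
  have hCl : C * (t ^ 2 * τ) ≤ lam / 2 * (t ^ 2 * τ) :=
    mul_le_mul_of_nonneg_right (by linarith) hs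
  have hu : lam / 2 * (t ^ 2 * τ) + δ ≤ (g 0 + a) - ‖Pa g‖ := by
    rw [ha]; linarith
  have hls : 0 ≤ lam / 2 * (t ^ 2 * τ) := by positivity
  have hu0 : 0 < (g 0 + a) - ‖Pa g‖ := by linarith
  have hx0 : 0 < g 0 + a := by linarith
  have ha0 : 0 < a := by rw [ha]; positivity
  have hN1 : 2 * ((g 0 + a) - ‖Pa g‖) * (g 0 + a) ≤ wq (GG a g) (GG a g) := by
    rw [GG_wq]
    have := mul_nonneg hu0.le hp
    linarith
  have hN0 : 0 < wq (GG a g) (GG a g) := lt_of_lt_of_le (by positivity) hN1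
  have hn0 := Real.sqrt_pos.2 hN0
  have hn2 := Real.sq_sqrt hN0.le
  have hs2 := Real.sq_sqrt hσ
  obtain ⟨c, hc⟩ : ∃ c, c = √σ / √(wq (GG a g) (GG a g)) := ⟨_, rfl⟩
  have hc0 : 0 ≤ c := by rw [hc]; positivity
  have hc2 : c ^ 2 * wq (GG a g) (GG a g) = σ := by
    rw [hc, div_pow, hn2, hs2]; field_simp
  have hhh : hh σ a g = c • GG a g := by rw [hc]; rfl
  refine ⟨hN0, ?_, ?_, ?_, ?_, ?_⟩
  · rw [hhh, map_smul, GG_Pm, smul_zero]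
  · rw [hhh, map_smul, GG_Pa, norm_smul, Real.norm_of_nonneg hc0, PiLp.smul_apply, GG_0,
      smul_eq_mul]
    exact mul_le_mul_of_nonneg_left (by linarith) hc0
  · rw [hhh, wq_smul_l, wq_smul_r]; linarith
  · have k1 : ‖hh σ a g‖ ^ 2 = c ^ 2 * ((g 0 + a) ^ 2 + ‖Pa g‖ ^ 2) := by
      rw [hhh, norm_smul, mul_pow, GG_normsq, Real.norm_of_nonneg hc0]
    have k4 : (t * ‖hh σ a g‖) ^ 2 ≤ η ^ 2 := by
      rw [mul_pow, k1]
      refine real1 hσ hB hC hl' hl0 hδ htB hτ hp hu (by rw [← ha]; linarith) ?_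
      rw [← hc2]
      exact mul_le_mul_of_nonneg_left hN1 (sq_nonneg c)
    rw [le_div_iff₀ ht, mul_comm]
    exact (pow_le_pow_iff_left₀ (by positivity) hη.le two_ne_zero).1 k4
  · rw [hhh, wq_smul_r, wq_GG]
    have e1 : c * wq (GG a g) (GG a g) = √σ * √(wq (GG a g) (GG a g)) := by
      rw [hc]; field_simp; rw [hn2]
    have e2 : 0 ≤ c * (2 * a * (g 0 + a)) := by positivity
    rw [mul_sub]; linarith

lemma real2 {L t τ0 τs a x : ℝ} (hL1 : 1 ≤ L) (ht1 : t ^ 2 ≤ 1) (h0 : 0 ≤ τ0) (hs : 0 ≤ τs)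
    (ha0 : 0 ≤ a) (ha1 : a ≤ L * (t ^ 2 * (τ0 + τs)) + 1) (hx : x ≤ L * (τ0 + τs)) :
    4 * a * x + 2 * a ^ 2
      ≤ 16 * L ^ 2 * (t ^ 2 * (τ0 * τ0) + t ^ 2 * (τs * τs) + τ0 + τs + 1) := by
  obtain ⟨τ, hτ⟩ : ∃ τ, τ = τ0 + τs := ⟨_, rfl⟩
  rw [← hτ] at ha1 hx
  have hτ0 : 0 ≤ τ := by rw [hτ]; positivity
  have e1 : a * x ≤ (L * (t ^ 2 * τ) + 1) * (L * τ) :=
    (mul_le_mul_of_nonneg_left hx ha0).trans (by gcongr)
  have e2 : a ^ 2 ≤ 2 * (L * (t ^ 2 * τ)) ^ 2 + 2 := by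
    have : a ^ 2 ≤ (L * (t ^ 2 * τ) + 1) ^ 2 := by gcongr
    have := sq_nonneg (L * (t ^ 2 * τ) - 1)
    linarith
  have e3 : (L * (t ^ 2 * τ)) ^ 2 ≤ L ^ 2 * (t ^ 2 * τ ^ 2) := by
    have : (L * (t ^ 2 * τ)) ^ 2 = L ^ 2 * (t ^ 2 * τ ^ 2) * t ^ 2 := by ring
    rw [this]; exact mul_le_of_le_one_right (by positivity) ht1
  have e4 : t ^ 2 * τ ^ 2 ≤ t ^ 2 * (2 * (τ0 * τ0 + τs * τs)) := by
    have := sq_nonneg (τ0 - τs)
    exact mul_le_mul_of_nonneg_left (by rw [hτ]; linarith) (sq_nonneg t)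
  have e5 := mul_le_mul_of_nonneg_left e4 (sq_nonneg L)
  have e7 : L ≤ L ^ 2 := by nlinarith
  have e6 : L * τ ≤ L ^ 2 * τ := mul_le_mul_of_nonneg_right e7 hτ0
  have e8 : 0 ≤ L ^ 2 * τ := by positivity
  have e9 : L ^ 2 * τ = L ^ 2 * τ0 + L ^ 2 * τs := by rw [hτ]; ring
  linarith

lemma bdN {C lam t δ τ0 τs a : ℝ} {g : E6} (hC : 0 ≤ C) (hl0 : 0 < lam) (ht : 0 < t)
    (htδ : t ≤ δ) (hδ : δ ≤ 1) (h0 : 0 ≤ τ0) (hs : 0 ≤ τs) (hg : ‖g‖ ≤ C * (τ0 + τs))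
    (ha : a = lam * t ^ 2 * (τ0 + τs) + δ) :
    wq (GG a g) (GG a g) ≤ wq g g +
      16 * (C + lam + 1) ^ 2 * (t ^ 2 * (τ0 * τ0) + t ^ 2 * (τs * τs) + τ0 + τs + 1) := by
  refine (GG_le _ _).trans ?_
  have hτ0 : 0 ≤ τ0 + τs := by positivity
  have hδ0 : 0 < δ := by linarith
  have hs0 : 0 ≤ t ^ 2 * (τ0 + τs) := by positivity
  have := real2 (L := C + lam + 1) (t := t) (a := a) (x := g 0) (by linarith)
    (pow_le_one₀ ht.le (htδ.trans hδ)) h0 hs (by rw [ha]; positivity) ?_ ?_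
  · linarith
  · have : lam * (t ^ 2 * (τ0 + τs)) ≤ (C + lam + 1) * (t ^ 2 * (τ0 + τs)) :=
      mul_le_mul_of_nonneg_right (by linarith) hs0
    rw [ha]; linarith
  · have := (abs_le.1 (abs_0_le g)).2
    have : C * (τ0 + τs) ≤ (C + lam + 1) * (τ0 + τs) :=
      mul_le_mul_of_nonneg_right (by linarith) hτ0
    linarith

lemma real3 {L t δ τ0 a x : ℝ} (hL1 : 1 ≤ L) (ht1 : t ^ 2 ≤ 1) (hδ0 : 0 < δ) (hδ : δ ≤ 1)
    (h0 : 0 ≤ τ0) (ha0 : 0 ≤ a) (ha1 : a ≤ L * (t ^ 2 * τ0 + δ)) (hx : x ≤ L * (τ0 + δ)) :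
    2 * (2 * (L * τ0) * (L * δ)) + 2 * (L * δ) * (L * δ) + 4 * a * x + 2 * a ^ 2
      ≤ 16 * L ^ 2 * (t ^ 2 * (τ0 * τ0) + δ * τ0 + δ) := by
  have e1 : a * x ≤ (L * (t ^ 2 * τ0 + δ)) * (L * (τ0 + δ)) :=
    (mul_le_mul_of_nonneg_left hx ha0).trans (by gcongr)
  have e2 : a ^ 2 ≤ (L * (t ^ 2 * τ0 + δ)) ^ 2 := by gcongr
  have d1 : δ * δ ≤ δ := mul_le_of_le_one_right hδ0.le hδ
  have d2 : t ^ 2 * (δ * τ0) ≤ δ * τ0 := mul_le_of_le_one_left (by positivity) ht1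
  have d3 : t ^ 2 * (t ^ 2 * (τ0 * τ0)) ≤ t ^ 2 * (τ0 * τ0) :=
    mul_le_of_le_one_left (by positivity) ht1
  have f1 : (t ^ 2 * τ0 + δ) * (τ0 + δ) ≤ t ^ 2 * (τ0 * τ0) + 2 * (δ * τ0) + δ := by linarith
  have f2 : (t ^ 2 * τ0 + δ) ^ 2 ≤ 2 * (t ^ 2 * (τ0 * τ0)) + 2 * δ := by
    have := sq_nonneg (t ^ 2 * τ0 - δ)
    linarith
  have g1 := mul_le_mul_of_nonneg_left f1 (sq_nonneg L)
  have g2 := mul_le_mul_of_nonneg_left f2 (sq_nonneg L)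
  have g3 := mul_le_mul_of_nonneg_left d1 (sq_nonneg L)
  have p1 : 0 ≤ L ^ 2 * (t ^ 2 * (τ0 * τ0)) := by positivity
  have p2 : 0 ≤ L ^ 2 * (δ * τ0) := by positivity
  have p3 : 0 ≤ L ^ 2 * δ := by positivity
  linarith

lemma bdM {C lam t δ τ0 τs a : ℝ} {g0 gs : E6} (hC : 0 ≤ C) (hl0 : 0 < lam) (ht : 0 < t)
    (htδ : t ≤ δ) (hδ : δ ≤ 1) (h0 : 0 ≤ τ0) (hs : 0 ≤ τs) (hsδ : τs ≤ δ) (hg0 : ‖g0‖ ≤ C * τ0)
    (hgs : ‖gs‖ ≤ C * τs) (ha : a = lam * t ^ 2 * (τ0 + τs) + δ) :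
    wq (GG a (g0 + gs)) (GG a (g0 + gs))
      ≤ wq g0 g0 + 16 * (C + lam + 1) ^ 2 * (t ^ 2 * (τ0 * τ0) + δ * τ0 + δ) := by
  refine (GG_le _ _).trans ?_
  obtain ⟨L, hL⟩ : ∃ L, L = C + lam + 1 := ⟨_, rfl⟩
  rw [← hL]
  have hL1 : 1 ≤ L := by linarith
  have hδ0 : 0 < δ := by linarith
  have ht1 : t ^ 2 ≤ 1 := pow_le_one₀ ht.le (htδ.trans hδ)
  have n0 : ‖g0‖ ≤ L * τ0 := hg0.trans (mul_le_mul_of_nonneg_right (by linarith) h0)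
  have ns : ‖gs‖ ≤ L * δ := hgs.trans (mul_le_mul (by linarith) hsδ hs (by linarith))
  have w1 : wq (g0 + gs) (g0 + gs) = wq g0 g0 + 2 * wq g0 gs + wq gs gs := by
    rw [wq_add_l, wq_add_r, wq_add_r, wq_symm gs g0]; ring
  have w2 : wq g0 gs ≤ 2 * (L * τ0) * (L * δ) :=
    ((le_abs_self _).trans (abs_wq_le _ _)).trans (by gcongr)
  have w3 : wq gs gs ≤ 2 * (L * δ) * (L * δ) :=
    ((le_abs_self _).trans (abs_wq_le _ _)).trans (by gcongr)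
  have hg : (g0 + gs) 0 ≤ L * (τ0 + δ) := by
    have := (abs_le.1 (abs_0_le (g0 + gs))).2
    have := norm_add_le g0 gs
    linarith
  have ha1 : a ≤ L * (t ^ 2 * τ0 + δ) := by
    have f1 : t ^ 2 * τs ≤ δ := (mul_le_of_le_one_left hs ht1).trans hsδ
    have f2 : lam * (t ^ 2 * τs) ≤ lam * δ := by gcongr
    have f4 : 0 ≤ (C + 1) * (t ^ 2 * τ0) := by positivity
    have f5 : 0 ≤ C * δ := by positivity
    rw [ha, hL]; linarith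
  have := real3 hL1 ht1 hδ0 hδ h0 (by rw [ha]; positivity) ha1 hg
  rw [w1]
  linarith

lemma nnM {C lam t δ τ0 : ℝ} {g0 : E6} (hC : 0 ≤ C) (hl0 : 0 < lam) (ht : 0 < t)
    (htδ : t ≤ δ) (hδ : δ ≤ 1) (h0 : 0 ≤ τ0) (hg : AP C t τ0 g0) :
    0 ≤ wq g0 g0 + 16 * (C + lam + 1) ^ 2 * (t ^ 2 * (τ0 * τ0) + δ * τ0 + δ) := by
  obtain ⟨g1, -, g3⟩ := hg
  have hδ0 : 0 < δ := by linarith
  have ht1 : t ^ 2 ≤ 1 := by nlinarith
  have h1 := (abs_le.1 (abs_0_le g0)).2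
  have hc : 0 ≤ C * t ^ 2 * τ0 := by positivity
  have e1 : ‖Pa g0‖ ^ 2 ≤ (g0 0 + C * t ^ 2 * τ0) ^ 2 := by gcongr
  have e2 : g0 0 * (C * t ^ 2 * τ0) ≤ C * τ0 * (C * t ^ 2 * τ0) :=
    mul_le_mul_of_nonneg_right (h1.trans g1) hc
  have e3 : (C * t ^ 2 * τ0) ^ 2 ≤ C ^ 2 * (t ^ 2 * (τ0 * τ0)) := by
    have : (C * t ^ 2 * τ0) ^ 2 = C ^ 2 * (t ^ 2 * (τ0 * τ0)) * t ^ 2 := by ring
    rw [this]; exact mul_le_of_le_one_right (by positivity) ht1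
  have e4 : C ^ 2 * (t ^ 2 * (τ0 * τ0)) ≤ (C + lam + 1) ^ 2 * (t ^ 2 * (τ0 * τ0)) := by
    gcongr; linarith
  have p1 : 0 ≤ (C + lam + 1) ^ 2 * (t ^ 2 * (τ0 * τ0)) := by positivity
  have p2 : 0 ≤ (C + lam + 1) ^ 2 * (δ * τ0) := by positivity
  have p3 : 0 ≤ (C + lam + 1) ^ 2 * δ := by positivity
  rw [wq_self]
  nlinarith [sq_nonneg ‖Pm g0‖]

lemma pt {σ B C lam t δ η τ0 τs a A r : ℝ} {g0 gs : E6} (hσ : 0 ≤ σ) (hB : σ ≤ B) (hC : 0 ≤ C)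
    (hl : 2 * C ≤ lam) (hl' : 4 * B * C ≤ η ^ 2 * lam) (hl0 : 0 < lam) (ht : 0 < t) (htδ : t ≤ δ)
    (hδ : δ ≤ 1) (hη : 0 < η) (htB : 4 * B * t ^ 2 ≤ η ^ 2) (h0 : 0 ≤ τ0) (hs : 0 ≤ τs)
    (hg0 : AP C t τ0 g0) (hgs : AP C t τs gs) (hA : 0 < A) (hr : 0 < r)
    (ha : a = lam * t ^ 2 * (τ0 + τs) + δ) :
    wq (g0 + gs) (hh σ a (g0 + gs)) ≤ A / 2 * B * (if δ < τs then 1 else 0) +
      (2 * A)⁻¹ * (wq (g0 + gs) (g0 + gs) + 16 * (C + lam + 1) ^ 2 *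
        (t ^ 2 * (τ0 * τ0) + t ^ 2 * (τs * τs) + τ0 + τs + 1)) + r / 2 * σ +
      (2 * r)⁻¹ * (wq g0 g0 + 16 * (C + lam + 1) ^ 2 * (t ^ 2 * (τ0 * τ0) + δ * τ0 + δ)) := by
  have hg := ap_add hg0 hgs
  obtain ⟨c0, -, -, -, -, c1⟩ := cone hσ hB hC hl hl' hl0 ht (ht.trans_le htδ) hη htB
    (add_nonneg h0 hs) hg ha
  have bN := bdN hC hl0 ht htδ hδ h0 hs hg.1 ha
  have nM := nnM hC hl0 ht htδ hδ h0 hg0
  have iA : 0 ≤ (2 * A)⁻¹ := by positivity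
  have ir : 0 ≤ (2 * r)⁻¹ := by positivity
  refine c1.trans ?_
  split_ifs with hd
  · have e1 := amgm hσ c0.le hA
    have e2 := mul_le_mul_of_nonneg_left bN iA
    have e3 := mul_nonneg ir nM
    have e4 : A / 2 * σ ≤ A / 2 * B := by gcongr
    have e5 : 0 ≤ r / 2 * σ := by positivity
    linarith
  · have bM := bdM hC hl0 ht htδ hδ h0 hs (not_lt.1 hd) hg0.1 hgs.1 ha
    have e1 := amgm hσ c0.le hr
    have e2 := mul_le_mul_of_nonneg_left bM ir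
    have e3 := mul_nonneg iA (c0.le.trans bN)
    linarith

lemma int_bd (ν : Measure V) [IsFiniteMeasure ν] {w q q0 σ τ0 τs : V → ℝ}
    {c1 c2 c3 c4 K t δ W m : ℝ} (iw : Integrable w ν) (iq : Integrable q ν)
    (iq0 : Integrable q0 ν) (iσ : Integrable σ ν) (i0 : Integrable τ0 ν) (is : Integrable τs ν)
    (i00 : Integrable (fun y => τ0 y * τ0 y) ν) (iss : Integrable (fun y => τs y * τs y) ν)
    (ms : Measurable τs) (h1 : 0 ≤ c1) (h2 : 0 ≤ c2) (h4 : 0 ≤ c4) (hK : 0 ≤ K) (hδ0 : 0 ≤ δ)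
    (hδ : δ ≤ 1) (hm : ν.real univ ≤ m) (b0 : ∫ y, τ0 y ∂ν ≤ W) (bs : ∫ y, τs y ∂ν ≤ W)
    (b00 : t ^ 2 * ∫ y, τ0 y * τ0 y ∂ν ≤ δ) (bss : t ^ 2 * ∫ y, τs y * τs y ∂ν ≤ W)
    (bS : ν.real {y | δ < τs y} ≤ δ)
    (h : ∀ᵐ y ∂ν, w y ≤ c1 * (if δ < τs y then 1 else 0) +
      c2 * (q y + K * (t ^ 2 * (τ0 y * τ0 y) + t ^ 2 * (τs y * τs y) + τ0 y + τs y + 1)) +
      c3 * σ y + c4 * (q0 y + K * (t ^ 2 * (τ0 y * τ0 y) + δ * τ0 y + δ))) :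
    ∫ y, w y ∂ν ≤ c1 * δ + c2 * (∫ y, q y ∂ν + K * (1 + 3 * W + m)) + c3 * ∫ y, σ y ∂ν +
      c4 * (∫ y, q0 y ∂ν + K * (δ * (1 + W + m))) := by
  have hS : MeasurableSet {y | δ < τs y} := measurableSet_lt measurable_const ms
  have eS : (fun y => if δ < τs y then (1 : ℝ) else 0) = {y | δ < τs y}.indicator 1 := by
    ext y; simp [Set.indicator_apply]
  have iS : Integrable (fun y => if δ < τs y then (1 : ℝ) else 0) ν := by
    rw [eS]; exact (integrable_const (1 : ℝ)).indicator hS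
  have vS : ∫ y, (if δ < τs y then (1 : ℝ) else 0) ∂ν = ν.real {y | δ < τs y} := by
    rw [eS]; exact integral_indicator_one hS
  have j1 := i00.const_mul (t ^ 2)
  have j2 := iss.const_mul (t ^ 2)
  have j3 := i0.const_mul δ
  have jA : Integrable (fun y => t ^ 2 * (τ0 y * τ0 y) + t ^ 2 * (τs y * τs y) + τ0 y + τs y + 1)
      ν := (((j1.add j2).add i0).add is).add (integrable_const 1)
  have jB : Integrable (fun y => t ^ 2 * (τ0 y * τ0 y) + δ * τ0 y + δ) ν :=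
    (j1.add j3).add (integrable_const δ)
  have vA : ∫ y, (t ^ 2 * (τ0 y * τ0 y) + t ^ 2 * (τs y * τs y) + τ0 y + τs y + 1) ∂ν
      ≤ 1 + 3 * W + m := by
    erw [integral_add (((j1.add j2).add i0).add is) (integrable_const 1),
      integral_add ((j1.add j2).add i0) is, integral_add (j1.add j2) i0, integral_add j1 j2,
      integral_const_mul, integral_const_mul, integral_const, smul_eq_mul, mul_one]
    linarith
  have vB : ∫ y, (t ^ 2 * (τ0 y * τ0 y) + δ * τ0 y + δ) ∂ν ≤ δ * (1 + W + m) := by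
    erw [integral_add (j1.add j3) (integrable_const δ), integral_add j1 j3,
      integral_const_mul, integral_const_mul, integral_const, smul_eq_mul]
    have e1 := mul_le_mul_of_nonneg_left b0 hδ0
    have e2 := mul_le_mul_of_nonneg_right hm hδ0
    linarith
  have k1 := iS.const_mul c1
  have k2 := (iq.add (jA.const_mul K)).const_mul c2
  have k3 := iσ.const_mul c3
  have k4 := (iq0.add (jB.const_mul K)).const_mul c4
  refine (integral_mono_ae iw (((k1.add k2).add k3).add k4) h).trans ?_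
  erw [integral_add ((k1.add k2).add k3) k4, integral_add (k1.add k2) k3, integral_add k1 k2,
    integral_const_mul, integral_const_mul, integral_const_mul, integral_const_mul,
    integral_add iq (jA.const_mul K), integral_add iq0 (jB.const_mul K), integral_const_mul,
    integral_const_mul, vS]
  gcongr

lemma meas_hh {ν : Measure V} {σ a : V → ℝ} {g : V → E6} (hσ : AEStronglyMeasurable σ ν)
    (ha : AEStronglyMeasurable a ν) (hg : AEStronglyMeasurable g ν) :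
    AEStronglyMeasurable (fun y => hh (σ y) (a y) (g y)) ν := by
  have h1 : AEStronglyMeasurable (fun y => GG (a y) (g y)) ν :=
    (Po.continuous.comp_aestronglyMeasurable hg).add (ha.smul_const _)
  have h2 : AEStronglyMeasurable (fun y => wq (GG (a y) (g y)) (GG (a y) (g y))) ν :=
    continuous_wq.comp_aestronglyMeasurable (h1.prodMk h1)
  have h3 := (Real.continuous_sqrt.comp_aestronglyMeasurable hσ).aemeasurable
  have h4 := (Real.continuous_sqrt.comp_aestronglyMeasurable h2).aemeasurable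
  exact (h3.div h4).aestronglyMeasurable.smul h1

lemma fin_real {n W m K η r A B δ S1 S0 Sσ : ℝ} (hn : 0 ≤ n) (hW : 0 ≤ W) (hm : 0 ≤ m)
    (hK : 0 ≤ K) (hη : 0 < η) (hr : 0 ≤ r) (hB : 0 ≤ B) (hδ : 0 < δ)
    (hA : A = 2 * (W + n * (K * (1 + 3 * W + m))) / η + 1)
    (h1 : δ * (2 * A * B * n + 1) ≤ η) (h2 : δ * (4 * (1 + n * (K * (1 + W + m)))) ≤ η ^ 2)
    (s1 : S1 ≤ W) (s0 : S0 ≤ r ^ 2 + δ) (sσ : Sσ ≤ 1) :
    n * (A / 2 * B * δ) + (2 * A)⁻¹ * (S1 + n * (K * (1 + 3 * W + m))) + (r + η / 2) / 2 * Sσ +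
      (2 * (r + η / 2))⁻¹ * (S0 + n * (K * (δ * (1 + W + m)))) ≤ r + η := by
  obtain ⟨W', hW'⟩ : ∃ W', W' = W + n * (K * (1 + 3 * W + m)) := ⟨_, rfl⟩
  obtain ⟨K', hK'⟩ : ∃ K', K' = 1 + n * (K * (1 + W + m)) := ⟨_, rfl⟩
  rw [← hW'] at hA
  rw [← hK'] at h2
  have hW0 : 0 ≤ W' := by rw [hW']; positivity
  have hK0 : 0 ≤ K' := by rw [hK']; positivity
  have hA0 : 0 < A := by rw [hA]; positivity
  have hr' : 0 < r + η / 2 := by positivity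
  have e1 : n * (A / 2 * B * δ) ≤ η / 4 := by linarith
  have e2 : (2 * A)⁻¹ * (S1 + n * (K * (1 + 3 * W + m))) ≤ η / 4 := by
    rw [inv_mul_le_iff₀ (by positivity)]
    have : 2 * A * (η / 4) = W' + η / 2 := by rw [hA]; field_simp; ring
    linarith
  have e3 : (r + η / 2) / 2 * Sσ ≤ (r + η / 2) / 2 := mul_le_of_le_one_right (by positivity) sσ
  have e4 : (2 * (r + η / 2))⁻¹ * (S0 + n * (K * (δ * (1 + W + m)))) ≤ r / 2 + η / 4 := by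
    rw [inv_mul_le_iff₀ (by positivity)]
    have f1 : S0 + n * (K * (δ * (1 + W + m))) ≤ r ^ 2 + δ * K' := by rw [hK']; linarith
    have f2 : 0 ≤ r * η := by positivity
    linarith
  linarith

end Ad

variable {X : Type*} [TopologicalSpace X] [T2Space X] {D : Dat X} {K : Ker D}

open Ad in
theorem adS (li : LinS) (hi : HilS D) : AdS D := by
  intro σ B0 C W r η mσ hσ0 sσ hC hW hr hη
  obtain ⟨B, hBd⟩ : ∃ B, B = max B0 0 := ⟨_, rfl⟩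
  have hB : 0 ≤ B := by rw [hBd]; exact le_max_right _ _
  have hσ : ∀ j, ∀ᵐ y ∂(D.nu j), 0 ≤ σ j y ∧ σ j y ≤ B := fun j =>
    (hσ0 j).mono fun y hy => ⟨hy.1, hy.2.trans (by rw [hBd]; exact le_max_left _ _)⟩
  have := hi.fin
  obtain ⟨lam, hlam⟩ : ∃ lam, lam = 2 * C + 4 * B * C / η ^ 2 + 1 := ⟨_, rfl⟩
  have q0 : 0 ≤ 4 * B * C / η ^ 2 := by positivity
  have hl : 2 * C ≤ lam := by linarith
  have hl0 : 0 < lam := by linarith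
  have hl' : 4 * B * C ≤ η ^ 2 * lam := by
    have e : η ^ 2 * lam = η ^ 2 * (2 * C + 1) + 4 * B * C := by rw [hlam]; field_simp; ring
    have : 0 ≤ η ^ 2 * (2 * C + 1) := by positivity
    linarith
  obtain ⟨K, hK⟩ : ∃ K, K = 16 * (C + lam + 1) ^ 2 := ⟨_, rfl⟩
  have hK0 : 0 ≤ K := by rw [hK]; positivity
  obtain ⟨m, hm⟩ : ∃ m, m = ∑ j, (D.nu j).real univ := ⟨_, rfl⟩
  have hm0 : 0 ≤ m := by rw [hm]; exact Finset.sum_nonneg fun j _ => measureReal_nonneg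
  have hmj : ∀ j, (D.nu j).real univ ≤ m := fun j => by
    rw [hm]
    exact Finset.single_le_sum (f := fun j => (D.nu j).real univ)
      (fun j _ => measureReal_nonneg) (Finset.mem_univ j)
  obtain ⟨A, hA⟩ : ∃ A, A = 2 * (W + (D.n : ℝ) * (K * (1 + 3 * W + m))) / η + 1 := ⟨_, rfl⟩
  have hA0 : 0 < A := by rw [hA]; positivity
  have p1 : 0 < 2 * A * B * D.n + 1 := by positivity
  have p2 : 0 < 4 * (1 + D.n * (K * (1 + W + m))) := by positivity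
  have p3 : 0 < 4 * B + 1 := by positivity
  obtain ⟨δ, hδ0, hδ, d1, d2, d3⟩ : ∃ δ : ℝ, 0 < δ ∧ δ ≤ 1 ∧ δ * (2 * A * B * D.n + 1) ≤ η ∧
      δ * (4 * (1 + D.n * (K * (1 + W + m)))) ≤ η ^ 2 ∧ δ * (4 * B + 1) ≤ η ^ 2 := by
    refine ⟨min (min 1 (η / (2 * A * B * D.n + 1)))
      (min (η ^ 2 / (4 * (1 + D.n * (K * (1 + W + m))))) (η ^ 2 / (4 * B + 1))), by positivity,
      (min_le_left _ _).trans (min_le_left _ _), ?_, ?_, ?_⟩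
    · exact (le_div_iff₀ p1).1 ((min_le_left _ _).trans (min_le_right _ _))
    · exact (le_div_iff₀ p2).1 ((min_le_right _ _).trans (min_le_left _ _))
    · exact (le_div_iff₀ p3).1 ((min_le_right _ _).trans (min_le_right _ _))
  refine ⟨δ, hδ0, ?_⟩
  intro t θ0 θs τ0 τs ht htδ mτ nτ iτ bτ aτ hq0 hq
  have htB : 4 * B * t ^ 2 ≤ η ^ 2 := by
    have e1 : t ^ 2 ≤ δ := by nlinarith
    have e2 : 4 * B * t ^ 2 ≤ 4 * B * δ := by gcongr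
    linarith
  have hadd : ∀ j, ∀ᵐ y ∂(D.nu j), (θ0 + θs) j y = θ0 j y + θs j y := fun j =>
    Lp.coeFn_add (θ0 j) (θs j)
  obtain ⟨f, hf⟩ : ∃ f : Fin D.n → V → E6, f = fun j y =>
    hh (σ j y) (lam * t ^ 2 * (τ0 j y + τs j y) + δ) (θ0 j y + θs j y) := ⟨_, rfl⟩
  have mf : ∀ j, AEStronglyMeasurable (f j) (D.nu j) := fun j => by
    rw [hf]
    exact meas_hh (mσ j) ((((mτ j).1.add (mτ j).2).const_mul _).add_const _).aestronglyMeasurable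
      ((Lp.aestronglyMeasurable (θ0 j)).add (Lp.aestronglyMeasurable (θs j)))
  have cf : ∀ j, ∀ᵐ y ∂(D.nu j), Pm (f j y) = 0 ∧ ‖Pa (f j y)‖ ≤ f j y 0 ∧
      σ j y ≤ wq (f j y) (f j y) ∧ ‖f j y‖ ≤ η / t := fun j => by
    filter_upwards [hσ j, aτ j] with y h1 h2
    obtain ⟨-, c1, c2, c3, c4, -⟩ := cone h1.1 h1.2 hC hl hl' hl0 ht hδ0 hη htB
      (add_nonneg (nτ j y).1 (nτ j y).2) (ap_add h2.1 h2.2) rfl
    rw [hf]
    exact ⟨c1, c2, c3, c4⟩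
  have lf : ∀ j, MemLp (f j) 2 (D.nu j) := fun j =>
    MemLp.of_bound (mf j) (η / t) ((cf j).mono fun y hy => hy.2.2.2)
  obtain ⟨h, hh'⟩ : ∃ h : D.H, ∀ j, ∀ᵐ y ∂(D.nu j), h j y = f j y :=
    ⟨WithLp.toLp 2 (fun j => (lf j).toLp _), fun j => (lf j).coeFn_toLp⟩
  refine ⟨h, fun j => ?_, ?_⟩
  · filter_upwards [cf j, hh' j] with y h1 h2
    rw [h2]; exact h1
  have hr' : 0 < r + η / 2 := by positivity
  have key : ∀ j, ∫ y, wq ((θ0 + θs) j y) (h j y) ∂(D.nu j) ≤ A / 2 * B * δ +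
      (2 * A)⁻¹ * (∫ y, wq ((θ0 + θs) j y) ((θ0 + θs) j y) ∂(D.nu j) + K * (1 + 3 * W + m)) +
      (r + η / 2) / 2 * ∫ y, σ j y ∂(D.nu j) + (2 * (r + η / 2))⁻¹ *
        (∫ y, wq (θ0 j y) (θ0 j y) ∂(D.nu j) + K * (δ * (1 + W + m))) := fun j => by
    obtain ⟨i1, i2, i3, i4⟩ := iτ j
    obtain ⟨b1, b2, b3, b4, b5⟩ := bτ j
    have iσ : Integrable (σ j) (D.nu j) := Integrable.of_bound (mσ j) B
      ((hσ j).mono fun y hy => by rw [Real.norm_of_nonneg hy.1]; exact hy.2)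
    refine int_bd (D.nu j) ((hi.qH_eq _ _).1 j) ((hi.qH_eq _ _).1 j) ((hi.qH_eq _ _).1 j) iσ
      i1 i2 i3 i4 (mτ j).2 (by positivity) (by positivity) (by positivity) hK0 hδ0.le hδ (hmj j)
      b1 b2 b3 b4 b5 ?_
    filter_upwards [hσ j, aτ j, hadd j, hh' j] with y h1 h2 h3 h4
    rw [h3, h4, hf, hK]
    exact pt h1.1 h1.2 hC hl hl' hl0 ht htδ hδ hη htB (nτ j y).1 (nτ j y).2 h2.1 h2.2 hA0 hr' rfl
  rw [(hi.qH_eq _ _).2] at hq0 hq ⊢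
  refine (Finset.sum_le_sum fun j _ => key j).trans ?_
  simp only [Finset.sum_add_distrib, ← Finset.mul_sum, Finset.sum_const, Finset.card_univ,
    Fintype.card_fin, nsmul_eq_mul]
  refine le_of_eq_of_le ?_
    (fin_real (Nat.cast_nonneg _) hW hm0 hK0 hη hr hB hδ0 hA d1 d2 hq hq0 sσ)
  ring

end Vale.Agent.P247
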