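import Vale.Agent.P247.Defs

set_option maxSynthPendingDepth 3

open scoped Topology ContDiff RealInnerProductSpace Manifold
open Set Metric MeasureTheory Filter

noncomputable section
namespace Vale.Agent.P247

open Vale.Agent.P204 Vale.Agent.P204.Bridge

namespace App

lemma slice {H : V × ℝ → E6} (hH : ContDiff ℝ ∞ H) (l : ℕ) (ε : ℝ) (z : V) :
    iteratedFDeriv ℝ l (fun z => H (z, ε)) z = (iteratedFDeriv ℝ l H (z, ε)).compContinuousLinearMap
      fun _ => ContinuousLinearMap.inl ℝ V ℝ := by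
  have h1 : (fun z => H (z, ε)) = (fun p => H (p + (0, ε))) ∘ ContinuousLinearMap.inl ℝ V ℝ := by
    funext z
    simp
  have h2 : ContDiff ℝ ∞ fun p => H (p + (0, ε)) := hH.comp (contDiff_id.add contDiff_const)
  rw [h1, ContinuousLinearMap.iteratedFDeriv_comp_right _ h2 _ (mod_cast le_top),
    iteratedFDeriv_comp_add_right]
  simp

lemma lip {H : V × ℝ → E6} (hH : ContDiff ℝ ∞ H) (h0 : ∀ z, H (z, 0) = 0)
    (h3 : ∀ z ε, 3 < ‖z‖ → H (z, ε) = 0) (ε0 : ℝ) (l : ℕ) :
    ∃ C, 0 ≤ C ∧ ∀ ε, 0 ≤ ε → ε ≤ ε0 → ∀ z,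
      ‖iteratedFDeriv ℝ l (fun z => H (z, ε)) z‖ ≤ C * ε := by
  have h1 : ContDiff ℝ 1 (iteratedFDeriv ℝ l H) := hH.iteratedFDeriv_right (mod_cast le_top)
  obtain ⟨L, hL⟩ := (h1.contDiffOn (s := closedBall (0 : V) 3 ×ˢ Icc 0 ε0)).exists_lipschitzOnWith
    one_ne_zero ((convex_closedBall _ _).prod (convex_Icc _ _))
    ((isCompact_closedBall _ _).prod isCompact_Icc)
  refine ⟨L * ∏ _i : Fin l, ‖ContinuousLinearMap.inl ℝ V ℝ‖, by positivity, fun ε hε hε' z => ?_⟩
  by_cases hz : ‖z‖ ≤ 3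
  · have h2 := slice hH l 0 z
    have h4 : (fun z => H (z, 0)) = fun _ => 0 := funext h0
    rw [h4, iteratedFDeriv_fun_zero] at h2
    have h5 : iteratedFDeriv ℝ l (fun z => H (z, ε)) z =
        (iteratedFDeriv ℝ l H (z, ε) - iteratedFDeriv ℝ l H (z, 0)).compContinuousLinearMap
          fun _ => ContinuousLinearMap.inl ℝ V ℝ := by
      rw [slice hH]
      ext m
      have h6 := congrArg (fun f => f m) h2
      simp only [ContinuousMultilinearMap.compContinuousLinearMap_apply, Pi.zero_apply,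
        zero_apply, sub_apply] at h6 ⊢
      rw [← h6, sub_zero]
    have h7 := hL.norm_sub_le (x := (z, ε)) (y := (z, 0))
      ⟨mem_closedBall_zero_iff.2 hz, hε, hε'⟩ ⟨mem_closedBall_zero_iff.2 hz, le_rfl, hε.trans hε'⟩
    rw [Prod.mk_sub_mk, sub_self, sub_zero, Prod.norm_mk, norm_zero, Real.norm_of_nonneg hε,
      max_eq_right hε] at h7
    rw [h5, mul_right_comm]
    exact (ContinuousMultilinearMap.norm_compContinuousLinearMap_le _ _).trans
      (mul_le_mul_of_nonneg_right h7 (by positivity))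
  · have h2 : (fun z => H (z, ε)) =ᶠ[𝓝 z] fun _ => 0 := by
      filter_upwards [(isOpen_lt continuous_const continuous_norm).mem_nhds (not_le.1 hz)]
        with y hy using h3 y ε hy
    rw [(h2.iteratedFDeriv ℝ l).eq_of_nhds, iteratedFDeriv_fun_zero, Pi.zero_apply, norm_zero]
    positivity

lemma cv (Hs : V × V × ℝ → Op) (a : V → E6) {ε : ℝ} (hε : 0 < ε) (z : V) :
    ∫ y, ksc Hs ε y z (a y) = ∫ v, Hs (z - ε • v, v, ε) (a (z - ε • v)) := by
  have h1 := Measure.integral_comp_smul volume (fun x : V => ksc Hs ε (z - x) z (a (z - x))) ε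
  rw [integral_sub_left_eq_self (fun y => ksc Hs ε y z (a y)), finrank_euclideanSpace_fin,
    abs_of_pos (by positivity)] at h1
  simp only [ksc, sub_sub_cancel, smul_smul, inv_mul_cancel₀ hε.ne', one_smul,
    smul_apply, integral_smul] at h1 ⊢
  exact (smul_right_injective E6 (inv_ne_zero (pow_ne_zero 4 hε.ne'))
    (h1.trans (mul_smul _ _ _))).symm

lemma chart (av : AvgS) {Hs : V × V × ℝ → Op} {C0 : ℝ} (hs : ScF Hs C0) {a : V → E6}
    (ha : ContDiff ℝ ∞ a) (ε0 : ℝ) (l : ℕ) : ∃ C, 0 ≤ C ∧ ∀ ε, 0 < ε → ε ≤ ε0 → ∀ z,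
      ‖iteratedFDeriv ℝ l (fun z => cut 2 z • ((∫ y, ksc Hs ε y z (a y)) - a z)) z‖ ≤ C * ε := by
  obtain ⟨h1, h2, h, h3, h4⟩ := hs
  let G : (V × ℝ) × V → E6 := fun q =>
    Hs (q.1.1 - q.1.2 • q.2, q.2, q.1.2) (a (q.1.1 - q.1.2 • q.2))
  have h5 : ContDiff ℝ ∞ fun q : (V × ℝ) × V => q.1.1 - q.1.2 • q.2 := by fun_prop
  have hG : ContDiff ℝ ∞ G :=
    (h1.comp (h5.prodMk (contDiff_snd.prodMk contDiff_fst.snd))).clm_apply (ha.comp h5)
  have h6 := (av.smul volume G id ((closedBall (0 : V) C0).indicator fun _ => 1) (closedBall 0 C0)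
    hG (isCompact_closedBall _ _) aestronglyMeasurable_id
    ((integrable_indicator_iff measurableSet_closedBall).2
      (integrableOn_const (isCompact_closedBall _ _).measure_lt_top.ne))
    (Eventually.of_forall fun y hy => mem_of_indicator_ne_zero hy)).1
  have h7 : ∀ p : V × ℝ, ∫ y, (closedBall (0 : V) C0).indicator (fun _ => (1 : ℝ)) y • G (p, id y) =
      ∫ y, G (p, y) := fun p => integral_congr_ae (Eventually.of_forall fun y => by
    by_cases hy : y ∈ closedBall (0 : V) C0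
    · simp only [indicator_of_mem hy, one_smul, id]
    · simp only [indicator_of_notMem hy, zero_smul, G,
        h2 _ y _ (not_le.1 fun h => hy (mem_closedBall_zero_iff.2 h)), zero_apply])
  simp only [h7] at h6
  have h9 : ∀ z : V, cut 2 z • ((∫ y, G ((z, 0), y)) - a z) = 0 := fun z => by
    by_cases hz : ‖z‖ ≤ 9
    · simp only [G, zero_smul, sub_zero, h3 z _ hz, smul_apply, ContinuousLinearMap.id_apply,
        integral_smul_const, h4 z hz, one_smul, sub_self, smul_zero]
    · rw [cut_zero one_le_two (by linarith), zero_smul]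
  obtain ⟨C, hC, h8⟩ := lip (H := fun p => cut 2 p.1 • ((∫ y, G (p, y)) - a p.1))
    (((cut_sm 2).comp contDiff_fst).smul (h6.sub (ha.comp contDiff_fst))) h9
    (fun z ε hz => by rw [cut_zero one_le_two (by linarith), zero_smul]) ε0 l
  refine ⟨C, hC, fun ε hε hε' z => ?_⟩
  simp only [cv Hs a hε]
  exact h8 ε hε.le hε' z

end App

variable {X : Type*} [TopologicalSpace X] [T2Space X] {D : Dat X} {K : Ker D}

theorem appS (av : AvgS) (nk : NkS) (ga : GeoA D.toAtl) (fo : FormS D) (ha : HatS D)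
    (ms : MS K) : AppS K := by
  intro α k hα
  have h1 : ∀ j, Cc (5 + 1) fun y => cut 5 y • D.loc j α y := fun j =>
    ga.cutoff j _ _ _ (by norm_num) (cut_cc (by norm_num)) (hα j)
  choose C hC h2 using fun j l => App.chart av (K.scf j) (h1 j).1 K.ε0 l
  refine ⟨∑ j, ∑ l ∈ Finset.range (k + 1), C j l,
    Finset.sum_nonneg fun j _ => Finset.sum_nonneg fun l _ => hC j l, fun ε hε hε' => ?_⟩
  rw [Finset.sum_mul]
  refine Finset.sum_le_sum fun j _ => nk.nk_le fun l hl z => ?_
  have h3 : (fun z => cut 2 z • D.loc j (K.M ε (D.iota α) - α) z) = fun z => cut 2 z •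
      ((∫ y, ksc (K.Hs j) ε y z (cut 5 y • D.loc j α y)) - cut 5 z • D.loc j α z) := by
    funext z
    by_cases hz : ‖z‖ ≤ 3
    · have h4 : D.loc j (K.M ε (D.iota α) - α) z = D.loc j (K.M ε (D.iota α)) z - D.loc j α z :=
        map_sub _ _ _
      rw [h4, ms.m3 ε j _ z hε hε' (by linarith), cut_one (r := 5) (by linarith), one_smul]
      congr 2
      refine integral_congr_ae ?_
      filter_upwards [ha.iota j α hα] with y hy
      by_cases hy' : ‖y‖ ≤ 5
      · rw [hy, indicator_of_mem (mem_closedBall_zero_iff.2 (by linarith)), cut_one hy', one_smul]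
        rfl
      · have h5 : K.C0 < ‖ε⁻¹ • (z - y)‖ := by
          have h6 := norm_sub_norm_le y z
          have h7 := mul_le_mul_of_nonneg_left hε' (zero_le_one.trans K.one_le)
          rw [norm_smul, Real.norm_of_nonneg (inv_pos.2 hε).le, norm_sub_rev, ← div_eq_inv_mul,
            lt_div_iff₀ hε]
          linarith [K.small]
        simp only [Ker.k, ksc, (K.scf j).2.1 _ _ _ h5, smul_zero, zero_apply]
    · rw [cut_zero one_le_two (by linarith), zero_smul, zero_smul]
  rw [h3]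
  exact (h2 j l ε hε hε' z).trans (mul_le_mul_of_nonneg_right (Finset.single_le_sum
    (fun l _ => hC j l) (Finset.mem_range.2 (Nat.lt_succ_of_le hl))) hε.le)

end Vale.Agent.P247
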