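import Vale.Agent.P247.Defs

set_option maxSynthPendingDepth 3

open scoped Topology ContDiff RealInnerProductSpace Manifold
open Set Metric MeasureTheory Filter

noncomputable section
namespace Vale.Agent.P247

open Vale.Agent.P204 Vale.Agent.P204.Bridge

namespace Br

lemma bil_apply (h : E6) (p q : V) :
    ((ContinuousLinearMap.compL ℝ V E6 ℝ ((2 : ℝ) • innerSL ℝ h)).comp wv : Bil) p q
      = ap h p q := by
  rw [ap_inner, real_inner_comm]; simp

lemma half_alt2 (L : Bil) (hL : ∀ u v, L u v = -L v u) (p q : V) :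
    ap ((1 / 2 : ℝ) • alt2 L) p q = L p q := by
  rw [ap_smul, ap_alt2, hL q p]; ring

lemma alt_four (m : AlternatingMap ℝ V ℝ (Fin 4)) (v : Fin 4 → V) :
    m v = m (fun i => bv i) * D4 (v 0) (v 1) (v 2) (v 3) := by
  have h1 := m.eq_smul_basis_det (EuclideanSpace.basisFun (Fin 4) ℝ).toBasis
  have h2 : ((EuclideanSpace.basisFun (Fin 4) ℝ).toBasis : Fin 4 → V) = fun i => bv i := by
    funext i
    simp [bv]
  have h3 : (EuclideanSpace.basisFun (Fin 4) ℝ).toBasis.det v = D4 (v 0) (v 1) (v 2) (v 3) := by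
    rw [Module.Basis.det_apply, det4, D4_apply]
    simp only [Module.Basis.toMatrix_apply, OrthonormalBasis.coe_toBasis_repr_apply,
      EuclideanSpace.basisFun_repr]
  have h4 := congrArg (fun T : AlternatingMap ℝ V ℝ (Fin 4) => T v) h1
  simp only [AlternatingMap.smul_apply, smul_eq_mul] at h4
  rw [h4, h2, h3]

lemma wedge_pt (g h : E6) (p q u v : V) :
    ap g p q * ap h u v - ap g p u * ap h q v + ap g p v * ap h q u + ap g q u * ap h p v
      - ap g q v * ap h p u + ap g u v * ap h p q = wq g h * D4 p q u v := by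
  simp only [ap_apply, wq_apply, D4_apply]
  ring

variable {X : Type*} [TopologicalSpace X] [ChartedSpace R4 X]

lemma val (α : Form X) (x : X) (u v : V) : (ofF α).val x u v = ap (α x) u v :=
  bil_apply (α x) u v

lemma anti (α : Form X) (x : X) (u v : V) : (ofF α).val x u v = -(ofF α).val x v u :=
  (val α x u v).trans ((ap_swap _ _ _).trans (congrArg Neg.neg (val α x v u).symm))

lemma to_of (α : Form X) : toForm (ofF α) = α := by
  funext x
  refine ap_ext fun p q => ?_
  exact (half_alt2 (ofF α x) (anti α x) p q).trans (val α x p q)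

lemma of_to (α : St.TwoTensor R4 X) (h : ∀ x u v, α.val x u v = -α.val x v u) :
    ofF (toForm α) = α := by
  funext x
  refine ContinuousLinearMap.ext fun u => ContinuousLinearMap.ext fun v => ?_
  exact (val (toForm α) x u v).trans (half_alt2 (α x) (h x) u v)

lemma lc_comb (e : OpenPartialHomeomorph X V) (α β : Form X) (a : ℝ) (y : V) :
    lc e (α + a • β) y = lc e α y + a • lc e β y := by
  simp only [lc, Pi.add_apply, Pi.smul_apply, map_add, map_smul]

lemma lc_sub (e : OpenPartialHomeomorph X V) (α β : Form X) (y : V) :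
    lc e (α - β) y = lc e α y - lc e β y := by
  simp only [lc, Pi.sub_apply, map_sub]

variable [IsManifold (𝓡 4) ∞ X]

lemma fc (α : Form X) (p : X) (a b : V) {y : V} (hy : y ∈ (chartAt R4 p).target) :
    St.formCoord (ofF α) p a b y = ap (lc (chartAt R4 p) α y) a b := by
  have h := formCoord_eq (α := ofF α) (anti α) p a b hy
  rw [to_of] at h
  exact h

lemma oc (η : X → Cov) (p : X) (a : V) {y : V} (hy : y ∈ (chartAt R4 p).target) :
    St.oneCoord (E := R4) (fun x => η x) p a y = lc1 (chartAt R4 p) η y a := by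
  rw [lc1, fr_eq' (good_chart p) hy]
  rfl

lemma hch (x : X) : ∃ p : X, x ∈ (chartAt R4 p).source := ⟨x, mem_chart_source R4 x⟩

lemma sm (α : Form X) : St.IsSmoothTwoForm (ofF α) ↔ SmC α := by
  have h := sm_iff (α := ofF α) (anti α)
  rw [to_of] at h
  refine Iff.trans h ⟨fun h1 e he => ?_, fun h1 p => h1 _ (good_chart p)⟩
  exact sm_transfer (c' := fun _ : Unit => e) good_chart (fun _ => he) hch h1 ()

lemma cl (na : NatS) (α : Form X) (hs : SmC α) : St.IsClosedTwoForm (ofF α) ↔ ClC α := by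
  have h := cl_iff (α := ofF α) ((sm α).2 hs)
  rw [to_of] at h
  refine Iff.trans h ⟨fun h1 e he => ?_, fun h1 p => h1 _ (good_chart p)⟩
  exact cl_transfer na (c' := fun _ : Unit => e) good_chart (fun _ => he) hch
    (fun p => hs _ (good_chart p)) h1 ()

lemma ex (α β : Form X) (h : ExC (α - β)) : St.Cohomologous (ofF α) (ofF β) := by
  obtain ⟨η, h1, h2⟩ := h
  have hd : ∀ p : X, dom (chartAt R4 p) (univ : Set X) = (chartAt R4 p).target := fun p => by
    rw [dom, preimage_univ, inter_univ]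
  have h3 : ∀ p : X, ContDiffOn ℝ ∞ (lc1 (chartAt R4 p) η) (chartAt R4 p).target := fun p =>
    hd p ▸ h1 _ (good_chart p)
  refine ⟨fun x => η x, fun p a => ?_, fun p y hy a b => ?_⟩
  · exact ((h3 p).clm_apply contDiffOn_const).congr fun y hy => oc η p a hy
  · have hy' := (chartAt R4 p).open_target.mem_nhds hy
    have h4 := ((h3 p).contDiffAt hy').differentiableAt (by simp)
    have h5 : ∀ c d : V, St.dirDeriv (St.oneCoord (E := R4) (fun x => η x) p c) y d
        = fderiv ℝ (lc1 (chartAt R4 p) η) y d c := fun c d => by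
      rw [← fderiv_app h4, St.dirDeriv]
      congr 1
      refine EventuallyEq.fderiv_eq ?_
      filter_upwards [hy'] with z hz using oc η p c hz
    have h6 := h2 _ (good_chart p) y (by rwa [hd])
    rw [h5, h5, fc α p a b hy, fc β p a b hy, ← ap_d1, h6, lc_sub, ap_sub]

lemma fam (α β : Form X) (a : ℝ → ℝ) (p : X) (u v : V) (hα : SmC α) (hβ : SmC β)
    (ha : ContDiff ℝ ∞ a) :
    ContDiffOn ℝ ∞ (fun q : ℝ × V => St.formCoord (ofF (α + a q.1 • β)) p u v q.2)
      (univ ×ˢ (chartAt R4 p).target) := by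
  have h1 : ∀ γ : Form X, SmC γ → ContDiffOn ℝ ∞
      (fun q : ℝ × V => ev u v (lc (chartAt R4 p) γ q.2)) (univ ×ˢ (chartAt R4 p).target) :=
    fun γ hγ => (ev u v).contDiff.comp_contDiffOn
      ((hγ _ (good_chart p)).comp contDiffOn_snd fun q hq => hq.2)
  have h2 : ContDiffOn ℝ ∞ (fun q : ℝ × V => a q.1) (univ ×ˢ (chartAt R4 p).target) :=
    (ha.comp contDiff_fst).contDiffOn
  refine ((h1 α hα).add (h2.mul (h1 β hβ))).congr fun q hq => ?_
  rw [fc _ p u v hq.2, lc_comb, ap_add, ap_smul, ev_apply, ev_apply]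

end Br

theorem brS (na : NatS) (X : Type*) [TopologicalSpace X] [ChartedSpace R4 X]
    [IsManifold (𝓡 4) ∞ X] : BrS X := by
  refine ⟨Br.val, fun α h => ⟨_, Br.of_to α h⟩, Br.sm, Br.cl na, fun μ x v => ?_,
    fun α β x v => ?_, Br.ex, Br.fam⟩
  · exact Br.alt_four (μ x) v
  · rw [← Br.wedge_pt, ← Br.val α, ← Br.val α, ← Br.val α, ← Br.val α, ← Br.val α, ← Br.val α,
      ← Br.val β, ← Br.val β, ← Br.val β, ← Br.val β, ← Br.val β, ← Br.val β]
    rfl

end Vale.Agent.P247
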