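import Vale.Agent.P247.Defs

set_option maxSynthPendingDepth 3

open scoped Topology ContDiff RealInnerProductSpace Manifold
open Set Metric MeasureTheory Filter

noncomputable section
namespace Vale.Agent.P247

open Vale.Agent.P204 Vale.Agent.P204.Bridge

namespace BrV

variable {X : Type*} [TopologicalSpace X] [ChartedSpace R4 X]

lemma det_comp' (A B : End) : (A.comp B).det = A.det * B.det := by
  rw [det_eq_D4, det_eq_D4 B, ← D4_comp]
  rfl

lemma four_eq [IsManifold (𝓡 4) ∞ X] (br : BrS X) (μ : St.FourForm R4 X) (p : X) {y : V}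
    (hy : y ∈ (chartAt R4 p).target) :
    St.fourCoord μ p St.stdFrame y = sg (sig μ) (chartAt R4 p) y := by
  have h := br.four μ ((chartAt R4 p).symm y)
    fun i => (fr (chartAt R4 p) ((chartAt R4 p).symm y) : End) (bv i)
  rw [sg, det_eq_D4, ← h, fr_eq' (good_chart p) hy]
  rfl

lemma sg_trans (σ : X → ℝ) {e c : OpenPartialHomeomorph X V} (he : Good e) (hc : Good c) {y : V}
    (hy : y ∈ e.target ∩ e.symm ⁻¹' c.source) :
    sg σ e y = (fderiv ℝ (fun y => c (e.symm y)) y).det * sg σ c (c (e.symm y)) := by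
  rw [tm_fderiv hc he hy, sg, sg, c.left_inv hy.2, mul_left_comm, mul_comm _ (fr c _ : End).det,
    ← det_comp']
  congr 2
  ext1 v
  simp

lemma sm [IsManifold (𝓡 4) ∞ X] {σ : X → ℝ}
    (h : ∀ p : X, ContDiffOn ℝ ∞ (sg σ (chartAt R4 p)) (chartAt R4 p).target)
    {e : OpenPartialHomeomorph X V} (he : Good e) : ContDiffOn ℝ ∞ (sg σ e) e.target := by
  intro y hy
  obtain ⟨x, hx, rfl⟩ : ∃ x ∈ e.source, e x = y := ⟨_, e.map_target hy, e.right_inv hy⟩
  have hp := mem_chart_source R4 x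
  have gc := good_chart (X := X) x
  have h1 := tm_at gc he hp hx
  have h2 : ContDiffAt ℝ ∞ (sg σ (chartAt R4 x)) (chartAt R4 x (e.symm (e x))) := by
    rw [e.left_inv hx]
    exact (h x).contDiffAt ((chartAt R4 x).open_target.mem_nhds ((chartAt R4 x).map_source hp))
  have h3 : ContDiffAt ℝ ∞ (fun y => (fderiv ℝ (fun y => chartAt R4 x (e.symm y)) y).det *
      sg σ (chartAt R4 x) (chartAt R4 x (e.symm y))) (e x) :=
    (contDiff_det.contDiffAt.comp _ (h1.fderiv_right (m := ∞) (by simp))).mul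
      (h2.comp (f := fun y => chartAt R4 x (e.symm y)) (e x) h1)
  refine (h3.congr_of_eventuallyEq ?_).contDiffWithinAt
  filter_upwards [dom_nhds hp hx] with z hz using sg_trans σ he gc hz

lemma meas_loc [MeasurableSpace X] {σ : X → ℝ} {m : Measure X}
    {e c : OpenPartialHomeomorph X V} (he : Good e) (hc : Good c)
    (h : ∀ S, MeasurableSet S → S ⊆ c.target →
      m (c.symm '' S) = ∫⁻ y in S, ENNReal.ofReal |sg σ c y|)
    {S : Set V} (hS : MeasurableSet S) (hs : S ⊆ e.target ∩ e.symm ⁻¹' c.source) :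
    m (e.symm '' S) = ∫⁻ y in S, ENNReal.ofReal |sg σ e y| := by
  have hsm := tm_smooth hc he
  have ho : IsOpen (e.target ∩ e.symm ⁻¹' c.source) := e.symm.isOpen_inter_preimage c.open_source
  have hinj : InjOn (fun y => c (e.symm y)) S := fun a ha b hb hab =>
    e.symm.injOn (hs ha).1 (hs hb).1 (c.injOn (hs ha).2 (hs hb).2 hab)
  have hd : ∀ y ∈ S, HasFDerivWithinAt (fun y => c (e.symm y))
      (fderiv ℝ (fun y => c (e.symm y)) y) S y := fun y hy =>
    ((hsm.contDiffAt (ho.mem_nhds (hs hy))).differentiableAt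
      (by simp)).hasFDerivAt.hasFDerivWithinAt
  have h1 : e.symm '' S = c.symm '' ((fun y => c (e.symm y)) '' S) := by
    rw [image_image]
    exact image_congr fun y hy => (c.left_inv (hs hy).2).symm
  rw [h1, h _ (hS.image_of_continuousOn_injOn (hsm.continuousOn.mono hs) hinj)
    (by rintro _ ⟨y, hy, rfl⟩; exact c.map_source (hs hy).2),
    lintegral_image_eq_lintegral_abs_det_fderiv_mul volume hS hd hinj]
  refine setLIntegral_congr_fun hS fun y hy => ?_
  rw [sg_trans σ he hc (hs hy), abs_mul, ENNReal.ofReal_mul (abs_nonneg _)]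

lemma meas [T2Space X] [IsManifold (𝓡 4) ∞ X] [MeasurableSpace X] [BorelSpace X] {σ : X → ℝ}
    {m : Measure X} (h : ∀ (p : X) S, MeasurableSet S → S ⊆ (chartAt R4 p).target →
      m ((chartAt R4 p).symm '' S) = ∫⁻ y in S, ENNReal.ofReal |sg σ (chartAt R4 p) y|)
    {e : OpenPartialHomeomorph X V} (he : Good e) {S : Set V} (hS : MeasurableSet S)
    (hs : S ⊆ e.target) : m (e.symm '' S) = ∫⁻ y in S, ENNReal.ofReal |sg σ e y| := by
  rcases S.eq_empty_or_nonempty with rfl | ⟨y0, hy0⟩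
  · simp
  obtain ⟨U, hU⟩ : ∃ U : X → Set V, ∀ p, U p = e.target ∩ e.symm ⁻¹' (chartAt R4 p).source :=
    ⟨_, fun _ => rfl⟩
  have ho : ∀ p, IsOpen (U p) := fun p =>
    hU p ▸ e.symm.isOpen_inter_preimage (chartAt R4 p).open_source
  obtain ⟨T, hT, hTU⟩ := TopologicalSpace.isOpen_iUnion_countable U ho
  obtain ⟨f, hf⟩ := (hT.insert (e.symm y0)).exists_eq_range (insert_nonempty _ _)
  have hcov : S ⊆ ⋃ k, U (f k) := fun y hy => by
    have h1 : y ∈ ⋃ p, U p :=
      mem_iUnion.2 ⟨e.symm y, by rw [hU]; exact ⟨hs hy, mem_chart_source R4 _⟩⟩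
    rw [← hTU] at h1
    obtain ⟨p, hp, h2⟩ := mem_iUnion₂.1 h1
    obtain ⟨k, rfl⟩ : p ∈ range f := hf ▸ mem_insert_of_mem _ hp
    exact mem_iUnion.2 ⟨k, h2⟩
  obtain ⟨W, hW⟩ : ∃ W : ℕ → Set V, ∀ k, W k = S ∩ disjointed (fun k => U (f k)) k :=
    ⟨_, fun _ => rfl⟩
  have hWm : ∀ k, MeasurableSet (W k) := fun k =>
    hW k ▸ hS.inter (MeasurableSet.disjointed (fun k => (ho (f k)).measurableSet) k)
  have hWs : ∀ k, W k ⊆ e.target ∩ e.symm ⁻¹' (chartAt R4 (f k)).source := fun k y hy => by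
    rw [hW] at hy
    exact hU (f k) ▸ disjointed_subset (fun k => U (f k)) k hy.2
  have hWd : Pairwise (Function.onFun Disjoint W) := fun i j hij => by
    change Disjoint (W i) (W j)
    rw [hW, hW]
    exact (disjoint_disjointed (fun k => U (f k)) hij).mono inter_subset_right inter_subset_right
  have hWU : S = ⋃ k, W k := by
    simp only [hW]
    rw [← inter_iUnion, iUnion_disjointed]
    exact (inter_eq_left.2 hcov).symm
  rw [hWU, image_iUnion, lintegral_iUnion hWm hWd, measure_iUnion]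
  · exact tsum_congr fun k => meas_loc he (good_chart (f k)) (h (f k)) (hWm k) (hWs k)
  · intro i j hij
    exact disjoint_image_image fun a ha b hb hab =>
      disjoint_left.1 (hWd hij) ha (e.symm.injOn (hWs i ha).1 (hWs j hb).1 hab ▸ hb)
  · exact fun k => (hWm k).image_of_continuousOn_injOn
      (e.continuousOn_symm.mono fun y hy => (hWs k hy).1)
      (e.symm.injOn.mono fun y hy => (hWs k hy).1)

end BrV

theorem brVS (X : Type*) [TopologicalSpace X] [ChartedSpace R4 X] [T2Space X] [CompactSpace X]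
    [IsManifold (𝓡 4) ∞ X] [MeasurableSpace X] [BorelSpace X] (br : BrS X) : BrVS X := by
  intro μ m hμ hm
  refine ⟨fun x h0 => ?_, fun e he => BrV.sm (fun p => ?_) he,
    fun e he S hS hs => BrV.meas (fun p S hS hs => ?_) he hS hs⟩
  · obtain ⟨v, hv⟩ := hμ.1 x
    exact hv ((br.four μ x v).trans (by rw [h0, zero_mul]))
  · exact (hμ.2 p St.stdFrame).congr fun y hy => (BrV.four_eq br μ p hy).symm
  · rw [hm p S hS hs]
    refine setLIntegral_congr_fun hS fun y hy => ?_
    rw [BrV.four_eq br μ p (hs hy)]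

end Vale.Agent.P247
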