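import Vale.Agent.P247.Defs
import Vale.Agent.P204.Nat

set_option maxSynthPendingDepth 3

open scoped Topology ContDiff RealInnerProductSpace Manifold
open Set Metric MeasureTheory Filter

noncomputable section
namespace Vale.Agent.P247

open Vale.Agent.P204 Vale.Agent.P204.Bridge

namespace Cech

structure PP (P : V → (V → E6) → V → Cov) : Prop where
  add : ∀ c β β', Continuous β → Continuous β' → P c (β + β') = P c β + P c β'
  smul : ∀ c (a : ℝ) β, P c (a • β) = a • P c β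
  sm : ∀ c β, ContDiff ℝ ∞ β → ContDiff ℝ ∞ (P c β)
  bd : ∀ c β (r B : ℝ), (∀ z ∈ ball c r, ‖β z‖ ≤ B) → ∀ y ∈ ball c r, ‖P c β y‖ ≤ 2 * r * B
  d : ∀ c β (r : ℝ), ContDiff ℝ ∞ β → (∀ z ∈ ball c r, ∀ u v w, cyc β z u v w = 0) →
      ∀ y ∈ ball c r, d1 (P c β) y = β y

structure LL (L : V → (V → Cov) → V → ℝ) : Prop where
  add : ∀ c (r : ℝ) b b', ContinuousOn b (ball c r) → ContinuousOn b' (ball c r) →
      ∀ y ∈ ball c r, L c (b + b') y = L c b y + L c b' y
  smul : ∀ c (a : ℝ) b y, L c (a • b) y = a * L c b y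
  zero : ∀ c b, L c b c = 0
  bd : ∀ c b (r B : ℝ), (∀ z ∈ ball c r, ‖b z‖ ≤ B) → ∀ y ∈ ball c r, |L c b y| ≤ r * B
  d : ∀ c b (r : ℝ), ContDiffOn ℝ ∞ b (ball c r) → (∀ z ∈ ball c r, d1 b z = 0) →
      ContDiffOn ℝ ∞ (L c b) (ball c r) ∧ ∀ y ∈ ball c r, HasFDerivAt (L c b) (b y) y

lemma d1_sub {b b' : V → Cov} {y : V} (h : DifferentiableAt ℝ b y) (h' : DifferentiableAt ℝ b' y) :
    d1 (b - b') y = d1 b y - d1 b' y := by
  rw [d1, d1, d1, fderiv_sub h h', map_sub]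

lemma d1_congr {b b' : V → Cov} {y : V} (h : b =ᶠ[𝓝 y] b') : d1 b y = d1 b' y := by
  rw [d1, d1, h.fderiv_eq]

variable {X : Type*} [TopologicalSpace X] [ChartedSpace R4 X] {D : Dat X} (n : Net D)

abbrev E (a : Fin n.N) : OpenPartialHomeomorph X V := D.e (n.j a)

def xc (a : Fin n.N) : X := (E n a).symm (n.y a)

lemma norm_le {a : Fin n.N} {r : ℝ} (hr : r ≤ 1) {y : V} (hy : y ∈ ball (n.y a) r) : ‖y‖ < 2 := by
  rw [mem_ball, dist_eq_norm] at hy
  have := n.hy a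
  have := norm_sub_norm_le y (n.y a)
  linarith

lemma tgt {a : Fin n.N} {r : ℝ} (hr : r ≤ 1) {y : V} (hy : y ∈ ball (n.y a) r) :
    y ∈ (E n a).target :=
  D.big _ (by rw [mem_closedBall_zero_iff]; linarith [norm_le n hr hy])

lemma B_sub (a : Fin n.N) (r : ℝ) : n.B a r ⊆ (E n a).source := fun _ hx => hx.1

lemma B_ball {a : Fin n.N} {r : ℝ} {x : X} (hx : x ∈ n.B a r) : E n a x ∈ ball (n.y a) r := by
  rw [mem_ball, dist_eq_norm]; exact hx.2

lemma B_mono (a : Fin n.N) {r r' : ℝ} (h : r ≤ r') : n.B a r ⊆ n.B a r' :=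
  fun _ hx => ⟨hx.1, hx.2.trans_le h⟩

lemma B_open (a : Fin n.N) (r : ℝ) : IsOpen (n.B a r) := by
  have : n.B a r = (E n a).source ∩ E n a ⁻¹' ball (n.y a) r := by
    ext x
    simp only [mem_inter_iff, mem_preimage, mem_ball, dist_eq_norm]
    rfl
  rw [this]
  exact (E n a).isOpen_inter_preimage isOpen_ball

lemma symm_B {a : Fin n.N} {r : ℝ} (hr : r ≤ 1) {y : V} (hy : y ∈ ball (n.y a) r) :
    (E n a).symm y ∈ n.B a r := by
  refine ⟨(E n a).map_target (tgt n hr hy), ?_⟩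
  rw [(E n a).right_inv (tgt n hr hy), ← dist_eq_norm]
  exact hy

lemma dom_B (a : Fin n.N) {r : ℝ} (hr : r ≤ 1) : dom (E n a) (n.B a r) = ball (n.y a) r := by
  ext y
  refine ⟨fun h => ?_, fun h => ⟨tgt n hr h, symm_B n hr h⟩⟩
  have := B_ball n h.2
  rwa [(E n a).right_inv h.1] at this

lemma ball_dom {a : Fin n.N} {r : ℝ} (hr : r ≤ 1) {U : Set X} (h : n.B a r ⊆ U) :
    ball (n.y a) r ⊆ dom (E n a) U := fun _ hy => ⟨tgt n hr hy, h (symm_B n hr hy)⟩

lemma xc_B (a : Fin n.N) {r : ℝ} (h0 : 0 < r) (hr : r ≤ 1) : xc n a ∈ n.B a r :=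
  symm_B n hr (mem_ball_self h0)

lemma E_xc (a : Fin n.N) : E n a (xc n a) = n.y a :=
  (E n a).right_inv (tgt n le_rfl (mem_ball_self one_pos))

lemma lc1_sub (e : OpenPartialHomeomorph X V) (η η' : X → Cov) :
    lc1 e (η - η') = lc1 e η - lc1 e η' := by
  funext y; simp [lc1, ContinuousLinearMap.sub_comp]

lemma lc1_add (e : OpenPartialHomeomorph X V) (η η' : X → Cov) :
    lc1 e (η + η') = lc1 e η + lc1 e η' := by
  funext y; simp [lc1, ContinuousLinearMap.add_comp]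

lemma lc1_smul (e : OpenPartialHomeomorph X V) (c : ℝ) (η : X → Cov) :
    lc1 e (c • η) = c • lc1 e η := by
  funext y; simp [lc1, ContinuousLinearMap.smul_comp]

/-- radial primitive of a one-form -/
def pr0 (L : V → (V → Cov) → V → ℝ) (a : Fin n.N) (ξ : X → Cov) (x : X) : ℝ :=
  L (n.y a) (lc1 (E n a) ξ) (E n a x)

variable {L : V → (V → Cov) → V → ℝ} {P : V → (V → E6) → V → Cov}

lemma pr0_xc (hL : LL L) (a : Fin n.N) (ξ : X → Cov) : pr0 n L a ξ (xc n a) = 0 := by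
  rw [pr0, E_xc, hL.zero]

lemma prim (hL : LL L) (on : OneS X) (hf : Fit D) (a : Fin n.N) {r : ℝ} (hr : r ≤ 1)
    {η η' : X → Cov} {U U' : Set X} {γ : Form X} (hU : n.B a r ⊆ U) (hU' : n.B a r ⊆ U')
    (s : Sm1 U η) (s' : Sm1 U' η') (d : D1 U η γ) (d' : D1 U' η' γ) :
    Sm0 (n.B a r) (pr0 n L a (η - η')) ∧ D0 (n.B a r) (pr0 n L a (η - η')) (η - η') := by
  have g := (hf (n.j a)).1
  have s1 := (s _ g).mono (ball_dom n hr hU)
  have s2 := (s' _ g).mono (ball_dom n hr hU')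
  obtain ⟨h1, h2⟩ := hL.d (n.y a) (lc1 (E n a) (η - η')) r (by rw [lc1_sub]; exact s1.sub s2)
    (fun z hz => by
      have hz' := isOpen_ball.mem_nhds hz
      rw [lc1_sub, d1_sub ((s1.contDiffAt hz').differentiableAt (by simp))
        ((s2.contDiffAt hz').differentiableAt (by simp)), d _ g z (ball_dom n hr hU hz),
        d' _ g z (ball_dom n hr hU' hz), sub_self])
  have e : ∀ y ∈ ball (n.y a) r, pr0 n L a (η - η') ((E n a).symm y)
      = L (n.y a) (lc1 (E n a) (η - η')) y := fun y hy => by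
    rw [pr0, (E n a).right_inv (tgt n hr hy)]
  refine ⟨on.sm0 _ _ _ g (B_open n a r) (B_sub n a r) ?_,
    on.dz _ _ _ _ g (B_open n a r) (B_sub n a r) ?_⟩
  · rw [dom_B n a hr]
    exact h1.congr e
  · rw [dom_B n a hr]
    intro y hy
    refine (h2 y hy).congr_of_eventuallyEq ?_
    filter_upwards [isOpen_ball.mem_nhds hy] with z hz using e z hz

lemma const3 (hf : Fit D) (a : Fin n.N) {r : ℝ} (h0 : 0 < r) (hr : r ≤ 1) {U1 U2 U3 : Set X}
    {f1 f2 f3 : X → ℝ} {ξ1 ξ2 ξ3 : X → Cov} (h1 : n.B a r ⊆ U1) (h2 : n.B a r ⊆ U2)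
    (h3 : n.B a r ⊆ U3) (d1 : D0 U1 f1 ξ1) (d2 : D0 U2 f2 ξ2) (d3 : D0 U3 f3 ξ3)
    (h : ξ1 + ξ2 = ξ3) {x : X} (hx : x ∈ n.B a r) :
    f1 x + f2 x - f3 x = f1 (xc n a) + f2 (xc n a) - f3 (xc n a) := by
  have g := (hf (n.j a)).1
  have k : ∀ y ∈ ball (n.y a) r, HasFDerivAt (fun y => f1 ((E n a).symm y) + f2 ((E n a).symm y)
      - f3 ((E n a).symm y)) (0 : Cov) y := fun y hy => by
    have := ((d1 _ g y (ball_dom n hr h1 hy)).add (d2 _ g y (ball_dom n hr h2 hy))).sub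
      (d3 _ g y (ball_dom n hr h3 hy))
    rw [← h, lc1_add, Pi.add_apply, sub_self] at this
    exact this
  have := isOpen_ball.is_const_of_fderiv_eq_zero (𝕜 := ℝ) (convex_ball (n.y a) r).isPreconnected
    (fun y hy => (k y hy).differentiableAt.differentiableWithinAt) (fun y hy => (k y hy).fderiv)
    (B_ball n hx) (mem_ball_self h0)
  simp only [(E n a).left_inv hx.1] at this
  exact this

def be (a : Fin n.N) (α : Form X) (y : V) : E6 := cut 2 y • D.loc (n.j a) α y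

/-- local primitive of a two-form -/
def et (P : V → (V → E6) → V → Cov) (a : Fin n.N) (α : Form X) (x : X) : Cov :=
  (P (n.y a) (be n a α) (E n a x)).comp ((fr (E n a) x).symm : End)

lemma be_sm (ga : GeoA D.toAtl) (a : Fin n.N) {α : Form X} (hα : D.Sm α) :
    ContDiff ℝ ∞ (be n a α) :=
  (ga.cutoff (n.j a) (2 + 1) (cut 2) _ (by norm_num) (cut_cc (by norm_num)) (hα (n.j a))).1

lemma be_eq (a : Fin n.N) (α : Form X) {y : V} (hy : y ∈ ball (n.y a) 1) :
    be n a α y = D.loc (n.j a) α y := by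
  rw [be, cut_one (norm_le n le_rfl hy).le, one_smul]

lemma be_add (a : Fin n.N) (α β : Form X) : be n a (α + β) = be n a α + be n a β := by
  funext y; simp [be, Atl.loc]

lemma be_smul (a : Fin n.N) (c : ℝ) (α : Form X) : be n a (c • α) = c • be n a α := by
  funext y; simp [be, Atl.loc, smul_comm c]

lemma lc1_et (a : Fin n.N) (α : Form X) {y : V} (hy : y ∈ (E n a).target) :
    lc1 (E n a) (et n P a α) y = P (n.y a) (be n a α) y := by
  ext v; simp [lc1, et, (E n a).right_inv hy]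

lemma et_add (hP : PP P) (ga : GeoA D.toAtl) (a : Fin n.N) {α β : Form X} (hα : D.Sm α)
    (hβ : D.Sm β) : et n P a (α + β) = et n P a α + et n P a β := by
  funext x
  rw [et, be_add, hP.add _ _ _ (be_sm n ga a hα).continuous (be_sm n ga a hβ).continuous]
  simp [et, ContinuousLinearMap.add_comp]

lemma et_smul (hP : PP P) (a : Fin n.N) (c : ℝ) (α : Form X) :
    et n P a (c • α) = c • et n P a α := by
  funext x
  rw [et, be_smul, hP.smul]
  simp [et, ContinuousLinearMap.smul_comp]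

lemma et_cd (hP : PP P) (ga : GeoA D.toAtl) (a : Fin n.N) {α : Form X} (hα : D.Sm α) :
    ContDiffOn ℝ ∞ (lc1 (E n a) (et n P a α)) (dom (E n a) (n.B a 1)) :=
  (hP.sm _ _ (be_sm n ga a hα)).contDiffOn.congr fun _ hy => lc1_et n a α hy.1

lemma et_sm (hP : PP P) (on : OneS X) (ga : GeoA D.toAtl) (hf : Fit D) (a : Fin n.N)
    {α : Form X} (hα : D.Sm α) : Sm1 (n.B a 1) (et n P a α) :=
  on.sm1 _ _ _ (hf (n.j a)).1 (B_open n a 1) (B_sub n a 1) (et_cd n hP ga a hα)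

lemma et_d (hP : PP P) (on : OneS X) (ga : GeoA D.toAtl) (hf : Fit D) (a : Fin n.N)
    {α : Form X} (hα : D.Sm α) (hc : D.Cl α) : D1 (n.B a 1) (et n P a α) α := by
  refine on.done _ _ _ _ (hf (n.j a)).1 (B_open n a 1) (B_sub n a 1) (et_cd n hP ga a hα) ?_
  rw [dom_B n a le_rfl]
  intro y hy
  have e1 : lc1 (E n a) (et n P a α) =ᶠ[𝓝 y] P (n.y a) (be n a α) := by
    filter_upwards [isOpen_ball.mem_nhds hy] with z hz using lc1_et n a α (tgt n le_rfl hz)
  rw [d1_congr e1, hP.d _ _ 1 (be_sm n ga a hα) ?_ y hy, be_eq n a α hy, Atl.loc, (hf (n.j a)).2]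
  · rfl
  intro z hz u v w
  have e2 : be n a α =ᶠ[𝓝 z] D.loc (n.j a) α := by
    filter_upwards [isOpen_ball.mem_nhds hz] with z' hz' using be_eq n a α hz'
  rw [cyc_congr e2]
  exact hc _ z (tgt n le_rfl hz) u v w

lemma et_bd (hP : PP P) (se : SemS D) (hf : Fit D) {C : ℝ}
    (hC : ∀ i j x, D.In i 12 x → D.In j 12 x → ‖D.tr i j x‖ ≤ C) (b c : Fin n.N) {α : Form X}
    (hα : D.Sm α) {z : V} (hz : z ∈ ball (n.y b) 1) (hzc : (E n b).symm z ∈ n.B c 1) :
    ‖lc1 (E n b) (et n P c α) z‖ ≤ 2 * D.nrm 0 α * C := by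
  have e : lc1 (E n b) (et n P c α) z = (P (n.y c) (be n c α) (E n c ((E n b).symm z))).comp
      (D.tr (n.j c) (n.j b) ((E n b).symm z)) := by
    rw [Atl.tr, (hf (n.j c)).2, (hf (n.j b)).2]; rfl
  have h1 := hP.bd (n.y c) (be n c α) 1 (D.nrm 0 α) (fun w hw => by
    rw [be_eq n c α hw]; exact se.pt 0 _ α w hα (norm_le n le_rfl hw).le) _ (B_ball n hzc)
  have hzb := symm_B n le_rfl hz
  have h2 := hC (n.j c) (n.j b) ((E n b).symm z)
    ⟨hzc.1, by linarith [norm_le n le_rfl (B_ball n hzc)]⟩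
    ⟨hzb.1, by linarith [norm_le n le_rfl (B_ball n hzb)]⟩
  rw [e]
  refine (ContinuousLinearMap.opNorm_comp_le _ _).trans ?_
  rw [mul_one] at h1
  exact mul_le_mul h1 h2 (norm_nonneg _) ((norm_nonneg _).trans h1)

/-- primitive of the difference of two local primitives -/
def ff (P : V → (V → E6) → V → Cov) (L : V → (V → Cov) → V → ℝ) (a b : Fin n.N) (α : Form X) :
    X → ℝ := pr0 n L a (et n P a α - et n P b α)

lemma adj_symm {a b : Fin n.N} (h : n.Adj a b) : n.Adj b a := by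
  rw [Net.Adj, inter_comm]; exact h

lemma ff_add (hP : PP P) (hL : LL L) (on : OneS X) (ga : GeoA D.toAtl) (hf : Fit D)
    {a b : Fin n.N} (hab : n.Adj a b) {α β : Form X} (hα : D.Sm α) (hβ : D.Sm β) {x : X}
    (hx : x ∈ n.B a n.r2) : ff n P L a b (α + β) x = ff n P L a b α x + ff n P L a b β x := by
  have g := (hf (n.j a)).1
  have k : ∀ γ, D.Sm γ →
      ContinuousOn (lc1 (E n a) (et n P a γ - et n P b γ)) (ball (n.y a) n.r2) := fun γ hγ => by
    rw [lc1_sub]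
    exact (((et_sm n hP on ga hf a hγ _ g).mono (ball_dom n n.le21 (B_mono n a n.le21))).sub
      ((et_sm n hP on ga hf b hγ _ g).mono (ball_dom n n.le21 (n.nest2 a b hab)))).continuousOn
  simp only [ff, pr0]
  rw [et_add n hP ga a hα hβ, et_add n hP ga b hα hβ, add_sub_add_comm, lc1_add]
  exact hL.add _ _ _ _ (k α hα) (k β hβ) _ (B_ball n hx)

lemma ff_smul (hP : PP P) (hL : LL L) (a b : Fin n.N) (c : ℝ) (α : Form X) (x : X) :
    ff n P L a b (c • α) x = c * ff n P L a b α x := by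
  simp only [ff, pr0]
  rw [et_smul n hP, et_smul n hP, ← smul_sub, lc1_smul, hL.smul]

lemma ff_bd (hP : PP P) (hL : LL L) (se : SemS D) (hf : Fit D) {C : ℝ} (hC0 : 0 ≤ C)
    (hC : ∀ i j x, D.In i 12 x → D.In j 12 x → ‖D.tr i j x‖ ≤ C) {a b : Fin n.N}
    (hab : n.Adj a b) {α : Form X} (hα : D.Sm α) {x : X} (hx : x ∈ n.B a n.r2) :
    |ff n P L a b α x| ≤ 4 * C * D.nrm 0 α := by
  have h := hL.bd (n.y a) (lc1 (E n a) (et n P a α - et n P b α)) n.r2 (4 * C * D.nrm 0 α)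
    (fun z hz => by
      have hz1 := ball_subset_ball n.le21 hz
      have h1 := et_bd n hP se hf hC a a hα hz1 (symm_B n le_rfl hz1)
      have h2 := et_bd n hP se hf hC a b hα hz1 (n.nest2 a b hab (symm_B n n.le21 hz))
      rw [lc1_sub, Pi.sub_apply]
      refine (norm_sub_le _ _).trans ?_
      linarith) _ (B_ball n hx)
  have := se.nrm_nn 0 α
  exact h.trans (mul_le_of_le_one_left (by positivity) n.le21)

lemma ff_d (hP : PP P) (hL : LL L) (on : OneS X) (ga : GeoA D.toAtl) (hf : Fit D)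
    {a b : Fin n.N} (hab : n.Adj a b) {α : Form X} (hα : D.Sm α) (hc : D.Cl α) :
    Sm0 (n.B a n.r2) (ff n P L a b α) ∧
      D0 (n.B a n.r2) (ff n P L a b α) (et n P a α - et n P b α) :=
  prim n hL on hf a n.le21 (B_mono n a n.le21) (n.nest2 a b hab) (et_sm n hP on ga hf a hα)
    (et_sm n hP on ga hf b hα) (et_d n hP on ga hf a hα hc) (et_d n hP on ga hf b hα hc)

def Tr (p : Fin n.N × Fin n.N × Fin n.N) : Prop :=
  n.Adj p.1 p.2.1 ∧ n.Adj p.2.1 p.2.2 ∧ n.Adj p.1 p.2.2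

open Classical in
/-- the cocycle of a form -/
def cc (P : V → (V → E6) → V → Cov) (L : V → (V → Cov) → V → ℝ) (α : Form X)
    (p : Fin n.N × Fin n.N × Fin n.N) : ℝ :=
  if Tr n p then ff n P L p.2.1 p.2.2 α (xc n p.1) else 0

open Classical in
/-- the coboundary -/
def cob : (Fin n.N × Fin n.N → ℝ) →ₗ[ℝ] (Fin n.N × Fin n.N × Fin n.N → ℝ) where
  toFun k p := if Tr n p then k (p.1, p.2.1) + k (p.2.1, p.2.2) - k (p.1, p.2.2) else 0
  map_add' k k' := by
    funext p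
    by_cases h : Tr n p
    · simp only [h, if_true, Pi.add_apply]; ring
    · simp [h]
  map_smul' c k := by
    funext p
    by_cases h : Tr n p
    · simp only [h, if_true, Pi.smul_apply, smul_eq_mul, RingHom.id_apply]; ring
    · simp [h]

lemma r3_pos : 0 < n.r3 := n.pos.trans_le n.le43
lemma r3_le : n.r3 ≤ 1 := n.le32.trans n.le21
lemma r2_pos : 0 < n.r2 := (r3_pos n).trans_le n.le32

lemma xc_B2 {a b : Fin n.N} (h : n.Adj a b) : xc n a ∈ n.B b n.r2 :=
  n.nest3 a b h (xc_B n a (r3_pos n) (r3_le n))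

lemma cc_add (hP : PP P) (hL : LL L) (on : OneS X) (ga : GeoA D.toAtl) (hf : Fit D)
    {α β : Form X} (hα : D.Sm α) (hβ : D.Sm β) :
    cc n P L (α + β) = cc n P L α + cc n P L β := by
  funext p
  by_cases h : Tr n p
  · simp only [cc, h, if_true, Pi.add_apply]
    exact ff_add n hP hL on ga hf h.2.1 hα hβ (xc_B2 n h.1)
  · simp [cc, h]

lemma cc_smul (hP : PP P) (hL : LL L) (c : ℝ) (α : Form X) :
    cc n P L (c • α) = c • cc n P L α := by
  funext p
  by_cases h : Tr n p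
  · simp only [cc, h, if_true, Pi.smul_apply, smul_eq_mul]
    exact ff_smul n hP hL _ _ c α _
  · simp [cc, h]

lemma cc_bd (hP : PP P) (hL : LL L) (se : SemS D) (hf : Fit D) {C : ℝ} (hC0 : 0 ≤ C)
    (hC : ∀ i j x, D.In i 12 x → D.In j 12 x → ‖D.tr i j x‖ ≤ C) {α : Form X} (hα : D.Sm α) :
    ‖cc n P L α‖ ≤ 4 * C * D.nrm 0 α := by
  have := se.nrm_nn 0 α
  refine (pi_norm_le_iff_of_nonneg (by positivity)).2 fun p => ?_
  by_cases h : Tr n p
  · simp only [cc, h, if_true, Real.norm_eq_abs]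
    exact ff_bd n hP hL se hf hC0 hC h.2.1 hα (xc_B2 n h.1)
  · simp only [cc, h, if_false, norm_zero]; positivity

lemma cc_ex (hP : PP P) (hL : LL L) (on : OneS X) (ga : GeoA D.toAtl) (hf : Fit D)
    {α : Form X} (hα : D.Sm α) (hc : D.Cl α) (he : ExC α) :
    cc n P L α ∈ LinearMap.range (cob n) := by
  obtain ⟨ζ, z1, z2⟩ := he
  have g := fun a => (prim n hL on hf a le_rfl subset_rfl (subset_univ _)
    (et_sm n hP on ga hf a hα) z1 (et_d n hP on ga hf a hα hc) z2).2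
  have k : ∀ a b, n.Adj a b → ∀ x ∈ n.B a n.r2, ff n P L a b α x
      + pr0 n L b (et n P b α - ζ) x - pr0 n L a (et n P a α - ζ) x = ff n P L a b α (xc n a)
      + pr0 n L b (et n P b α - ζ) (xc n a) - pr0 n L a (et n P a α - ζ) (xc n a) :=
    fun a b hab x hx => const3 n hf a (r2_pos n) n.le21 subset_rfl (n.nest2 a b hab)
      (B_mono n a n.le21) (ff_d n hP hL on ga hf hab hα hc).2 (g b) (g a)
      (sub_add_sub_cancel _ _ _) hx
  refine ⟨fun q => ff n P L q.1 q.2 α (xc n q.1) + pr0 n L q.2 (et n P q.2 α - ζ) (xc n q.1)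
    - pr0 n L q.1 (et n P q.1 α - ζ) (xc n q.1), ?_⟩
  funext p
  by_cases h : Tr n p
  · simp only [cc, cob, h, if_true, LinearMap.coe_mk, AddHom.coe_mk]
    rw [← k _ _ h.2.1 _ (xc_B2 n h.1)]
    simp only [ff, pr0_xc n hL]
    ring
  · simp [cc, cob, h]

end Cech

variable {X : Type*} [TopologicalSpace X] [ChartedSpace R4 X] [T2Space X] [CompactSpace X]
  [IsManifold (𝓡 4) ∞ X] {D : Dat X}

open Cech in
theorem cechS (po : PoiS) (on : OneS X) (ga : GeoA D.toAtl) (fo : FormS D) (se : SemS D)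
    (ne : NetS D) (gl : GlueS D) : CechS D := by
  intro hf γ hγ hc hR
  obtain ⟨n⟩ := ne hf
  obtain ⟨P, p1, p2, p3, p4, p5⟩ := po.two
  obtain ⟨L, l1, l2, l3, l4, l5⟩ := po.one
  have hP : PP P := ⟨p1, p2, p3, p4, p5⟩
  have hL : LL L := ⟨l1, l2, l3, l4, l5⟩
  obtain ⟨C, hC0, hC⟩ := ga.bound
  have key : cc n P L γ ∈ LinearMap.range (cob n) := by
    refine (Subspace.forall_mem_dualAnnihilator_apply_eq_zero_iff _ _).1 fun φ hφ => ?_
    refine hR (fun α => φ (cc n P L α)) (‖LinearMap.toContinuousLinearMap φ‖ * (4 * C))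
      (by positivity) ⟨fun α β hα hβ => ?_, fun c α _ => ?_⟩ (fun α hα => ?_) fun j b hb => ?_
    · simp only [cc_add n hP hL on ga hf hα hβ, map_add]
    · simp only [cc_smul n hP hL, map_smul, smul_eq_mul]
    · have h1 := (LinearMap.toContinuousLinearMap φ).le_opNorm (cc n P L α)
      have h2 := mul_le_mul_of_nonneg_left (cc_bd n hP hL se hf hC0 hC hα)
        (norm_nonneg (LinearMap.toContinuousLinearMap φ))
      rw [mul_assoc]
      exact h1.trans h2
    · have hb' : Cc 12 b := hb.mono (by norm_num)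
      exact (Submodule.mem_dualAnnihilator φ).1 hφ _ (cc_ex n hP hL on ga hf
        (fo.sm_ext j _ hb'.d1) (fo.cl_ext j _ hb'.d1 fun _ u v w =>
          natS.dd (hb.1.contDiffAt.of_le (by norm_cast)) u v w) (on.ext D j b hf hb'))
  obtain ⟨k, hk⟩ := key
  refine gl n γ (fun a => et n P a γ) (fun a b x => ff n P L a b γ x - k (a, b))
    (fun a => ⟨et_sm n hP on ga hf a hγ, et_d n hP on ga hf a hγ hc⟩) (fun a b hab => ?_)
    fun a b c hab hbc hac x hx => ?_
  · obtain ⟨h1, h2⟩ := ff_d n hP hL on ga hf hab hγ hc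
    exact ⟨fun e he => (h1 e he).sub contDiffOn_const, fun e he y hy => (h2 e he y hy).sub_const _⟩
  · have h1 := const3 n hf a (r3_pos n) (r3_le n) (B_mono n a n.le32) (n.nest3 a b hab)
      (B_mono n a n.le32) (ff_d n hP hL on ga hf hab hγ hc).2 (ff_d n hP hL on ga hf hbc hγ hc).2
      (ff_d n hP hL on ga hf hac hγ hc).2 (sub_add_sub_cancel _ _ _) hx
    have h2 := congrFun hk (a, b, c)
    have h3 : Tr n (a, b, c) := ⟨hab, hbc, hac⟩
    simp only [cc, cob, h3, if_true, LinearMap.coe_mk, AddHom.coe_mk] at h2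
    have h4 : ∀ d, ff n P L a d γ (xc n a) = 0 := fun d => pr0_xc n hL a _
    rw [h4, h4] at h1
    linarith

end Vale.Agent.P247
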