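import Vale.Agent.P247.Defs
import Vale.Agent.P204.Key
import Vale.Agent.P204.Hil

set_option maxSynthPendingDepth 3

open scoped Topology ContDiff RealInnerProductSpace Manifold
open Set Metric MeasureTheory Filter

noncomputable section
namespace Vale.Agent.P247

open Vale.Agent.P204 Vale.Agent.P204.Bridge

variable {X : Type*} [TopologicalSpace X] [T2Space X] {D : Dat X} {K : Ker D}

namespace Clos

omit [T2Space X] in
lemma small {ε : ℝ} (h : ε ≤ K.ε0) : K.C0 * ε ≤ 1 / 2 :=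
  (mul_le_mul_of_nonneg_left h (zero_le_one.trans K.one_le)).trans K.small

omit [T2Space X] in
open Key in
/-- smoothing the representative of a closed current gives closed forms -/
lemma closed (h1 : AvgS) (h2 : NatS) (h3 : ScaleS) (h4 : FormS D) (h5 : HilS D) (h6 : HatS D)
    (h7 : MS K) {ε δ : ℝ} {R : Form X → ℝ} {Θ : D.H} (h0 : 0 < ε) (h0' : ε ≤ K.ε0) (d0 : 0 < δ)
    (d0' : δ ≤ K.ε0) (z2 : D.KillsD R) (t2 : K.IsTh ε R Θ) : D.Cl (K.M δ Θ) := by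
  have hR : K.C0 * ε ≤ 1 / 2 := small h0'
  have hR' : K.C0 * δ ≤ 1 / 2 := small d0'
  refine h4.cl_of _ (h7.sm δ Θ d0 d0') fun j z hz u0 u1 u2 => ?_
  have hz' := mem_ball_zero_iff.1 hz
  have e1 : D.loc j (K.M δ Θ) =ᶠ[𝓝 z] Sop (K.Hs j) δ (D.hat j Θ) := by
    filter_upwards [isOpen_ball.mem_nhds hz] with y hy
    exact h7.m3 δ j Θ y d0 d0' (by linarith [mem_ball_zero_iff.1 hy])
  obtain ⟨-, -, hs⟩ := h3.sm (K.Hs j) K.C0 δ 9 (D.hat j Θ) (K.scf j).1 (K.scf j).2.1 d0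
    (h6.int j Θ).1 (fun y hy => indicator_of_notMem (by simpa using hy) _)
  obtain ⟨b, b1, b2, b3⟩ := K.clP j δ d0 d0' z u0 u1 u2 (by linarith)
  have hb : Cc 2 b := ⟨b1, fun y hy => b2 y (by linarith [norm_sub_norm_le y z])⟩
  rw [cyc_eq, e1.fderiv_eq, (hs z).2, ← ContinuousLinearMap.integral_comp_comm _ (hs z).1]
  have e2 : ∀ y, cycL u0 u1 u2 (fderiv ℝ (fun z' => ksc (K.Hs j) δ y z' (D.hat j Θ y)) z) =
      -wq (d1 b y) (D.hat j Θ y) := fun y => by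
    rw [← cyc_eq]
    linarith [b3 y (D.hat j Θ y)]
  simp only [e2]
  obtain ⟨b', hb', e3⟩ := kop_d1 h1 h2 (by linarith) (K.clP' j ε h0 h0') (ksc_sm (K.scf j).1 ε) hb
  have e4 : K.Kop j ε (d1 b) = d1 b' := e3
  rw [integral_neg, ← h6.pair' j Θ _ (hb.d1.mono (by norm_num)), h5.qH_symm, t2,
    h7.mext ε j _ h0 h0' (hb.d1.mono (by norm_num)), e4, z2 j b' hb', neg_zero]

omit [T2Space X] in
/-- an element orthogonal to all smooth forms is killed by the smoothing operator -/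
lemma mzero (h3 : ScaleS) (h4 : FormS D) (h6 : HatS D) (h7 : MS K) {ε : ℝ} {h : D.H}
    (h0 : 0 < ε) (h0' : ε ≤ K.ε0) (hh : ∀ α, D.Sm α → D.qH (D.iota α) h = 0) : K.M ε h = 0 := by
  have hR : K.C0 * ε ≤ 1 / 2 := small h0'
  funext x
  obtain ⟨j, hx, hx1⟩ := D.cover x
  have e0 : D.loc j (K.M ε h) (D.e j x) = 0 := by
    rw [h7.m3 ε j h _ h0 h0' (by linarith)]
    refine ap_ext fun u v => ?_
    obtain ⟨-, hs, -⟩ := h3.sm (K.Hs j) K.C0 ε 9 (D.hat j h) (K.scf j).1 (K.scf j).2.1 h0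
      (h6.int j h).1 (fun y hy => indicator_of_notMem (by simpa using hy) _)
    have hc : Cc 9 fun y => sl u v (ksc (K.Hs j) ε y (D.e j x)) := by
      refine ⟨(sl u v).contDiff.comp (Key.ksc_sm (K.scf j).1 ε _), fun y hy => ?_⟩
      have a1 : K.C0 < ‖ε⁻¹ • (D.e j x - y)‖ := by
        rw [norm_smul, norm_inv, Real.norm_of_nonneg h0.le, lt_inv_mul_iff₀ h0, norm_sub_rev]
        linarith [norm_sub_norm_le y (D.e j x)]
      simp [ksc, (K.scf j).2.1 _ _ _ a1]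
    have e1 := h6.pair' j h _ hc
    rw [hh _ (h4.sm_ext j _ (hc.mono (by norm_num)))] at e1
    simp only [wq_sl] at e1
    rw [ap_zero, e1, Ker.Kop, ← ev_apply, Ker.k, ← ContinuousLinearMap.integral_comp_comm _ (hs _)]
    simp only [ev_apply]
  rw [Atl.loc, (D.e j).left_inv hx] at e0
  have e1 := congrArg (pull ((D.fr j x).symm : End)) e0
  rw [pull_pull, map_zero] at e1
  simpa using e1

/-- the image of the smooth forms -/
def S (h4 : FormS D) (io : IotaS D) : Submodule ℝ D.H where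
  carrier := {g | ∃ α, D.Sm α ∧ D.iota α = g}
  add_mem' := by
    rintro _ _ ⟨α, a, rfl⟩ ⟨β, b, rfl⟩
    exact ⟨α + β, h4.sm_add _ _ a b, io.add _ _ a b⟩
  zero_mem' := ⟨0, h4.sm_zero, by simpa using io.smul 0 0 h4.sm_zero⟩
  smul_mem' := by
    rintro c _ ⟨α, a, rfl⟩
    exact ⟨c • α, h4.sm_smul c _ a, io.smul c _ a⟩

omit [T2Space X] in
/-- the representative is a limit of smooth forms -/
lemma dense (h3 : ScaleS) (h4 : FormS D) (h6 : HatS D) (h7 : MS K) (io : IotaS D) {ε : ℝ}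
    {R : Form X → ℝ} {Θ : D.H} (h0 : 0 < ε) (h0' : ε ≤ K.ε0) (fn : D.Fn R) (t : K.IsTh ε R Θ)
    {η : ℝ} (hη : 0 < η) : ∃ α, D.Sm α ∧ ‖Θ - D.iota α‖ ≤ η := by
  have a : Θ ∈ (S h4 io).topologicalClosure := by
    rw [← Submodule.orthogonal_orthogonal_eq_closure, Submodule.mem_orthogonal']
    intro g hg
    have e : ∀ f, D.qH f (D.mapH Q6 g) = 2 * ⟪f, g⟫ := fun f => by rw [Dat.qH, Hil.QQ]
    have z : K.M ε (D.mapH Q6 g) = 0 := mzero h3 h4 h6 h7 h0 h0' fun α hα => by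
      rw [e, (Submodule.mem_orthogonal _ _).1 hg _ ⟨α, hα, rfl⟩, mul_zero]
    have := t (D.mapH Q6 g)
    rw [z, h4.fn_zero R fn, e] at this
    linarith
  obtain ⟨_, ⟨α, hα, rfl⟩, b⟩ := Metric.mem_closure_iff.1 a η hη
  exact ⟨α, hα, by rw [← dist_eq_norm]; exact b.le⟩

end Clos

omit [T2Space X] in
theorem closS' (av : AvgS) (na : NatS) (sc : ScaleS) (fo : FormS D) (se : SemS D) (hi : HilS D)
    (ha : HatS D) (ms : MS K) (io : IotaS D) (pp : AppS K) (mb : MbdS K) : ClosS K := by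
  intro ε R Θ h0 h0' fn kd t η hη
  obtain ⟨C1, c1, m1⟩ := mb
  obtain ⟨C2, c2, m2⟩ := io.bd
  obtain ⟨α, hα, b⟩ := Clos.dense sc fo ha ms io h0 h0' fn t
    (η := η / 2 / (1 + C1)) (by positivity)
  obtain ⟨C3, c3, m3⟩ := pp α 0 hα
  obtain ⟨δ, d0, d1, d2⟩ : ∃ δ, 0 < δ ∧ δ ≤ K.ε0 ∧ C2 * (C3 * δ) ≤ η / 2 := by
    refine ⟨min K.ε0 (η / 2 / (1 + C2 * C3)), lt_min K.pos (by positivity), min_le_left _ _, ?_⟩
    have p : 0 < 1 + C2 * C3 := by positivity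
    have := (le_div_iff₀ p).1 (min_le_right K.ε0 (η / 2 / (1 + C2 * C3)))
    have q : 0 ≤ min K.ε0 (η / 2 / (1 + C2 * C3)) := (lt_min K.pos (by positivity)).le
    nlinarith
  refine ⟨K.M δ Θ, ms.sm δ Θ d0 d1, Clos.closed av na sc fo hi ha ms h0 h0' d0 d1 kd t, ?_⟩
  have s1 := ms.sm δ (D.iota α) d0 d1
  have s2 := ms.sm δ (Θ - D.iota α) d0 d1
  have s3 : D.Sm (K.M δ (D.iota α) - α) := by
    simpa [sub_eq_add_neg] using fo.sm_add _ _ s1 (fo.sm_smul (-1) _ hα)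
  have e1 : D.iota (K.M δ Θ) = D.iota (K.M δ (Θ - D.iota α))
      + (D.iota (K.M δ (D.iota α) - α) + D.iota α) := by
    rw [← io.add _ _ s3 hα, sub_add_cancel, ← io.add _ _ s2 s1, ← ms.add _ _ _ d0 d1,
      sub_add_cancel]
  have n1 := m1 δ (Θ - D.iota α) d0 d1
  have n2 := m2 _ (C3 * δ) s3 (by positivity) fun j y hy =>
    (se.pt 0 j _ y s3 hy).trans (m3 δ d0 d1)
  have e2 : Θ - D.iota (K.M δ Θ) = (Θ - D.iota α) - D.iota (K.M δ (Θ - D.iota α))
      - D.iota (K.M δ (D.iota α) - α) := by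
    rw [e1]; abel
  have n3 : (1 + C1) * ‖Θ - D.iota α‖ ≤ η / 2 := by
    have p : 0 < 1 + C1 := by positivity
    rw [mul_comm]
    exact (le_div_iff₀ p).1 b
  rw [e2]
  refine (norm_sub_le _ _).trans ?_
  linarith [norm_sub_le (Θ - D.iota α) (D.iota (K.M δ (Θ - D.iota α)))]

theorem closS (av : AvgS) (na : NatS) (sc : ScaleS) (fo : FormS D) (se : SemS D) (hi : HilS D)
    (ha : HatS D) (ms : MS K) (io : IotaS D) (ap : AppS K) (mb : MbdS K) : ClosS K :=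
  closS' av na sc fo se hi ha ms io ap mb

end Vale.Agent.P247
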