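import Vale.Agent.P247.Defs

set_option maxSynthPendingDepth 3

open scoped Topology ContDiff RealInnerProductSpace Manifold
open Set Metric MeasureTheory Filter

noncomputable section
namespace Vale.Agent.P247

open Vale.Agent.P204 Vale.Agent.P204.Bridge

variable {X : Type*} [TopologicalSpace X] [ChartedSpace R4 X] [T2Space X] [CompactSpace X]
  [IsManifold (𝓡 4) ∞ X] {D : Dat X}

namespace GlueA

omit [T2Space X] [CompactSpace X] [IsManifold (𝓡 4) ∞ X]

omit [ChartedSpace R4 X] in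
lemma bl_open (j : Fin D.n) (c : V) (r : ℝ) : IsOpen (Bl D j c r) := by
  have : Bl D j c r = (D.e j).source ∩ D.e j ⁻¹' ball c r := by
    ext x; simp [Bl, dist_eq_norm]
  rw [this]
  exact (D.e j).isOpen_inter_preimage isOpen_ball

omit [ChartedSpace R4 X] in
lemma dom_open (e : OpenPartialHomeomorph X V) {U : Set X} (hU : IsOpen U) : IsOpen (dom e U) :=
  e.isOpen_inter_preimage_symm hU

omit [ChartedSpace R4 X] in
lemma dom_mono (e : OpenPartialHomeomorph X V) {U U' : Set X} (h : U ⊆ U') :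
    dom e U ⊆ dom e U' := fun _ hy => ⟨hy.1, h hy.2⟩

lemma b_mono (n : Net D) (a : Fin n.N) {r r' : ℝ} (h : r ≤ r') : n.B a r ⊆ n.B a r' :=
  fun _ hx => ⟨hx.1, hx.2.trans_le h⟩

lemma sm0_mono {U U' : Set X} {f : X → ℝ} (h : Sm0 U' f) (hU : U ⊆ U') : Sm0 U f :=
  fun e he => (h e he).mono (dom_mono e hU)
lemma sm1_mono {U U' : Set X} {f : X → Cov} (h : Sm1 U' f) (hU : U ⊆ U') : Sm1 U f :=
  fun e he => (h e he).mono (dom_mono e hU)
lemma d0_mono {U U' : Set X} {f : X → ℝ} {η : X → Cov} (h : D0 U' f η) (hU : U ⊆ U') :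
    D0 U f η := fun e he y hy => h e he y (dom_mono e hU hy)
lemma d1_mono {U U' : Set X} {η : X → Cov} {γ : Form X} (h : D1 U' η γ) (hU : U ⊆ U') :
    D1 U η γ := fun e he y hy => h e he y (dom_mono e hU hy)

lemma lc1_sub (e : OpenPartialHomeomorph X V) (η ξ : X → Cov) :
    lc1 e (η - ξ) = lc1 e η - lc1 e ξ := by
  funext y
  simp [lc1, ContinuousLinearMap.sub_comp]

lemma sm1_sub {U : Set X} {η ξ : X → Cov} (h : Sm1 U η) (h' : Sm1 U ξ) : Sm1 U (η - ξ) :=
  fun e he => by rw [lc1_sub]; exact (h e he).sub (h' e he)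

lemma d1_sub {U : Set X} (hU : IsOpen U) {η ξ : X → Cov} {γ : Form X} (h : Sm1 U η)
    (h' : Sm1 U ξ) (k : D1 U η γ) (k' : D1 U ξ 0) : D1 U (η - ξ) γ := fun e he y hy => by
  have hn := (dom_open e hU).mem_nhds hy
  have a := ((h e he).contDiffAt hn).differentiableAt (by simp)
  have b := ((h' e he).contDiffAt hn).differentiableAt (by simp)
  have c := k e he y hy
  have d := k' e he y hy
  rw [d1] at c d
  rw [lc1_sub, d1, fderiv_sub a b, map_sub, c, d]
  simp [lc]

lemma d0_diff {U : Set X} (hU : IsOpen U) {f g h : X → ℝ} {η ξ : X → Cov} (k : D0 U g η)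
    (k' : D0 U h ξ) (he : ∀ x ∈ U, f x = g x - h x) : D0 U f (η - ξ) := fun e ge y hy => by
  rw [lc1_sub]
  refine ((k e ge y hy).sub (k' e ge y hy)).congr_of_eventuallyEq ?_
  filter_upwards [(dom_open e hU).mem_nhds hy] with z hz
  exact he _ hz.2

end GlueA

open GlueA in
theorem glueS (on : OneS X) : GlueS D := by
  classical
  intro n γ η f h1 h2 h3
  have l42 : n.r4 ≤ n.r2 := n.le43.trans n.le32
  have op : ∀ a r, IsOpen (n.B a r) := fun a r => bl_open _ _ _
  let h : Fin n.N → X → ℝ := fun a x => ∑ c, if n.Adj a c then n.chi c x * f a c x else 0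
  have hs : ∀ a, Sm0 (n.B a n.r4) (h a) := fun a e he => by
    refine ContDiffOn.sum fun c _ => ?_
    by_cases hc : n.Adj a c
    · simp only [if_pos hc]
      exact (sm0_mono (n.chi_sm c) (subset_univ _) e he).mul
        (sm0_mono (h2 a c hc).1 (b_mono n a l42) e he)
    · simp only [if_neg hc]
      exact contDiffOn_const
  choose ξ x1 x2 x3 using fun a => on.grad _ (h a) (op a _) (hs a)
  have key : ∀ a b x, x ∈ n.B a n.r4 → x ∈ n.B b n.r4 → η a x - ξ a x = η b x - ξ b x := by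
    intro a b x ha hb
    have hab : n.Adj a b := ⟨x, ha, hb⟩
    have hU := (op a n.r4).inter (op b n.r4)
    have e1 : ∀ z ∈ n.B a n.r4 ∩ n.B b n.r4, f a b z = h a z - h b z := fun z hz => by
      rw [← Finset.sum_sub_distrib, ← one_mul (f a b z), ← n.chi_sum z, Finset.sum_mul]
      refine Finset.sum_congr rfl fun c _ => ?_
      by_cases hc : n.chi c z = 0
      · simp [hc]
      · have hz' : z ∈ n.B c n.r4 := n.chi_supp c z hc
        have hac : n.Adj a c := ⟨z, hz.1, hz'⟩
        have hbc : n.Adj b c := ⟨z, hz.2, hz'⟩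
        rw [if_pos hac, if_pos hbc, ← h3 a b c hab hbc hac z (b_mono n a n.le43 hz.1)]
        ring
    have e2 := d0_diff hU (d0_mono (x2 a) inter_subset_left) (d0_mono (x2 b) inter_subset_right) e1
    have e3 := on.uniq _ _ _ _ hU e2
      (d0_mono (h2 a b hab).2 (inter_subset_left.trans (b_mono n a l42))) x ⟨ha, hb⟩
    rw [Pi.sub_apply, Pi.sub_apply] at e3
    linear_combination (norm := abel) -e3
  have hc : ∀ x, ∃ a, x ∈ n.B a n.r4 := fun x => by
    by_contra hn
    have := n.chi_sum x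
    rw [Finset.sum_eq_zero fun a _ => by
      by_contra h0
      exact hn ⟨a, n.chi_supp a x h0⟩] at this
    exact zero_ne_one this
  choose a ha using hc
  refine ⟨fun x => η (a x) x - ξ (a x) x, on.glue _ γ fun x => ?_⟩
  have l41 := b_mono n (a x) (l42.trans n.le21)
  exact ⟨n.B (a x) n.r4, η (a x) - ξ (a x), op _ _, ha x,
    sm1_sub (sm1_mono (h1 _).1 l41) (x1 _),
    d1_sub (op _ _) (sm1_mono (h1 _).1 l41) (x1 _) (d1_mono (h1 _).2 l41) (x3 _),
    fun x' hx' => key _ _ x' (ha x') hx'⟩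

end Vale.Agent.P247
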