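import Vale.Agent.P247.Defs
import Vale.Agent.P204.Hat

set_option maxSynthPendingDepth 3

open scoped Topology ContDiff RealInnerProductSpace Manifold
open Set Metric MeasureTheory Filter

noncomputable section
namespace Vale.Agent.P247

open Vale.Agent.P204 Vale.Agent.P204.Bridge

variable {X : Type*} [TopologicalSpace X] [T2Space X] {D : Dat X} {K : Ker D}

namespace HatK

open Vale.Agent.P204.Hat

lemma cone_sum (li : LinS) {ι : Type} [Fintype ι] {w : ι → ℝ} {g : ι → E6} {s : ℝ}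
    (hw : ∀ j, 0 ≤ w j) (h1 : ∑ j, w j = 1) (hs : 0 ≤ s)
    (h : ∀ j, w j ≠ 0 → Pm (g j) = 0 ∧ ‖Pa (g j)‖ ≤ g j 0 ∧ s ≤ wq (g j) (g j)) :
    Pm (∑ j, w j • g j) = 0 ∧ ‖Pa (∑ j, w j • g j)‖ ≤ (∑ j, w j • g j) 0 ∧
      s ≤ wq (∑ j, w j • g j) (∑ j, w j • g j) := by
  refine ⟨?_, ?_, ?_⟩
  · rw [map_sum]
    refine Finset.sum_eq_zero fun j _ => ?_
    by_cases hj : w j = 0
    · rw [hj, zero_smul, map_zero]
    · rw [map_smul, (h j hj).1, smul_zero]
  · have e : (∑ j, w j • g j) 0 = ∑ j, w j * g j 0 := by simp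
    rw [map_sum, e]
    refine (norm_sum_le _ _).trans (Finset.sum_le_sum fun j _ => ?_)
    by_cases hj : w j = 0
    · simp [hj]
    · rw [map_smul, norm_smul, Real.norm_of_nonneg (hw j)]
      exact mul_le_mul_of_nonneg_left (h j hj).2.1 (hw j)
  · have e : wq (∑ j, w j • g j) (∑ j, w j • g j) = ∑ j, ∑ k, w j * w k * wq (g j) (g k) := by
      rw [wq_eq, map_sum, sum_inner, Finset.mul_sum]
      refine Finset.sum_congr rfl fun j _ => ?_
      rw [inner_sum, Finset.mul_sum]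
      refine Finset.sum_congr rfl fun k _ => ?_
      rw [← wq_eq, wq_smul_l, wq_smul_r, mul_assoc]
    have e2 : s = ∑ j, ∑ k, w j * w k * s := by
      simp only [← Finset.sum_mul, ← Finset.mul_sum, h1, mul_one, one_mul]
    rw [e, e2]
    refine Finset.sum_le_sum fun j _ => Finset.sum_le_sum fun k _ => ?_
    by_cases hj : w j = 0
    · simp [hj]
    by_cases hk : w k = 0
    · simp [hk]
    obtain ⟨a1, a2, a3⟩ := h j hj
    obtain ⟨b1, b2, b3⟩ := h k hk
    obtain ⟨c1, c2⟩ := li.rcs _ _ a2 b2 a1 b1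
    refine mul_le_mul_of_nonneg_left ?_ (mul_nonneg (hw j) (hw k))
    refine (pow_le_pow_iff_left₀ hs c1 two_ne_zero).1 (le_trans ?_ c2)
    rw [sq]
    exact mul_le_mul a3 b3 hs (hs.trans a3)

lemma cone_pull (li : LinS) {S : End} (hS : S.comp J0 = J0.comp S) {g : E6} (h1 : Pm g = 0)
    (h2 : ‖Pa g‖ ≤ g 0) : Pm (pull S g) = 0 ∧ ‖Pa (pull S g)‖ ≤ pull S g 0 := by
  refine ⟨by rw [(comm_pull hS g).1, h1, map_zero], (li.nonneg0 _).1 fun v _ => ?_⟩
  have e : S (J0 v) = J0 (S v) := DFunLike.congr_fun hS v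
  rw [ap_pull, e]
  generalize S v = w
  by_cases hw : w = 0
  · rw [hw, ← zero_smul ℝ (0 : V), ap_smul_l, zero_mul]
  · have h3 := (li.nonneg0 g).2 h2 (‖w‖⁻¹ • w) (norm_smul_inv_norm hw)
    have h4 : 0 < ‖w‖⁻¹ := inv_pos.2 (norm_pos_iff.2 hw)
    rw [map_smul, ap_smul_l, ap_smul_r] at h3
    exact nonneg_of_mul_nonneg_right (nonneg_of_mul_nonneg_right h3 h4) h4

omit [T2Space X] in
lemma wt_sum (i : Fin D.n) {y : V} (hy : ‖y‖ ≤ 9) : ∑ j, Tp D i j (D.psi j) y = 1 := by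
  rw [← D.psi_sum ((D.e i).symm y)]
  refine Finset.sum_congr rfl fun j _ => ?_
  by_cases h : y ∈ S D j i 9 2
  · rw [Tp_of_mem _ h, Atl.ext0, if_pos h.2.1, Atl.tm]
  · rw [Tp_of_not _ h, Atl.ext0]
    split_ifs with h'
    · exact ((D.psi_cc j).2 _ (not_le.1 fun h2 => h ⟨hy, h', h2⟩)).symm
    · rfl

omit [T2Space X] in
lemma wt_nn (i j : Fin D.n) (y : V) : 0 ≤ Tp D i j (D.psi j) y := by
  by_cases h : y ∈ S D j i 9 2
  · rw [Tp_of_mem _ h]
    exact D.psi_nn _ _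
  · rw [Tp_of_not _ h]

omit [T2Space X] in
lemma ae_tm (ga : GeoA D.toAtl) (i j : Fin D.n) {P : V → Prop} (h : ∀ᵐ z : V, P z) :
    ∀ᵐ y : V, y ∈ S D j i 9 2 → P (D.tm j i y) := by
  classical
  have h1 : (fun z => if P z then (0 : ℝ) else 1) =ᵐ[volume] fun _ => 0 := by
    filter_upwards [h] with z hz
    rw [if_pos hz]
  filter_upwards [Tp_ae ga (i := i) (j := j) h1] with y hy hS
  rw [Tp_of_mem _ hS, Tp_of_mem _ hS] at hy
  by_contra hc
  rw [if_neg hc] at hy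
  exact one_ne_zero hy

end HatK

open Vale.Agent.P204.Hat HatK in
theorem hatKS (li : LinS) (ga : GeoA D.toAtl) (gd : GeoD D) (fo : FormS D) (hi : HilS D) :
    HatKS D := by
  obtain ⟨C, hC, hb⟩ := pt_le ga gd fo
  refine ⟨C, hC, fun ρ h B hρ hρ' hB H i => ?_⟩
  have H1 : ∀ j, ∀ᵐ z : V, D.psi j z ≠ 0 → Pm (h j z) = 0 ∧ ‖Pa (h j z)‖ ≤ h j z 0 ∧
      wq (pull ((D.F j).Ai z) (D.loc j ρ z)) (pull ((D.F j).Ai z) (D.loc j ρ z)) ≤
        wq (h j z) (h j z) ∧ ‖h j z‖ ≤ B := fun j => by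
    refine (hi.ae j _).1 ?_
    filter_upwards [H j, hi.iota_ae ρ j hρ] with z h1 h2
    rwa [h2] at h1
  filter_upwards [ae_all_iff.2 fun j => ae_tm ga i j (H1 j)] with y H2 hy
  have hs := wt_sum (D := D) i (y := y) (by linarith)
  have hdet : 0 < ((D.F i).Ai y).det :=
    by have h1 := (D.F i).det_mul y; have h2 := (D.F i).det_pos y
       by_contra hn; push Not at hn; nlinarith
  have e : pull ((D.F i).Ai y) (D.hat i h y) = ∑ j, Tp D i j (D.psi j) y •
      pull (((D.F j).A (D.tm j i y)).comp ((D.tr j i ((D.e i).symm y)).comp ((D.F i).Ai y)))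
        (h j (D.tm j i y)) := by
    rw [hat_eq fo]
    simp only [map_sum]
    refine Finset.sum_congr rfl fun j _ => ?_
    by_cases hS : y ∈ S D j i 9 2
    · rw [Tp_of_mem _ hS, Tp_of_mem _ hS, wj, map_smul, map_smul, pull_pull, pull_pull]
    · rw [Tp_of_not _ hS, Tp_of_not _ hS, map_zero, map_zero, zero_smul]
  have h0 : 0 < wq (D.loc i ρ y) (D.loc i ρ y) :=
    li.pos (D.F i) y _ fun v hv => fo.tm_loc ρ hρ' i y v (by linarith) hv
  have key := cone_sum li (s := ((D.F i).Ai y).det * wq (D.loc i ρ y) (D.loc i ρ y))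
    (g := fun j => pull (((D.F j).A (D.tm j i y)).comp
      ((D.tr j i ((D.e i).symm y)).comp ((D.F i).Ai y))) (h j (D.tm j i y)))
    (fun j => wt_nn i j y) hs (by positivity) fun j hj => by
      have hS : y ∈ S D j i 9 2 := by
        by_contra hc
        exact hj (Tp_of_not _ hc)
      rw [Tp_of_mem _ hS] at hj
      obtain ⟨a1, a2, a3, -⟩ := H2 j hS hj
      have b1 := In_self (D := D) (j := i) (by norm_num) hS.1
      have hr := (D.e i).right_inv (mem_target i (hS.1.trans (by norm_num)))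
      have hc := gd.comm j i _ (In_mono hS.2 (by norm_num)) (In_mono b1 (by norm_num))
      have hl := fo.loc_loc j i ρ _ hS.2.1 b1.1
      rw [hr] at hc hl
      obtain ⟨c1, c2⟩ := cone_pull li hc a1 a2
      refine ⟨c1, c2, ?_⟩
      have c3 := mul_le_mul_of_nonneg_left a3 (det_nonneg_of_comm hc)
      refine le_trans (le_of_eq ?_) (c3.trans (wq_pull _ _ _).ge)
      have c4 : pull (((D.F j).A (D.tm j i y)).comp
          ((D.tr j i ((D.e i).symm y)).comp ((D.F i).Ai y)))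
          (pull ((D.F j).Ai (D.tm j i y)) (D.loc j ρ (D.tm j i y))) =
            pull ((D.F i).Ai y) (D.loc i ρ y) := by
        rw [pull_pull, ← ContinuousLinearMap.comp_assoc, (D.F j).inv1,
          ContinuousLinearMap.id_comp, ← pull_pull, hl]
        rfl
      rw [← wq_pull, ← c4, wq_pull]
      rfl
  rw [← e, wq_pull] at key
  refine ⟨key.1, key.2.1, le_of_mul_le_mul_left key.2.2 hdet, (hb i h y).1.trans ?_⟩
  refine mul_le_mul_of_nonneg_left ?_ hC
  rw [← one_mul B, ← hs, Finset.sum_mul]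
  refine Finset.sum_le_sum fun j _ => ?_
  by_cases hS : y ∈ S D j i 9 2
  · rw [Tp_of_mem _ hS, Tp_of_mem _ hS]
    by_cases hj : D.psi j (D.tm j i y) = 0
    · rw [hj, zero_mul, zero_mul]
    · exact mul_le_mul_of_nonneg_left (H2 j hS hj).2.2.2 (D.psi_nn _ _)
  · rw [Tp_of_not _ hS, Tp_of_not _ hS, zero_mul]

end Vale.Agent.P247
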