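import Vale.Agent.P247.Defs

set_option maxSynthPendingDepth 3

open scoped Topology ContDiff RealInnerProductSpace Manifold
open Set Metric MeasureTheory Filter

noncomputable section
namespace Vale.Agent.P247

open Vale.Agent.P204 Vale.Agent.P204.Bridge

variable {X : Type*} [TopologicalSpace X] [ChartedSpace R4 X] [T2Space X] [CompactSpace X]
  [IsManifold (𝓡 4) ∞ X] {D : Dat X}

namespace Int

omit [CompactSpace X] [IsManifold (𝓡 4) ∞ X] in
lemma chart [MeasurableSpace X] [BorelSpace X] {σ : X → ℝ} {m : Measure X} (hv : VolC σ m)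
    {e : OpenPartialHomeomorph X V} (he : Good e) {B : Set V} (hB : IsCompact B)
    (hs : B ⊆ e.target) {F : V → ℝ} (hF : ContinuousOn F B) :
    ∫ x in e.symm '' B, F (e x) ∂m = ∫ y in B, |sg σ e y| * F y := by
  have hK : MeasurableSet (e.symm '' B) :=
    (hB.image_of_continuousOn (e.continuousOn_symm.mono hs)).measurableSet
  have ha : AEMeasurable e (m.restrict (e.symm '' B)) :=
    (e.continuousOn.mono (by rintro _ ⟨y, hy, rfl⟩; exact e.map_target (hs hy))).aemeasurable hK
  have hm : (m.restrict (e.symm '' B)).map e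
      = (volume.restrict B).withDensity fun y => ENNReal.ofReal |sg σ e y| := by
    ext S hS
    rw [Measure.map_apply_of_aemeasurable ha hS, Measure.restrict_apply' hK,
      withDensity_apply _ hS, Measure.restrict_restrict hS,
      ← hv.meas e he _ (hS.inter hB.measurableSet) (inter_subset_right.trans hs)]
    congr 1
    ext x
    constructor
    · rintro ⟨h, y, hy, rfl⟩
      exact ⟨y, ⟨by rwa [mem_preimage, e.right_inv (hs hy)] at h, hy⟩, rfl⟩
    · rintro ⟨y, ⟨h, hy⟩, rfl⟩
      exact ⟨by rwa [mem_preimage, e.right_inv (hs hy)], y, hy, rfl⟩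
  have hc : AEMeasurable (fun y => ENNReal.ofReal |sg σ e y|) (volume.restrict B) :=
    (((hv.sm e he).continuousOn.mono hs).abs.aemeasurable hB.measurableSet).ennreal_ofReal
  rw [← integral_map ha (by
    rw [hm]
    exact (hF.aestronglyMeasurable hB.measurableSet).mono_ac (withDensity_absolutelyContinuous _ _)),
    hm, integral_withDensity_eq_integral_toReal_smul₀ hc (by simp)]
  simp only [ENNReal.toReal_ofReal (abs_nonneg _), smul_eq_mul]

end Int

theorem intS [MeasurableSpace X] [BorelSpace X] (ga : GeoA D.toAtl) (fo : FormS D) :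
    IntS D := by
  intro σ m hf hv
  have hs : ∀ j, closedBall (0 : V) 2 ⊆ (D.e j).target := fun j =>
    (closedBall_subset_closedBall (by norm_num)).trans (D.big j)
  have hB := isCompact_closedBall (0 : V) 2
  have hK : ∀ j, IsCompact ((D.e j).symm '' closedBall 0 2) := fun j =>
    hB.image_of_continuousOn ((D.e j).continuousOn_symm.mono (hs j))
  have hmem : ∀ j x, x ∈ (D.e j).source → ‖D.e j x‖ ≤ 2 → x ∈ (D.e j).symm '' closedBall 0 2 :=
    fun j x h1 h2 => ⟨D.e j x, mem_closedBall_zero_iff.2 h2, (D.e j).left_inv h1⟩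
  have hsg : ∀ j, ContinuousOn (sg σ (D.e j)) (closedBall 0 2) := fun j =>
    (hv.sm _ (hf j).1).continuousOn.mono (hs j)
  have hfin : IsFiniteMeasure m := by
    refine ⟨lt_of_le_of_lt (measure_mono (t := ⋃ j, (D.e j).symm '' closedBall 0 2) fun x _ => ?_)
      ((measure_iUnion_fintype_le _ _).trans_lt (ENNReal.sum_lt_top.2 fun j _ => ?_))⟩
    · obtain ⟨j, h1, h2⟩ := D.cover x
      exact mem_iUnion.2 ⟨j, hmem j x h1 (by linarith)⟩
    · rw [hv.meas _ (hf j).1 _ hB.measurableSet (hs j)]
      exact ((hsg j).abs.integrableOn_compact hB).lintegral_lt_top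
  refine ⟨hfin, fun hp α β hα hβ => ?_⟩
  have hw : ∀ j, ContinuousOn (fun y => D.psi j y * wq (D.loc j α y) (D.loc j β y)
      / sg σ (D.e j) y) (closedBall 0 2) := fun j => by
    refine ((D.psi_cc j).1.continuous.continuousOn.mul ?_).div (hsg j) fun y hy =>
      (hp j y (mem_closedBall_zero_iff.1 hy)).ne'
    have h1 := (hα j).continuousOn.mono (hs j)
    have h2 := (hβ j).continuousOn.mono (hs j)
    unfold wq
    exact continuousOn_const.mul (h1.inner (Q6.continuous.comp_continuousOn h2))
  have ht : ∀ j, (fun x => D.ext0 j (D.psi j) x * (wq (α x) (β x) / σ x))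
      = ((D.e j).symm '' closedBall 0 2).indicator fun x => D.psi j (D.e j x) *
        wq (D.loc j α (D.e j x)) (D.loc j β (D.e j x)) / sg σ (D.e j) (D.e j x) := fun j => by
    ext x
    by_cases hx : x ∈ (D.e j).symm '' closedBall 0 2
    · rw [indicator_of_mem hx]
      obtain ⟨y, hy, rfl⟩ := hx
      have h1 := (hp j y (mem_closedBall_zero_iff.1 hy)).ne'
      rw [Atl.ext0, if_pos ((D.e j).map_target (hs j hy)), (D.e j).right_inv (hs j hy),
        Atl.loc, Atl.loc, wq_pull, (hf j).2]
      rw [sg] at h1 ⊢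
      rw [mul_div_assoc, mul_comm (ContinuousLinearMap.det _),
        mul_div_mul_right _ _ (right_ne_zero_of_mul h1)]
    · rw [indicator_of_notMem hx, Atl.ext0]
      split_ifs with h
      · rw [(D.psi_cc j).2 _ (not_le.1 fun h2 => hx (hmem j x h h2)), zero_mul]
      · exact zero_mul _
  have e : ∀ x, wq (α x) (β x) / σ x = ∑ j, D.ext0 j (D.psi j) x * (wq (α x) (β x) / σ x) :=
    fun x => by rw [← Finset.sum_mul, D.psi_sum, one_mul]
  rw [prC, integral_congr_ae (Eventually.of_forall e), integral_finsetSum _ fun j _ => ?_]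
  · refine Finset.sum_congr rfl fun j _ => ?_
    rw [ht, integral_indicator (hK j).measurableSet, Int.chart hv (hf j).1 hB (hs j) (hw j)]
    refine (setIntegral_congr_fun hB.measurableSet fun y hy => ?_).trans
      (setIntegral_eq_integral_of_forall_compl_eq_zero fun y hy => by
        rw [(D.psi_cc j).2 y (not_le.1 (mt mem_closedBall_zero_iff.2 hy)), zero_mul])
    have h1 := hp j y (mem_closedBall_zero_iff.1 hy)
    rw [abs_of_pos h1, mul_div_cancel₀ _ h1.ne']
  · rw [ht, integrable_indicator_iff (hK j).measurableSet]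
    refine ContinuousOn.integrableOn_compact (hK j) ((hw j).comp ((D.e j).continuousOn.mono ?_) ?_)
    · rintro _ ⟨y, hy, rfl⟩
      exact (D.e j).map_target (hs j hy)
    · rintro _ ⟨y, hy, rfl⟩
      rwa [(D.e j).right_inv (hs j hy)]

end Vale.Agent.P247
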