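import Vale.Agent.P247.Defs

set_option maxSynthPendingDepth 3

open scoped Topology ContDiff RealInnerProductSpace Manifold
open Set Metric MeasureTheory Filter

noncomputable section
namespace Vale.Agent.P247

open Vale.Agent.P204 Vale.Agent.P204.Bridge

variable {X : Type*} [TopologicalSpace X] [T2Space X] {D : Dat X} {K : Ker D}

namespace Iota

omit [T2Space X] in
lemma mem_target (j : Fin D.n) {y : V} (hy : ‖y‖ ≤ 12) : y ∈ (D.e j).target :=
  D.big j (mem_closedBall_zero_iff.2 hy)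

omit [T2Space X] in
lemma anti_loc {α : Form X} (h : Anti D α) (j : Fin D.n) {y : V} (hy : ‖y‖ ≤ 11) :
    AntiP ((D.F j).J y) (D.loc j α y) := by
  have ht := mem_target (D := D) j (hy.trans (by norm_num : (11 : ℝ) ≤ 12))
  have he : D.e j ((D.e j).symm y) = y := (D.e j).right_inv ht
  have hx : D.In j 11 ((D.e j).symm y) := ⟨(D.e j).map_target ht, by rw [he]; exact hy⟩
  have h1 : ∀ v, D.fr j ((D.e j).symm y) ((D.F j).J y v)
      = D.J ((D.e j).symm y) (D.fr j ((D.e j).symm y) v) := fun v => by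
    have := D.FJ j _ hx
    rw [he] at this
    rw [this]; simp [Atl.Jc]
  intro u v
  rw [Atl.loc, ap_pull, ap_pull]
  simp only [ContinuousLinearEquiv.coe_coe, h1]
  exact h _ _ _

lemma anti_zero {F : Frame} {y : V} {c : E6} (h : AntiP (F.J y) c) (v : V) :
    ap c v (F.J y v) = 0 := by
  have := h v (F.J y v)
  rw [F.J_J, ap_neg_r, ap_swap c (F.J y v) v] at this
  linarith

lemma wq_frame (F : Frame) (y : V) (g h : E6) :
    wq g h = (F.A y).det * wq (pull (F.Ai y) g) (pull (F.Ai y) h) := by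
  rw [← wq_pull, F.pull_A_Ai, F.pull_A_Ai]

lemma wq_self (g : E6) : wq g g = 2 * (g 0 ^ 2 + ‖Pm g‖ ^ 2 - ‖Pa g‖ ^ 2) := by
  rw [wq_split, real_inner_self_eq_norm_sq, real_inner_self_eq_norm_sq]; ring

lemma wq_anti {g h : E6} (hh : Po h = 0) : |wq g h| ≤ 2 * ‖cm g‖ * ‖h‖ := by
  have e : wq g h = wq (Pm g) h := by
    have a0 : h 0 = 0 := by simpa using congrArg (fun k : E6 => k 0) hh
    have a3 : h 3 = 0 := by simpa using congrArg (fun k : E6 => k 3) hh
    have a4 : h 4 = 0 := by simpa using congrArg (fun k : E6 => k 4) hh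
    have a5 : h 5 = 0 := by simpa using congrArg (fun k : E6 => k 5) hh
    simp [wq_apply, a0, a3, a4, a5]
  rw [e, norm_cm]
  exact abs_wq_le _ _

omit [T2Space X] in
lemma eq' (hi : HilS D) {α β : Form X} (hα : D.Sm α) (hβ : D.Sm β) :
    II D α β = ∑ j, ∫ y, D.psi j y * wq (D.loc j α y) (D.loc j β y) := by
  rw [II, (hi.qH_eq _ _).2]
  refine Finset.sum_congr rfl fun j _ => ?_
  have e : (fun y => wq (D.iota α j y) (D.iota β j y)) =ᵐ[D.nu j]
      fun y => wq (pull ((D.F j).Ai y) (D.loc j α y)) (pull ((D.F j).Ai y) (D.loc j β y)) := by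
    filter_upwards [hi.iota_ae α j hα, hi.iota_ae β j hβ] with y h1 h2
    rw [h1, h2]
  rw [integral_congr_ae e, hi.int]
  refine integral_congr_ae (Eventually.of_forall fun y => ?_)
  beta_reduce
  rw [wq_frame (D.F j) y (D.loc j α y), smul_eq_mul, mul_assoc]

omit [T2Space X] in
lemma bd' (hi : HilS D) : ∃ C, 0 ≤ C ∧ ∀ α (B : ℝ), D.Sm α → 0 ≤ B →
    (∀ j y, ‖y‖ ≤ 2 → ‖D.loc j α y‖ ≤ B) → ‖D.iota α‖ ≤ C * B := by
  have hS : 0 ≤ ∑ j, (D.nu j).real univ := Finset.sum_nonneg fun j _ => measureReal_nonneg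
  refine ⟨11 * √(∑ j, (D.nu j).real univ), by positivity, fun α B hα hB hb => ?_⟩
  refine le_of_pow_le_pow_left₀ two_ne_zero (by positivity) ?_
  rw [(hi.norm_sq _).2, mul_pow, mul_pow, Real.sq_sqrt hS, mul_comm _ (B ^ 2), ← mul_assoc,
    Finset.mul_sum]
  refine Finset.sum_le_sum fun j _ => ?_
  have := hi.fin j
  have h1 : ∫ y, ‖D.iota α j y‖ ^ 2 ∂(D.nu j) ≤ ∫ _y, B ^ 2 * 11 ^ 2 ∂(D.nu j) := by
    refine integral_mono_ae ((hi.norm_sq _).1 j) (integrable_const _) ?_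
    filter_upwards [hi.iota_ae α j hα, hi.supp j] with y h1 h2
    rw [h1, ← mul_pow]
    refine pow_le_pow_left₀ (norm_nonneg _) (((D.F j).norm_pull_Ai y _).trans ?_) 2
    linarith [hb j y h2]
  rw [integral_const, smul_eq_mul, mul_comm] at h1
  exact h1

omit [T2Space X] in
lemma stokes' (na : NatS) (ga : GeoA D.toAtl) (ha : HatS D) (j : Fin D.n) {b : V → Cov}
    {γ : Form X} (hb : Cc 6 b) (hγ : D.Sm γ) (hc : D.Cl γ) : II D (D.ext j (d1 b)) γ = 0 := by
  have hβ : Cc 10 fun y => cut 9 y • D.loc j γ y :=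
    ga.cutoff j 10 (cut 9) (D.loc j γ) (by norm_num)
      ((cut_cc (by norm_num : (1 : ℝ) ≤ 9)).mono (by norm_num)) (hγ j)
  rw [II, ha.pair' j _ _ (hb.d1.mono (by norm_num))]
  have e : (fun y => wq (d1 b y) (D.hat j (D.iota γ) y)) =ᵐ[volume]
      fun y => wq (cut 9 y • D.loc j γ y) (d1 b y) := by
    filter_upwards [ha.iota j γ hγ] with y h1
    rw [h1]
    by_cases hy : ‖y‖ ≤ 9
    · rw [indicator_of_mem (mem_closedBall_zero_iff.2 hy), cut_one hy, one_smul, wq_symm]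
    · rw [hb.d1.2 y (by linarith [not_le.1 hy]), wq_zero_l, wq_zero_r]
  rw [integral_congr_ae e, na.ibp hb hβ.1]
  refine (integral_congr_ae (Eventually.of_forall fun y => ?_)).trans (integral_zero _ _)
  by_cases hy : 6 < ‖y‖
  · simp [hb.2 y hy]
  · have hy' : ‖y‖ < 9 := by linarith [not_lt.1 hy]
    have e1 : (fun y => cut 9 y • D.loc j γ y) =ᶠ[𝓝 y] D.loc j γ := by
      filter_upwards [(isOpen_lt continuous_norm continuous_const).mem_nhds hy'] with z hz
      rw [cut_one (le_of_lt hz), one_smul]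
    have e2 : ∀ u v w, cyc (fun y => cut 9 y • D.loc j γ y) y u v w = 0 := fun u v w => by
      rw [cyc, e1.fderiv_eq]
      exact hc j y (mem_target j (by linarith)) u v w
    simp [e2]

omit [T2Space X] in
lemma anti_bd' (li : LinS) (se : SemS D) (hi : HilS D) {w : Form X} (hw : D.Sm w)
    (ha : Anti D w) : ∃ C, 0 ≤ C ∧ ∀ α, D.Sm α → |II D α w| ≤ C * D.nrmm 0 α := by
  have hN := se.nrm_nn 0 w
  refine ⟨∑ _j : Fin D.n, 154 * D.nrm 0 w * (volume : Measure V).real (closedBall 0 2),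
    Finset.sum_nonneg fun _ _ => by positivity, fun α hα => ?_⟩
  rw [eq' hi hα hw, Finset.sum_mul]
  refine (Finset.abs_sum_le_sum_abs _ _).trans (Finset.sum_le_sum fun j _ => ?_)
  rw [← setIntegral_eq_integral_of_forall_compl_eq_zero (s := closedBall (0 : V) 2)
    (fun y hy => by rw [(D.psi_cc j).2 y (by simpa using hy), zero_mul])]
  have hM := se.nrmm_nn 0 α
  rw [← Real.norm_eq_abs, mul_right_comm]
  refine norm_setIntegral_le_of_norm_le_const measure_closedBall_lt_top fun y hy => ?_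
  have hy' : ‖y‖ ≤ 2 := mem_closedBall_zero_iff.1 hy
  have h1 := (li.antiF _ _ _).1 (anti_loc ha j (hy'.trans (by norm_num : (2 : ℝ) ≤ 11)))
  have h2 := wq_anti (g := pull ((D.F j).Ai y) (D.loc j α y)) h1
  have h3 := se.cjpt 0 j α y hα
  rw [Dat.cj, norm_smul, Real.norm_of_nonneg (D.psi_nn j y), Frame.cm_apply] at h3
  have h4 := ((D.F j).norm_pull_Ai y (D.loc j w y)).trans
    (mul_le_mul_of_nonneg_left (se.pt 0 j w y hw hy') (by norm_num))
  have h5 := (D.F j).det_pos y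
  have h6 := (D.F j).det_le y
  have h7 := D.psi_nn j y
  rw [Real.norm_eq_abs, wq_frame (D.F j) y, abs_mul, abs_mul, abs_of_nonneg h7, abs_of_pos h5]
  set a := ‖cm (pull ((D.F j).Ai y) (D.loc j α y))‖
  set c := ‖pull ((D.F j).Ai y) (D.loc j w y)‖
  have ha0 : 0 ≤ a := norm_nonneg _
  have hc0 : 0 ≤ c := norm_nonneg _
  calc D.psi j y * (((D.F j).A y).det *
        |wq (pull ((D.F j).Ai y) (D.loc j α y)) (pull ((D.F j).Ai y) (D.loc j w y))|)
      ≤ D.psi j y * (7 * (2 * a * c)) := by gcongr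
    _ = 14 * (D.psi j y * a) * c := by ring
    _ ≤ 14 * D.nrmm 0 α * (11 * D.nrm 0 w) := by gcongr
    _ = _ := by ring

omit [T2Space X] in
lemma tame_ae (li : LinS) (fo : FormS D) (hi : HilS D) {α : Form X} (hα : D.Sm α)
    (ht : D.Tm α) (j : Fin D.n) : ∀ᵐ y ∂(D.nu j), ‖Pa (D.iota α j y)‖ < D.iota α j y 0 := by
  filter_upwards [hi.iota_ae α j hα, hi.supp j] with y h1 h2
  rw [h1]
  exact (li.tameF _ _ _).1 fun v hv => fo.tm_loc α ht j y v (by linarith) hv

omit [T2Space X] in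
lemma po_pos' (li : LinS) (fo : FormS D) (hi : HilS D) {α : Form X} (hα : D.Sm α)
    (ht : D.Tm α) (h0 : II D α α ≠ 0) : 2 * ‖D.mapH Pm (D.iota α)‖ ^ 2 < II D α α := by
  set h := D.iota α with hh
  have i1 := (hi.qH_eq h h).1
  have i2 := (hi.norm_sq (D.mapH Pm h)).1
  have i3 : ∀ j, Integrable (fun y => wq (h j y) (h j y) - 2 * ‖D.mapH Pm h j y‖ ^ 2) (D.nu j) :=
    fun j => (i1 j).sub ((i2 j).const_mul 2)
  have p : ∀ j, ∀ᵐ y ∂(D.nu j), 0 < wq (h j y) (h j y) - 2 * ‖D.mapH Pm h j y‖ ^ 2 := fun j => by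
    filter_upwards [tame_ae li fo hi hα ht j, hi.map_ae Pm h j] with y h1 h2
    rw [h2, wq_self]
    have := pow_lt_pow_left₀ h1 (norm_nonneg _) two_ne_zero
    linarith
  have e : II D α α - 2 * ‖D.mapH Pm h‖ ^ 2
      = ∑ j, ∫ y, (wq (h j y) (h j y) - 2 * ‖D.mapH Pm h j y‖ ^ 2) ∂(D.nu j) := by
    rw [II, (hi.qH_eq h h).2, (hi.norm_sq (D.mapH Pm h)).2, Finset.mul_sum,
      ← Finset.sum_sub_distrib]
    refine Finset.sum_congr rfl fun j _ => ?_
    rw [integral_sub (i1 j) ((i2 j).const_mul 2), integral_const_mul]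
  have nn : ∀ j, 0 ≤ ∫ y, (wq (h j y) (h j y) - 2 * ‖D.mapH Pm h j y‖ ^ 2) ∂(D.nu j) :=
    fun j => integral_nonneg_of_ae ((p j).mono fun y hy => hy.le)
  by_contra hc
  have hz : ∑ j, ∫ y, (wq (h j y) (h j y) - 2 * ‖D.mapH Pm h j y‖ ^ 2) ∂(D.nu j) = 0 :=
    le_antisymm (by linarith [not_lt.1 hc]) (Finset.sum_nonneg fun j _ => nn j)
  rw [Finset.sum_eq_zero_iff_of_nonneg fun j _ => nn j] at hz
  refine h0 ?_
  rw [II, (hi.qH_eq h h).2]
  refine Finset.sum_eq_zero fun j hj => ?_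
  have z := (integral_eq_zero_iff_of_nonneg_ae ((p j).mono fun y hy => hy.le) (i3 j)).1 (hz j hj)
  refine (integral_congr_ae ?_).trans (integral_zero _ _)
  filter_upwards [z, p j] with y h1 h2
  exact absurd h1 h2.ne'

end Iota

open Iota in
theorem iotaS (li : LinS) (na : NatS) (ga : GeoA D.toAtl) (fo : FormS D) (se : SemS D)
    (hi : HilS D) (ha : HatS D) : IotaS D where
  add α β hα hβ := PiLp.ext fun j => Lp.ext (by
    filter_upwards [hi.iota_ae _ j (fo.sm_add α β hα hβ), hi.iota_ae α j hα, hi.iota_ae β j hβ,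
      Lp.coeFn_add (D.iota α j) (D.iota β j)] with y h1 h2 h3 h4
    rw [PiLp.add_apply, h4, Pi.add_apply, h1, h2, h3]
    simp [Atl.loc])
  smul c α hα := PiLp.ext fun j => Lp.ext (by
    filter_upwards [hi.iota_ae _ j (fo.sm_smul c α hα), hi.iota_ae α j hα,
      Lp.coeFn_smul c (D.iota α j)] with y h1 h2 h4
    rw [PiLp.smul_apply, h4, Pi.smul_apply, h1, h2]
    simp [Atl.loc])
  bd := bd' hi
  eq α β hα hβ := eq' hi hα hβ
  stokes j b γ hb hγ hc := stokes' na ga ha j hb hγ hc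
  anti_po α hα h := PiLp.ext fun j => Lp.ext (by
    filter_upwards [hi.map_ae Po (D.iota α) j, hi.iota_ae α j hα, hi.supp j,
      Lp.coeFn_zero E6 2 (D.nu j)] with y h1 h2 h3 h4
    rw [h1, h2, PiLp.zero_apply, h4, Pi.zero_apply]
    exact (li.antiF _ _ _).1 (anti_loc h j (by linarith)))
  anti_bd w hw h := anti_bd' li se hi hw h
  po_pos α hα ht h0 := po_pos' li fo hi hα ht h0
  sq_bd ρ hρ ht := by
    refine ⟨2 * (11 * D.nrm 0 ρ) * (11 * D.nrm 0 ρ), fun j => ?_⟩
    filter_upwards [tame_ae li fo hi hρ ht j, hi.iota_ae ρ j hρ, hi.supp j] with y h1 h2 h3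
    constructor
    · rw [wq_self]
      have := pow_lt_pow_left₀ h1 (norm_nonneg _) two_ne_zero
      nlinarith [sq_nonneg ‖Pm (D.iota ρ j y)‖]
    · have h4 : ‖D.iota ρ j y‖ ≤ 11 * D.nrm 0 ρ := by
        rw [h2]
        exact ((D.F j).norm_pull_Ai y _).trans
          (mul_le_mul_of_nonneg_left (se.pt 0 j ρ y hρ h3) (by norm_num))
      refine (le_abs_self _).trans ((abs_wq_le _ _).trans ?_)
      have := norm_nonneg (D.iota ρ j y)
      have := se.nrm_nn 0 ρ
      gcongr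
  T_anti m α hm h := by
    refine Finset.sum_eq_zero fun j _ => ?_
    refine (integral_congr_ae ?_).trans (integral_zero _ _)
    filter_upwards [(hm j).2] with p hp
    exact anti_zero (anti_loc h j (by linarith [hp.1])) _
  T_nn m α hm h := by
    refine Finset.sum_nonneg fun j _ => integral_nonneg_of_ae ?_
    filter_upwards [(hm j).2] with p hp
    refine (fo.tm_loc α h j p.1 p.2 (by linarith [hp.1]) fun h0 => ?_).le
    have := hp.2
    rw [h0, norm_zero] at this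
    exact zero_ne_one this

end Vale.Agent.P247
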