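import Vale.Agent.P247.Defs

/-! The smoothing kernel of one chart almost preserves the positive cone. -/

set_option maxSynthPendingDepth 3

open scoped Topology ContDiff RealInnerProductSpace Manifold
open Set Metric MeasureTheory Filter

noncomputable section
namespace Vale.Agent.P247

open Vale.Agent.P204

namespace KopB

lemma sl_id (u v : V) : sl u v (ContinuousLinearMap.id ℝ E6) = st u v :=
  ap_ext fun p q => by
    rw [ap_sl, ContinuousLinearMap.id_apply, ← D4_eq, ← D4_eq, D4_swap]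

lemma h_nn {F : Frame} {Hs : V × V × ℝ → Op} {ε0 Cc : ℝ} (hs : ContDiff ℝ ∞ Hs) (he : 0 < ε0)
    (hc : ∀ ε, 0 < ε → ε ≤ ε0 → Cone F (ksc Hs ε) Cc ε) {y v : V} {c : ℝ} (hy : ‖y‖ ≤ 2)
    (h0 : Hs (y, v, 0) = c • ContinuousLinearMap.id ℝ E6) : 0 ≤ c := by
  set u := bv 0 with hu
  let G : ℝ → ℝ := fun ε => pull (F.Ai y) (sl u (F.J (y + ε • v) u) (Hs (y, v, ε))) 0 + Cc * ε ^ 2
  have c1 : Continuous fun ε : ℝ => sl u (F.J (y + ε • v) u) :=
    (cd_sl (n := 0) contDiff_const (((F.smJ.of_le (by simp)).comp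
      (by fun_prop : ContDiff ℝ 0 fun ε : ℝ => y + ε • v)).clm_apply contDiff_const)).continuous
  have c2 : Continuous fun ε : ℝ => Hs (y, v, ε) := hs.continuous.comp (by fun_prop)
  have c3 : Continuous G :=
    ((p6 0).continuous.comp ((pull (F.Ai y)).continuous.comp (c1.clm_apply c2))).add (by fun_prop)
  have c4 : 0 ≤ G 0 := by
    refine ge_of_tendsto ((c3.tendsto 0).mono_left (nhdsWithin_le_nhds (s := Ioi 0))) ?_
    filter_upwards [Ioc_mem_nhdsGT he] with ε hε
    have h1 := (norm_nonneg _).trans (hc ε hε.1 hε.2 y (y + ε • v) u hy (norm_bv 0)).2.2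
    have h2 := hε.1
    simp only [ksc, add_sub_cancel_left, inv_smul_smul₀ h2.ne', map_smul, PiLp.smul_apply,
      smul_eq_mul] at h1
    have h3 := mul_nonneg (pow_pos h2 4).le h1
    refine h3.trans_eq ?_
    simp only [G]
    field_simp
  have e1 := congrArg (fun g : E6 => g 0) (pull_st (F.A y) (F.Ai y) (F.inv1 y) u (F.J y u))
  simp only [PiLp.smul_apply, smul_eq_mul, Frame.A_J, st_J0_0] at e1
  simp only [G, zero_smul, add_zero, h0, map_smul, sl_id, PiLp.smul_apply, smul_eq_mul] at c4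
  have e2 := F.le_norm_A y u
  rw [hu, norm_bv, ← hu] at e2
  have e3 : 0 < pull (F.Ai y) (st u (F.J y u)) 0 := by
    refine (mul_pos_iff_of_pos_left (F.det_pos y)).1 ?_
    rw [e1]
    have : 0 < ‖F.A y u‖ := by linarith
    positivity
  by_contra hn
  push Not at hn
  nlinarith [mul_pos_of_neg_of_neg hn (neg_lt_zero.2 e3)]

/-- conformal factor -/
def cf (F : Frame) (σ : V → ℝ) (y z : V) : ℝ := √(σ z * (F.A y).det / (σ y * (F.A z).det))

/-- transport from `y` to `z` -/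
def Tr (F : Frame) (σ : V → ℝ) (y z : V) : Op :=
  cf F σ y z • (pull (F.A z)).comp (pull (F.Ai y))

abbrev Kq (C0 : ℝ) : Set ((V × V) × V × ℝ) :=
  (closedBall 0 2 ×ˢ closedBall 0 2) ×ˢ closedBall 0 C0 ×ˢ Icc 0 1

lemma tr_sm (F : Frame) {σ : V → ℝ} (h1 : ContDiffOn ℝ ∞ σ (ball 0 3))
    (h2 : ∀ y, ‖y‖ ≤ 2 → 0 < σ y) :
    ContDiffOn ℝ ∞ (fun p : V × V => Tr F σ p.1 p.2) (closedBall 0 2 ×ˢ closedBall 0 2) := by
  have s : closedBall (0 : V) 2 ⊆ ball 0 3 := closedBall_subset_ball (by norm_num)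
  have a1 : ContDiffOn ℝ ∞ (fun p : V × V => σ p.1) (closedBall 0 2 ×ˢ closedBall 0 2) :=
    h1.comp contDiffOn_fst fun p hp => s hp.1
  have a2 : ContDiffOn ℝ ∞ (fun p : V × V => σ p.2) (closedBall 0 2 ×ˢ closedBall 0 2) :=
    h1.comp contDiffOn_snd fun p hp => s hp.2
  have b1 : ContDiff ℝ ∞ fun p : V × V => (F.A p.1).det := cd_det (F.smA.comp contDiff_fst)
  have b2 : ContDiff ℝ ∞ fun p : V × V => (F.A p.2).det := cd_det (F.smA.comp contDiff_snd)
  have p : ∀ p ∈ closedBall (0 : V) 2 ×ˢ closedBall (0 : V) 2, 0 < σ p.1 ∧ 0 < σ p.2 :=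
    fun p hp => ⟨h2 _ (by simpa using hp.1), h2 _ (by simpa using hp.2)⟩
  refine ContDiffOn.smul (((a2.mul b1.contDiffOn).div (a1.mul b2.contDiffOn) fun q hq => ?_).sqrt
    fun q hq => ?_) ((cd_pull (F.smA.comp contDiff_snd)).clm_comp
      (cd_pull (F.smAi.comp contDiff_fst))).contDiffOn
  · exact (mul_pos (p q hq).1 (F.det_pos _)).ne'
  · exact (div_pos (mul_pos (p q hq).2 (F.det_pos _)) (mul_pos (p q hq).1 (F.det_pos _))).ne'

lemma lip (F : Frame) {Hs : V × V × ℝ → Op} (C0 : ℝ) {σ : V → ℝ} (hs : ContDiff ℝ ∞ Hs)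
    (h1 : ContDiffOn ℝ ∞ σ (ball 0 3)) (h2 : ∀ y, ‖y‖ ≤ 2 → 0 < σ y) : ∃ L, 0 ≤ L ∧
    ∀ (y z v : V) (t : ℝ), ‖y‖ ≤ 2 → ‖z‖ ≤ 2 → ‖v‖ ≤ C0 → 0 ≤ t → t ≤ 1 →
      ‖Hs (y, v, t) - (Hs (z, v, 0)).comp (Tr F σ y z)‖ ≤ L * (‖y - z‖ + t) := by
  have sm : ContDiffOn ℝ ∞ (fun q : (V × V) × V × ℝ => Hs (q.1.1, q.2.1, q.2.2)
      - (Hs (q.1.2, q.2.1, 0)).comp (Tr F σ q.1.1 q.1.2)) (Kq C0) :=
    (hs.comp (by fun_prop)).contDiffOn.sub ((hs.comp (by fun_prop)).contDiffOn.clm_comp
      ((tr_sm F h1 h2).comp contDiffOn_fst fun q hq => hq.1))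
  obtain ⟨L, hL⟩ := sm.exists_lipschitzOnWith (by simp)
    (((convex_closedBall _ _).prod (convex_closedBall _ _)).prod
      ((convex_closedBall _ _).prod (convex_Icc _ _)))
    (((isCompact_closedBall _ _).prod (isCompact_closedBall _ _)).prod
      ((isCompact_closedBall _ _).prod isCompact_Icc))
  refine ⟨L, L.2, fun y z v t hy hz hv t0 t1 => ?_⟩
  have := hL.dist_le_mul ((y, z), v, t) ⟨⟨by simpa, by simpa⟩, by simpa, t0, t1⟩
    ((z, z), v, 0) ⟨⟨by simpa, by simpa⟩, by simpa, le_rfl, zero_le_one⟩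
  have e : Tr F σ z z = ContinuousLinearMap.id ℝ E6 := by
    ext1 g
    simp [Tr, cf, div_self (mul_pos (h2 z hz) (F.det_pos z)).ne']
  simp only [e, ContinuousLinearMap.comp_id, sub_self, dist_zero_right] at this
  refine this.trans (mul_le_mul_of_nonneg_left ?_ L.2)
  simp only [Prod.dist_eq, dist_self]
  simp only [dist_eq_norm, sub_zero, Real.norm_of_nonneg t0]
  have := norm_nonneg (y - z)
  refine max_le (max_le ?_ ?_) (max_le ?_ ?_) <;> linarith

lemma tr_cone (li : LinS) (F : Frame) {σ : V → ℝ} {y z : V} (hy : 0 < σ y) (hz : 0 < σ z) {g u : E6}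
    (g1 : Pm (pull (F.Ai y) g) = 0) (g2 : ‖Pa (pull (F.Ai y) g)‖ ≤ pull (F.Ai y) g 0)
    (g3 : σ y ≤ wq g g) (u1 : ‖Pa u‖ ≤ u 0) (u2 : Pm u = 0) :
    Pm (pull (F.Ai z) (Tr F σ y z g)) = 0 ∧
      √(σ z / (F.A z).det) * √(wq u u) ≤ wq (pull (F.Ai z) (Tr F σ y z g)) u := by
  have e : pull (F.Ai z) (Tr F σ y z g) = cf F σ y z • pull (F.Ai y) g := by simp [Tr]
  obtain ⟨r1, r2⟩ := li.rcs _ _ g2 u1 g1 u2
  obtain ⟨r3, -⟩ := li.rcs _ _ u1 u1 u2 u2
  have d1 := F.det_pos y
  have d2 := F.det_pos z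
  have d3 : (F.Ai y).det = ((F.A y).det)⁻¹ := eq_inv_of_mul_eq_one_left (F.det_mul y)
  refine ⟨by rw [e, map_smul, g1, smul_zero], ?_⟩
  rw [e, wq_smul_l, ← Real.sqrt_mul (by positivity), ← Real.sqrt_sq r1, cf,
    ← Real.sqrt_mul (by positivity)]
  refine Real.sqrt_le_sqrt (le_trans ?_ (mul_le_mul_of_nonneg_left r2 (by positivity)))
  rw [wq_pull, d3]
  calc σ z / (F.A z).det * wq u u
      = σ z * (F.A y).det / (σ y * (F.A z).det) * (((F.A y).det)⁻¹ * σ y * wq u u) := by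
        field_simp
    _ ≤ _ := by gcongr

end KopB

open KopB in
theorem kopKS' (li : LinS) : KopKS := by
  intro F Hs C0 ε0 Cc σ ⟨hs, hz0, h, hh, hint⟩ hC0 he hsm hc h1 h2
  obtain ⟨L, hL, hl⟩ := lip F C0 hs h1 h2
  set vb := (volume : Measure V).real (closedBall 0 1) with hvb
  have vb0 : 0 ≤ vb := measureReal_nonneg
  refine ⟨L * (C0 + 1) * (C0 ^ 4 * vb), by positivity, fun t B g ht ht0 hB hg hae z hz => ?_⟩
  have t1 : C0 * t ≤ 1 / 2 := le_trans (by gcongr) hsm
  have t2 : t ≤ 1 := by nlinarith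
  have z2 : ‖z‖ ≤ 2 := by linarith
  have hh' : ∀ v, Hs (z, v, 0) = h z v • ContinuousLinearMap.id ℝ E6 := fun v =>
    hh z v (by linarith)
  let k : V → ℝ := fun y => (t ^ 4)⁻¹ * h z (t⁻¹ • (z - y))
  set S := closedBall z (C0 * t) with hS
  have out : ∀ y, y ∉ S → C0 < ‖t⁻¹ • (z - y)‖ := fun y hy => by
    rw [norm_smul, Real.norm_of_nonneg (by positivity), lt_inv_mul_iff₀ ht, mul_comm, norm_sub_rev]
    simpa [hS, dist_eq_norm] using hy
  have ins : ∀ y ∈ S, ‖y - z‖ ≤ C0 * t ∧ ‖t⁻¹ • (z - y)‖ ≤ C0 ∧ ‖y‖ ≤ 2 := fun y hy => by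
    have e : ‖y - z‖ ≤ C0 * t := by simpa [hS, dist_eq_norm] using hy
    refine ⟨e, ?_, ?_⟩
    · rw [norm_smul, Real.norm_of_nonneg (by positivity), inv_mul_le_iff₀ ht, mul_comm,
        norm_sub_rev]
      exact e
    · linarith [norm_le_norm_add_norm_sub' y z]
  have hb : ∀ v, h z v = Hs (z, v, 0) (b6 0) 0 := fun v => by simp [hh', b6_apply]
  have k0 : ∀ y, y ∉ S → k y = 0 := fun y hy => by simp [k, hb, hz0 _ _ _ (out y hy)]
  have kn : ∀ y, 0 ≤ k y := fun y => mul_nonneg (by positivity) (h_nn hs he hc z2 (hh' _))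
  have kc : Continuous k := by
    simp only [k, hb]
    exact continuous_const.mul ((p6 0).continuous.comp
      ((hs.continuous.comp (by fun_prop)).clm_apply continuous_const))
  have k1 : ∫ y, k y = 1 := by
    simp only [k]
    rw [integral_const_mul, integral_sub_left_eq_self (fun y => h z (t⁻¹ • y)) volume z,
      Measure.integral_comp_inv_smul_of_nonneg _ _ ht.le, hint z (by linarith)]
    simp [ht.ne']
  have ki : Integrable k := Integrable.of_integral_ne_zero (by rw [k1]; exact one_ne_zero)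
  have gen : ∀ (Φ : V → Op), ContinuousOn Φ S → (∀ y, y ∉ S → Φ y = 0) →
      Integrable fun y => Φ y (g y) := fun Φ c1 c2 => by
    obtain ⟨M, hM⟩ := (isCompact_closedBall z (C0 * t)).exists_bound_of_continuousOn c1
    refine (integrableOn_iff_integrable_of_support_subset (s := S) fun y hy => ?_).1 ?_
    · by_contra hn
      exact hy (by simp [c2 y hn])
    · refine (hg.integrableOn.norm.const_mul M).mono' ?_ ?_
      · exact (isBoundedBilinearMap_apply.continuous.comp_aestronglyMeasurable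
          ((c1.aestronglyMeasurable measurableSet_closedBall).prodMk
            hg.integrableOn.aestronglyMeasurable))
      · filter_upwards [ae_restrict_mem measurableSet_closedBall] with y hy
        exact ((Φ y).le_opNorm _).trans (mul_le_mul_of_nonneg_right (hM y hy) (norm_nonneg _))
  have tc : ContinuousOn (fun y => Tr F σ y z) S :=
    (tr_sm F h1 h2).continuousOn.comp (f := fun y => (y, z)) (by fun_prop)
      fun y hy => ⟨by simpa using (ins y hy).2.2, by simpa using z2⟩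
  have i1 : Integrable fun y => (k y • Tr F σ y z) (g y) :=
    gen _ (kc.continuousOn.smul tc) fun y hy => by rw [k0 y hy, zero_smul]
  have i2 : Integrable fun y => ksc Hs t y z (g y) :=
    gen _ (Continuous.continuousOn ((hs.continuous.comp
      (by fun_prop : Continuous fun y : V => (y, t⁻¹ • (z - y), t))).const_smul (t ^ 4)⁻¹))
      fun y hy => by simp [ksc, hz0 _ _ _ (out y hy)]
  set g0 := ∫ y, (k y • Tr F σ y z) (g y) with hg0
  have d2 := F.det_pos z
  have s0 : 0 < σ z / (F.A z).det := div_pos (h2 z z2) d2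
  have m0 : Pm (pull (F.Ai z) g0) = 0 := by
    have := ((Pm.comp (pull (F.Ai z))).integral_comp_comm i1).symm
    refine this.trans (integral_eq_zero_of_ae ?_)
    filter_upwards [hae] with y hy
    by_cases hyS : y ∈ S
    · have a := hy (ins y hyS).2.2
      have := (tr_cone li F (h2 y (ins y hyS).2.2) (h2 z z2) a.1 a.2.1 a.2.2.1 (u := 0)
        (by simp) (by simp)).1
      simp [this]
    · simp [k0 y hyS]
  obtain ⟨q1, q2⟩ := li.dual (pull (F.Ai z) g0) _ (Real.sqrt_pos.2 s0) m0 fun u u1 u2 => by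
    have e := ((wqL u).comp (pull (F.Ai z))).integral_comp_comm i1
    have e2 : wq (pull (F.Ai z) g0) u = ∫ y, ((wqL u).comp (pull (F.Ai z)))
        ((k y • Tr F σ y z) (g y)) := by rw [e, wq_symm]; simp [hg0]
    rw [e2, ← one_mul (_ * _), ← k1, ← integral_mul_const]
    refine integral_mono_ae (ki.mul_const _) (ContinuousLinearMap.integrable_comp _ i1) ?_
    filter_upwards [hae] with y hy
    by_cases hyS : y ∈ S
    · have a := hy (ins y hyS).2.2
      have := (tr_cone li F (h2 y (ins y hyS).2.2) (h2 z z2) a.1 a.2.1 a.2.2.1 u1 u2).2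
      simpa [wq_symm u] using mul_le_mul_of_nonneg_left this (kn y)
    · simp [k0 y hyS]
  refine ⟨g0, m0, q1.le, ?_, ?_⟩
  · rw [Real.sq_sqrt s0.le, wq_pull, eq_inv_of_mul_eq_one_left (F.det_mul z), div_eq_inv_mul]
      at q2
    exact le_of_mul_le_mul_left q2 (inv_pos.2 d2)
  · rw [hg0, ← integral_sub i2 i1]
    refine (norm_integral_le_of_norm_le ((integrable_indicator_iff measurableSet_closedBall).2
      (integrableOn_const (C := (t ^ 4)⁻¹ * (L * (C0 * t + t)) * B) (s := S)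
        measure_closedBall_lt_top.ne)) ?_).trans_eq ?_
    · filter_upwards [hae] with y hy
      by_cases hyS : y ∈ S
      · obtain ⟨a1, a2, a3⟩ := ins y hyS
        have e : ksc Hs t y z (g y) - (k y • Tr F σ y z) (g y) = (t ^ 4)⁻¹ •
            (Hs (y, t⁻¹ • (z - y), t) - (Hs (z, t⁻¹ • (z - y), 0)).comp (Tr F σ y z)) (g y) := by
          simp [ksc, k, hh', smul_sub, mul_smul]
        rw [e, indicator_of_mem hyS, norm_smul, Real.norm_of_nonneg (by positivity), mul_assoc]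
        refine mul_le_mul_of_nonneg_left ((ContinuousLinearMap.le_opNorm _ _).trans ?_)
          (by positivity)
        exact mul_le_mul ((hl y z _ t a3 z2 a2 ht.le t2).trans (by gcongr)) (hy a3).2.2.2
          (norm_nonneg _) (by positivity)
      · rw [indicator_of_notMem hyS]
        simp [k0 y hyS, ksc, hz0 _ _ _ (out y hyS)]
    · rw [integral_indicator measurableSet_closedBall, setIntegral_const,
        Measure.addHaar_real_closedBall' _ _ (by positivity), finrank_euclideanSpace_fin, ← hvb,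
        smul_eq_mul]
      field_simp

end Vale.Agent.P247
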