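import Vale.Agent.P247.Defs

set_option maxSynthPendingDepth 3

open scoped Topology ContDiff RealInnerProductSpace Manifold
open Set Metric MeasureTheory Filter

noncomputable section
namespace Vale.Agent.P247

open Vale.Agent.P204 Vale.Agent.P204.Bridge

namespace Lin

lemma ap_J0 (c : E6) (v : V) : ap c v (J0 v) = c 0 * ‖v‖ ^ 2 +
    (c 3 * (v 0 ^ 2 + v 1 ^ 2 - v 2 ^ 2 - v 3 ^ 2) + c 4 * (2 * (v 1 * v 2 - v 0 * v 3)) +
      c 5 * (2 * (v 0 * v 2 + v 1 * v 3))) := by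
  rw [ap_apply, normsq_V]
  simp only [J0_0, J0_1, J0_2, J0_3]
  ring

lemma sq_Pa (c : E6) : ‖Pa c‖ ^ 2 = c 3 ^ 2 + c 4 ^ 2 + c 5 ^ 2 := by
  rw [normsq_E6]
  simp

lemma ge (c : E6) (v : V) : ‖v‖ ^ 2 * (c 0 - ‖Pa c‖) ≤ ap c v (J0 v) := by
  rw [ap_J0]
  have h : (v 0 ^ 2 + v 1 ^ 2 - v 2 ^ 2 - v 3 ^ 2) ^ 2 + (2 * (v 1 * v 2 - v 0 * v 3)) ^ 2 +
      (2 * (v 0 * v 2 + v 1 * v 3)) ^ 2 = (‖v‖ ^ 2) ^ 2 := by
    rw [normsq_V]
    ring
  generalize v 0 ^ 2 + v 1 ^ 2 - v 2 ^ 2 - v 3 ^ 2 = x at h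
  generalize 2 * (v 1 * v 2 - v 0 * v 3) = y at h
  generalize 2 * (v 0 * v 2 + v 1 * v 3) = z at h
  have h1 : (c 3 * x + c 4 * y + c 5 * z) ^ 2 ≤ (‖v‖ ^ 2 * ‖Pa c‖) ^ 2 := by
    rw [mul_pow, sq_Pa, ← h]
    nlinarith [sq_nonneg (c 3 * y - c 4 * x), sq_nonneg (c 3 * z - c 5 * x),
      sq_nonneg (c 4 * z - c 5 * y)]
  have h2 := (abs_le_of_sq_le_sq' h1 (by positivity)).1
  linarith

lemma ex (c : E6) : ∃ v : V, v ≠ 0 ∧ ap c v (J0 v) = ‖v‖ ^ 2 * (c 0 - ‖Pa c‖) := by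
  have h := sq_Pa c
  by_cases h3 : ‖Pa c‖ = c 3
  · refine ⟨bv 2, fun e => by simpa using congrArg norm e, ?_⟩
    rw [ap_J0, h3]
    simp [bv_apply]
    ring
  · refine ⟨!₂[‖Pa c‖ - c 3, 0, -c 5, c 4], fun e => h3 (sub_eq_zero.1 ?_), ?_⟩
    · simpa using congrArg (fun v : V => v 0) e
    · rw [ap_J0, normsq_V]
      generalize ‖Pa c‖ = N at h
      simp only [Matrix.cons_val]
      linear_combination (N - c 3) * h

lemma unit (J : End) (c : E6) :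
    (∀ v : V, ‖v‖ = 1 → 0 ≤ ap c v (J v)) ↔ ∀ v : V, 0 ≤ ap c v (J v) := by
  refine ⟨fun h v => ?_, fun h v _ => h v⟩
  rcases eq_or_ne v 0 with rfl | hv
  · simp
  · have h1 := h (‖v‖⁻¹ • v) (norm_smul_inv_norm hv)
    have h2 : 0 < ‖v‖⁻¹ := inv_pos.2 (norm_pos_iff.2 hv)
    rw [map_smul, ap_smul_l, ap_smul_r] at h1
    exact nonneg_of_mul_nonneg_right (nonneg_of_mul_nonneg_right h1 h2) h2

lemma tame0 (c : E6) : TameP J0 c ↔ ‖Pa c‖ < c 0 := by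
  refine ⟨fun h => ?_, fun h v hv => lt_of_lt_of_le
    (mul_pos (pow_pos (norm_pos_iff.2 hv) 2) (sub_pos.2 h)) (ge c v)⟩
  obtain ⟨v, hv, e⟩ := ex c
  exact sub_pos.1 ((mul_pos_iff_of_pos_left (pow_pos (norm_pos_iff.2 hv) 2)).1 (e ▸ h v hv))

lemma nonneg0 (c : E6) : (∀ v : V, 0 ≤ ap c v (J0 v)) ↔ ‖Pa c‖ ≤ c 0 := by
  refine ⟨fun h => ?_, fun h v => (mul_nonneg (sq_nonneg _) (sub_nonneg.2 h)).trans (ge c v)⟩
  obtain ⟨v, hv, e⟩ := ex c
  exact sub_nonneg.1 ((mul_nonneg_iff_of_pos_left (pow_pos (norm_pos_iff.2 hv) 2)).1 (e ▸ h v))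

lemma inv0 (c : E6) : InvP J0 c ↔ Pm c = 0 :=
  (inv_iff_cm c).trans (by rw [← norm_eq_zero, norm_cm, norm_eq_zero])

lemma anti0 (c : E6) : AntiP J0 c ↔ Po c = 0 := by
  have e : ∀ u v, ap c (J0 u) (J0 v) = -ap c u v + 2 * ap (Po c) u v := fun u v => by
    rw [← ap_pull, pull_J0, ap_sub, eq_sub_of_add_eq (Pm_add_Po c), ap_sub]
    ring
  refine ⟨fun h => ap_ext fun u v => ?_, fun h u v => by rw [e, h, ap_zero, mul_zero, add_zero]⟩
  have := h u v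
  rw [e] at this
  rw [ap_zero]
  linarith

section conj
variable {A B J : End} (hAB : ∀ v, A (B v) = v) (hBA : ∀ v, B (A v) = v)
  (hJ : ∀ v, J v = B (J0 (A v)))
include hAB hBA hJ

omit hAB in
lemma ap1 (c : E6) (v : V) : ap c v (J v) = ap (pull B c) (A v) (J0 (A v)) := by
  rw [ap_pull, hBA, hJ]

omit hBA in
lemma ap2 (c : E6) (v : V) : ap (pull B c) v (J0 v) = ap c (B v) (J (B v)) := by
  rw [ap_pull, hJ, hAB]

lemma tameC (c : E6) : TameP J c ↔ ‖Pa (pull B c)‖ < pull B c 0 := by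
  rw [← tame0]
  refine ⟨fun h v hv => ?_, fun h v hv => ?_⟩
  · rw [ap2 hAB hJ]
    exact h _ fun e => hv (by rw [← hAB v, e, map_zero])
  · rw [ap1 hBA hJ]
    exact h _ fun e => hv (by rw [← hBA v, e, map_zero])

lemma nonnegC (c : E6) :
    (∀ v : V, ‖v‖ = 1 → 0 ≤ ap c v (J v)) ↔ ‖Pa (pull B c)‖ ≤ pull B c 0 := by
  rw [← nonneg0, unit]
  exact ⟨fun h v => ap2 hAB hJ c v ▸ h _, fun h v => ap1 hBA hJ c v ▸ h _⟩

lemma invC (c : E6) : InvP J c ↔ Pm (pull B c) = 0 := by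
  rw [← inv0]
  refine ⟨fun h u v => ?_, fun h u v => ?_⟩
  · have := h (B u) (B v)
    rw [hJ, hJ, hAB, hAB] at this
    rwa [ap_pull, ap_pull]
  · have := h (A u) (A v)
    rwa [ap_pull, ap_pull, ← hJ, ← hJ, hBA, hBA] at this

lemma antiC (c : E6) : AntiP J c ↔ Po (pull B c) = 0 := by
  rw [← anti0]
  refine ⟨fun h u v => ?_, fun h u v => ?_⟩
  · have := h (B u) (B v)
    rw [hJ, hJ, hAB, hAB] at this
    rwa [ap_pull, ap_pull]
  · have := h (A u) (A v)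
    rwa [ap_pull, ap_pull, ← hJ, ← hJ, hBA, hBA] at this

omit hAB hJ in
lemma wqC (g h : E6) : wq g h = A.det * wq (pull B g) (pull B h) := by
  have e : B.comp A = ContinuousLinearMap.id ℝ V := ContinuousLinearMap.ext hBA
  rw [← wq_pull, pull_pull, pull_pull, e, pull_id]
  rfl

end conj

lemma conj {J : End} (hJ : CS J) : ∃ A B : End, (∀ v, A (B v) = v) ∧ (∀ v, B (A v) = v) ∧
    ∀ v, J v = B (J0 (A v)) := by
  obtain ⟨L, hL⟩ := exists_conj J hJ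
  refine ⟨L, L.symm, L.apply_symm_apply, L.symm_apply_apply, fun v => ?_⟩
  have := hL (L v)
  rw [L.symm_apply_apply] at this
  exact L.eq_symm_apply.2 this

lemma wq_self (g : E6) : wq g g = 2 * (g 0 ^ 2 + ‖Pm g‖ ^ 2 - ‖Pa g‖ ^ 2) := by
  rw [wq_split, real_inner_self_eq_norm_sq, real_inner_self_eq_norm_sq, sq (g 0)]

lemma pos0 {g : E6} (h : ‖Pa g‖ < |g 0|) : 0 < wq g g := by
  rw [wq_self, ← sq_abs (g 0)]
  nlinarith [norm_nonneg (Pa g), sq_nonneg ‖Pm g‖]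

lemma po {a : E6} (h : Po a = 0) : a 0 = 0 ∧ Pa a = 0 := by
  have := normsq_Po a
  rw [h, norm_zero] at this
  exact ⟨by nlinarith [sq_nonneg (a 0), sq_nonneg ‖Pa a‖],
    norm_eq_zero.1 (by nlinarith [sq_nonneg (a 0), sq_nonneg ‖Pa a‖])⟩

lemma rcs (g h : E6) (hg : ‖Pa g‖ ≤ g 0) (hh : ‖Pa h‖ ≤ h 0) (hg' : Pm g = 0) (hh' : Pm h = 0) :
    0 ≤ wq g h ∧ wq g g * wq h h ≤ wq g h ^ 2 := by
  rw [wq_self, wq_self, wq_split, hg', hh', inner_zero_left, norm_zero]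
  have h1 := real_inner_le_norm (Pa g) (Pa h)
  have h2 := mul_le_mul hg hh (norm_nonneg _) ((norm_nonneg _).trans hg)
  have h3 : (g 0 * h 0 - ‖Pa g‖ * ‖Pa h‖) ^ 2 ≤ (g 0 * h 0 - ⟪Pa g, Pa h⟫) ^ 2 :=
    pow_le_pow_left₀ (sub_nonneg.2 h2) (by linarith) 2
  exact ⟨by linarith, by nlinarith [sq_nonneg (g 0 * ‖Pa h‖ - h 0 * ‖Pa g‖)]⟩

lemma rcsF (F : Frame) (y : V) {g h : E6} (hg : ‖Pa (pull (F.Ai y) g)‖ ≤ pull (F.Ai y) g 0)
    (hh : ‖Pa (pull (F.Ai y) h)‖ ≤ pull (F.Ai y) h 0) (hg' : InvP (F.J y) g)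
    (hh' : InvP (F.J y) h) : 0 ≤ wq g h ∧ wq g g * wq h h ≤ wq g h ^ 2 := by
  obtain ⟨h1, h2⟩ := rcs _ _ hg hh ((invC (F.A_Ai y) (F.Ai_A y) (F.J_apply y) _).1 hg')
    ((invC (F.A_Ai y) (F.Ai_A y) (F.J_apply y) _).1 hh')
  rw [wqC (F.Ai_A y) g h, wqC (F.Ai_A y) g g, wqC (F.Ai_A y) h h, mul_pow, mul_mul_mul_comm, ← sq]
  exact ⟨mul_nonneg (F.det_pos y).le h1, mul_le_mul_of_nonneg_left h2 (sq_nonneg _)⟩

lemma dual (g : E6) (s : ℝ) (hs : 0 < s) (hg : Pm g = 0)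
    (h : ∀ u : E6, ‖Pa u‖ ≤ u 0 → Pm u = 0 → s * √(wq u u) ≤ wq g u) :
    ‖Pa g‖ < g 0 ∧ s ^ 2 ≤ wq g g := by
  have key : ∀ t τ : ℝ, 0 ≤ τ → τ * ‖Pa g‖ ≤ t →
      s * √(2 * (t ^ 2 - τ ^ 2 * ‖Pa g‖ ^ 2)) ≤ 2 * (g 0 * t - τ * ‖Pa g‖ ^ 2) := by
    intro t τ hτ ht
    have e0 : (t • b6 0 + τ • Pa g) 0 = t := by simp [b6_apply]
    have e1 : Pa (t • b6 0 + τ • Pa g) = τ • Pa g := by
      refine E6_ext ?_ ?_ ?_ ?_ ?_ ?_ <;> simp [b6_apply]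
    have e2 : Pm (t • b6 0 + τ • Pa g) = 0 := by
      refine E6_ext ?_ ?_ ?_ ?_ ?_ ?_ <;> simp [b6_apply]
    have := h _ (by rwa [e0, e1, norm_smul, Real.norm_of_nonneg hτ]) e2
    rwa [wq_self, wq_split, e0, e1, e2, norm_zero, inner_zero_right, norm_smul,
      Real.norm_of_nonneg hτ, real_inner_smul_right, real_inner_self_eq_norm_sq, mul_pow,
      zero_pow two_ne_zero, add_zero, add_zero] at this
  rw [wq_self, hg, norm_zero, zero_pow two_ne_zero, add_zero]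
  have ha := norm_nonneg (Pa g)
  generalize ‖Pa g‖ = a at key ha
  generalize g 0 = x at key
  have sq : ∀ t τ : ℝ, 0 ≤ τ → τ * a ≤ t → 0 ≤ x * t - τ * a ^ 2 ∧
      s ^ 2 * (2 * (t ^ 2 - τ ^ 2 * a ^ 2)) ≤ (2 * (x * t - τ * a ^ 2)) ^ 2 := fun t τ h1 h2 => by
    have h3 := key t τ h1 h2
    have h4 : 0 ≤ s * √(2 * (t ^ 2 - τ ^ 2 * a ^ 2)) := by positivity
    have h5 := pow_le_pow_left₀ h4 h3 2
    rw [mul_pow, Real.sq_sqrt (by nlinarith [mul_nonneg h1 ha])] at h5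
    exact ⟨by linarith, h5⟩
  have hs2 := pow_pos hs 2
  have hx : 0 < x := by
    obtain ⟨h1, h2⟩ := sq 1 0 le_rfl (by simp)
    refine lt_of_le_of_ne (by simpa using h1) ?_
    rintro rfl
    nlinarith
  have hax : a ≤ x := by
    have h1 := (sq a 1 zero_le_one (by simp)).1
    by_contra hc
    nlinarith
  have hlt : a < x := by
    refine lt_of_le_of_ne hax ?_
    rintro rfl
    obtain ⟨ε, hε, e⟩ : ∃ ε, 0 < ε ∧ 2 * a * ε = s ^ 2 := ⟨s ^ 2 / (2 * a), by positivity, by field_simp⟩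
    have h1 := (sq (a + ε) 1 zero_le_one (by linarith)).2
    rw [← e] at h1
    nlinarith [mul_pos (mul_pos hx hε) (mul_pos hx hε), mul_pos (mul_pos hx hε) (mul_pos hε hε)]
  have h1 := (sq x 1 zero_le_one (by linarith)).2
  have h2 : 0 < 2 * (x ^ 2 - a ^ 2) := by nlinarith
  refine ⟨hlt, le_of_mul_le_mul_right ?_ h2⟩
  nlinarith

end Lin

open Lin in
theorem linS : LinS where
  swap := fun J r c c' a b hJ ha hb hc h v hv => by
    obtain ⟨A, B, h1, h2, h3⟩ := conj hJ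
    rw [antiC h1 h2 h3] at ha hb
    rw [tameC h1 h2 h3] at hc
    by_cases h0 : v 0 = 0
    · simpa [Fin.sum_univ_three, h0] using h v hv
    have h4 := h (Pi.single 1 1) (by simp)
    simp only [Fin.sum_univ_three, Matrix.cons_val] at h4 ⊢
    have h5 : 0 < r * A.det := by
      rw [wqC h2, ← mul_assoc, wq_self] at h4
      refine pos_of_mul_pos_left h4 ?_
      simp [(po ha).2]
      positivity
    rw [wqC h2, ← mul_assoc]
    refine mul_pos h5 (pos0 ?_)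
    simp only [map_add, map_smul, (po ha).2, (po hb).2, PiLp.add_apply, PiLp.smul_apply, (po ha).1,
      (po hb).1, smul_zero, add_zero, norm_smul, smul_eq_mul, mul_zero, abs_mul, Real.norm_eq_abs]
    exact mul_lt_mul_of_pos_left (hc.trans_le (le_abs_self _)) (abs_pos.2 h0)
  orth := fun J c a hJ hc ha => by
    obtain ⟨A, B, h1, h2, h3⟩ := conj hJ
    rw [antiC h1 h2 h3] at ha
    rw [invC h1 h2 h3] at hc
    simp [wqC h2 c a, wq_split, hc, (po ha).1, (po ha).2]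
  tame0 := tame0
  nonneg0 := fun c => (unit J0 c).trans (nonneg0 c)
  tameF := fun F y => tameC (F.A_Ai y) (F.Ai_A y) (F.J_apply y)
  nonnegF := fun F y => nonnegC (F.A_Ai y) (F.Ai_A y) (F.J_apply y)
  invF := fun F y => invC (F.A_Ai y) (F.Ai_A y) (F.J_apply y)
  antiF := fun F y => antiC (F.A_Ai y) (F.Ai_A y) (F.J_apply y)
  rcs := rcs
  dual := dual
  pos := fun F y c h => by
    rw [wqC (F.Ai_A y)]
    exact mul_pos (F.det_pos y)
      (pos0 (((tameC (F.A_Ai y) (F.Ai_A y) (F.J_apply y) c).1 h).trans_le (le_abs_self _)))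
  mono := fun F y g g' hg hg' h1 h2 => by
    have h3 := (nonnegC (F.A_Ai y) (F.Ai_A y) (F.J_apply y) g').1 h1
    have h4 := (nonnegC (F.A_Ai y) (F.Ai_A y) (F.J_apply y) (g - g')).1 fun v hv => by
      rw [ap_sub]
      exact sub_nonneg.2 (h2 v hv)
    have h5 : InvP (F.J y) (g - g') := fun u v => by rw [ap_sub, ap_sub, hg, hg']
    have h6 := (rcsF F y h3 h4 hg' h5).1
    have h7 := (rcsF F y h4 h4 h5 h5).1
    have e : g = g' + (g - g') := (add_sub_cancel _ _).symm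
    generalize g - g' = d at h6 h7 e
    rw [e, wq_add_l, wq_add_r, wq_add_r, wq_symm d g']
    linarith
  conv := fun F y g g' s a b hg hg' h1 h2 h3 h4 ha hb hab => by
    have h5 := ((tameC (F.A_Ai y) (F.Ai_A y) (F.J_apply y) g).1 h1).le
    have h6 := ((tameC (F.A_Ai y) (F.Ai_A y) (F.J_apply y) g').1 h2).le
    obtain ⟨h7, h8⟩ := rcsF F y h5 h6 hg hg'
    have h9 : s ≤ wq g g' := by
      rcases le_total s 0 with h | h
      · exact h.trans h7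
      · exact (pow_le_pow_iff_left₀ h h7 two_ne_zero).1
          ((sq s).le.trans ((mul_le_mul h3 h4 h (h.trans h3)).trans h8))
    simp only [wq_add_l, wq_add_r, wq_smul_l, wq_smul_r, wq_symm g' g]
    have e : s = (a + b) ^ 2 * s := by rw [hab]; ring
    nlinarith [mul_le_mul_of_nonneg_left h3 (mul_nonneg ha ha),
      mul_le_mul_of_nonneg_left h4 (mul_nonneg hb hb),
      mul_le_mul_of_nonneg_left h9 (mul_nonneg ha hb)]

end Vale.Agent.P247
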