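import Vale.Agent.P247.Defs

set_option maxSynthPendingDepth 3

open scoped Topology ContDiff RealInnerProductSpace Manifold
open Set Metric MeasureTheory Filter

noncomputable section
namespace Vale.Agent.P247

open Vale.Agent.P204 Vale.Agent.P204.Bridge

namespace LinJ

/-- the matrix of a two-form -/
def M : E6 →L[ℝ] End :=
  ∑ i : Fin 4, ∑ j : Fin 4, (ev (bv i) (bv j)).smulRight ((pr i).smulRight (bv j))

lemma M_0 (h : E6) (u : V) :
    M h u 0 = -(u 1 * (h 0 + h 3) + u 2 * (h 1 + h 4) + u 3 * (h 2 + h 5)) := by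
  simp [M, Fin.sum_univ_four, ap_apply, bv_apply]; ring

lemma M_1 (h : E6) (u : V) :
    M h u 1 = u 0 * (h 0 + h 3) - u 2 * (h 2 - h 5) - u 3 * (h 4 - h 1) := by
  simp [M, Fin.sum_univ_four, ap_apply, bv_apply]; ring

lemma M_2 (h : E6) (u : V) :
    M h u 2 = u 0 * (h 1 + h 4) + u 1 * (h 2 - h 5) - u 3 * (h 0 - h 3) := by
  simp [M, Fin.sum_univ_four, ap_apply, bv_apply]; ring

lemma M_3 (h : E6) (u : V) :
    M h u 3 = u 0 * (h 2 + h 5) + u 1 * (h 4 - h 1) + u 2 * (h 0 - h 3) := by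
  simp [M, Fin.sum_univ_four, ap_apply, bv_apply]; ring

lemma inner_M (h : E6) (u v : V) : ⟪M h u, v⟫ = ap h u v := by
  rw [inner_V, M_0, M_1, M_2, M_3, ap_apply]; ring

lemma M_M (a b : E6) (v : V) : M a (M (Q6 b) v) + M b (M (Q6 a) v) = -(wq a b • v) := by
  apply V_ext <;>
    simp only [PiLp.add_apply, PiLp.neg_apply, PiLp.smul_apply, smul_eq_mul, M_0, M_1, M_2, M_3,
      Q6_0, Q6_1, Q6_2, Q6_3, Q6_4, Q6_5, wq_apply] <;> ring

lemma D4_M (b : E6) (x p q r : V) :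
    D4 (M (Q6 b) x) p q r = -(⟪x, p⟫ * ap b q r + ⟪x, q⟫ * ap b r p + ⟪x, r⟫ * ap b p q) := by
  simp only [D4_apply, M_0, M_1, M_2, M_3, Q6_0, Q6_1, Q6_2, Q6_3, Q6_4, Q6_5, inner_V, ap_apply]
  ring

/-- the unnormalised complex structure -/
def N (a b : E6) : End := (M (Q6 b)).comp (M a) - (M (Q6 a)).comp (M b)

/-- the discriminant -/
def Dl (a b : E6) : ℝ := wq a a * wq b b - wq a b ^ 2

lemma N_apply (a b : E6) (v : V) : N a b v = M (Q6 b) (M a v) - M (Q6 a) (M b v) := rfl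

lemma wq_Q6 (a b : E6) : wq (Q6 a) (Q6 b) = wq a b := by simp [wq_apply]

lemma MQ (a : E6) (v : V) : M a (M (Q6 a) v) = -((wq a a / 2) • v) := by
  have h := M_M a a v
  have e : M a (M (Q6 a) v) = (1 / 2 : ℝ) • (M a (M (Q6 a) v) + M a (M (Q6 a) v)) := by module
  rw [e, h]
  module

lemma QM (a : E6) (v : V) : M (Q6 a) (M a v) = -((wq a a / 2) • v) := by
  have h := MQ (Q6 a) v
  rwa [Q6_Q6, wq_Q6] at h

lemma N_eq (a b : E6) (v : V) : N a b v = (2 : ℝ) • M (Q6 b) (M a v) + wq a b • v := by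
  have h := M_M (Q6 a) (Q6 b) v
  rw [Q6_Q6, Q6_Q6, wq_Q6] at h
  rw [N_apply, eq_sub_of_add_eq h]
  module

lemma N_N (a b : E6) (v : V) : N a b (N a b v) = -(Dl a b • v) := by
  have h1 : M (Q6 b) (M a (M (Q6 a) (M b v))) = (wq a a / 2 * (wq b b / 2)) • v := by
    rw [MQ, map_neg, map_smul, QM]
    module
  have h2 : N a b v = -((2 : ℝ) • M (Q6 a) (M b v)) - wq a b • v := by
    have h := M_M (Q6 a) (Q6 b) v
    rw [Q6_Q6, Q6_Q6, wq_Q6] at h
    rw [N_apply, eq_sub_of_add_eq' h]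
    module
  have h3 : M (Q6 b) (M a (N a b v)) =
      -((2 : ℝ) • (wq a a / 2 * (wq b b / 2)) • v) - wq a b • M (Q6 b) (M a v) := by
    rw [h2]
    simp only [map_sub, map_neg, map_smul, h1]
  rw [N_eq a b (N a b v), h3, N_eq a b v, Dl]
  module

lemma ap_N_a (a b : E6) (u v : V) : ap a (N a b u) v = ap a u (N a b v) := by
  simp only [N_apply, ap_apply, PiLp.sub_apply, M_0, M_1, M_2, M_3,
    Q6_0, Q6_1, Q6_2, Q6_3, Q6_4, Q6_5]
  ring

lemma N_swap (a b : E6) (v : V) : N b a v = -N a b v := by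
  rw [N_apply, N_apply, neg_sub]

lemma ap_N_b (a b : E6) (u v : V) : ap b (N a b u) v = ap b u (N a b v) := by
  have h := ap_N_a b a u v
  rwa [N_swap a b u, N_swap a b v, ap_neg_l, ap_neg_r, neg_inj] at h

lemma ap_self (h : E6) (v : V) : ap h v v = 0 := by
  have := ap_swap h v v
  linarith

lemma D4_N (a b : E6) (u p q r : V) : D4 (N a b u) p q r =
    -(ap a u p * ap b q r + ap a u q * ap b r p + ap a u r * ap b p q) +
      (ap b u p * ap a q r + ap b u q * ap a r p + ap b u r * ap a p q) := by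
  have e : ∀ x y : V, D4 (x - y) p q r = D4 x p q r - D4 y p q r := fun x y => by
    simp only [D4_apply, PiLp.sub_apply]; ring
  rw [N_apply, e, D4_M, D4_M]
  simp only [inner_M]
  ring

lemma N_pull (L : V ≃L[ℝ] V) (a b : E6) (u : V) :
    L (N (pull (L : End) a) (pull (L : End) b) u) = (L : End).det • N a b (L u) := by
  have key : ∀ p q r : V, D4 (L (N (pull (L : End) a) (pull (L : End) b) u)) p q r =
      (L : End).det * D4 (N a b (L u)) p q r := by
    intro p q r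
    have h := D4_comp (L : End) (N (pull (L : End) a) (pull (L : End) b) u)
      (L.symm p) (L.symm q) (L.symm r)
    rw [D4_N] at h
    simp only [ap_pull, ContinuousLinearEquiv.coe_coe, L.apply_symm_apply] at h
    rw [h, D4_N]
  have k0 := key (bv 1) (bv 2) (bv 3)
  have k1 := key (bv 0) (bv 2) (bv 3)
  have k2 := key (bv 0) (bv 1) (bv 3)
  have k3 := key (bv 0) (bv 1) (bv 2)
  simp [D4_apply, bv_apply] at k0 k1 k2 k3
  apply V_ext <;> simp only [PiLp.smul_apply, smul_eq_mul] <;> assumption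

lemma Dl_pull (A : End) (a b : E6) : Dl (pull A a) (pull A b) = A.det ^ 2 * Dl a b := by
  simp only [Dl, wq_pull]; ring

lemma Dl_pos {r : ℝ} {w : Fin 3 → E6} (h : PD r w) : 0 < Dl (w 1) (w 2) := by
  have h1 := h ![0, 1, 0] (by simp)
  simp [Fin.sum_univ_three] at h1
  have h0 : wq (w 1) (w 1) ≠ 0 := by
    intro e
    rw [e] at h1
    simp at h1
  have h2 := h ![0, -wq (w 1) (w 2), wq (w 1) (w 1)] (by simp [h0])
  simp only [Fin.sum_univ_three, Matrix.cons_val_zero, Matrix.cons_val_one, Matrix.cons_val,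
    zero_smul, zero_add, wq_add_l, wq_add_r, wq_smul_l, wq_smul_r, wq_symm (w 2) (w 1)] at h2
  have e : 0 < r * wq (w 1) (w 1) * Dl (w 1) (w 2) := by
    rw [Dl]; linarith
  exact (pos_iff_pos_of_mul_pos e).1 h1

/-- a null form orthogonal to a definite triple vanishes -/
lemma null_zero {r : ℝ} {w : Fin 3 → E6} (h : PD r w) {σ : E6} (h0 : wq σ σ = 0)
    (h1 : ∀ i, wq (w i) σ = 0) : σ = 0 := by
  obtain ⟨s, hs⟩ : ∃ s : Fin 3 → Fin 6, ∀ x : E6, (∀ i, x (s i) = 0) →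
      r * wq x x ≤ 0 ∧ (wq x x = 0 → x = 0) := by
    rcases le_total 0 r with hr | hr
    · refine ⟨![0, 1, 2], fun x hx => ?_⟩
      have a0 : x 0 = 0 := hx 0
      have a1 : x 1 = 0 := hx 1
      have a2 : x 2 = 0 := hx 2
      rw [wq_apply, a0, a1, a2]
      refine ⟨mul_nonpos_of_nonneg_of_nonpos hr
        (by nlinarith [sq_nonneg (x 3), sq_nonneg (x 4), sq_nonneg (x 5)]), fun e => ?_⟩
      apply E6_ext <;> simp only [PiLp.zero_apply] <;>
        nlinarith [sq_nonneg (x 3), sq_nonneg (x 4), sq_nonneg (x 5)]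
    · refine ⟨![3, 4, 5], fun x hx => ?_⟩
      have a0 : x 3 = 0 := hx 0
      have a1 : x 4 = 0 := hx 1
      have a2 : x 5 = 0 := hx 2
      rw [wq_apply, a0, a1, a2]
      refine ⟨mul_nonpos_of_nonpos_of_nonneg hr
        (by nlinarith [sq_nonneg (x 0), sq_nonneg (x 1), sq_nonneg (x 2)]), fun e => ?_⟩
      apply E6_ext <;> simp only [PiLp.zero_apply] <;>
        nlinarith [sq_nonneg (x 0), sq_nonneg (x 1), sq_nonneg (x 2)]
  let T : (Fin 3 → ℝ) × ℝ →ₗ[ℝ] Fin 3 → ℝ :=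
    { toFun := fun z i => (∑ j, z.1 j • w j + z.2 • σ) (s i)
      map_add' := fun z z' => by
        funext i
        simp [Fin.sum_univ_three]; ring
      map_smul' := fun c z => by
        funext i
        simp [Fin.sum_univ_three]; ring }
  obtain ⟨⟨v, t⟩, hz, hz0⟩ := Submodule.exists_mem_ne_zero_of_ne_bot
    (LinearMap.ker_ne_bot_of_finrank_lt (f := T) (by simp))
  obtain ⟨k1, k2⟩ := hs (∑ j, v j • w j + t • σ) fun i => congrFun hz i
  have k3 : wq (∑ j, v j • w j) σ = 0 := by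
    simp only [Fin.sum_univ_three, wq_add_l, wq_smul_l, h1]; ring
  rw [wq_add_l, wq_add_r, wq_add_r, wq_smul_l, wq_smul_r, wq_smul_l, wq_smul_r, h0,
    wq_symm σ, k3] at k1 k2
  have hv : v = 0 := by
    by_contra hv
    have := h v hv
    linarith
  subst hv
  have ht : t ≠ 0 := fun e => hz0 (by rw [e]; rfl)
  have := k2 (by simp)
  simpa [ht] using this

lemma f_ne {r : ℝ} {w : Fin 3 → E6} (h : PD r w) {v : V} (hv : v ≠ 0) :
    ap (w 0) v (N (w 1) (w 2) v) ≠ 0 := by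
  intro h0
  have hD := Dl_pos h
  have k : ∀ c : E6, ap c (N (w 1) (w 2) v) v = ap c v (N (w 1) (w 2) v) →
      ap c v (N (w 1) (w 2) v) = 0 := fun c hc => by
    have := ap_swap c v (N (w 1) (w 2) v)
    linarith
  have h1 : st v (N (w 1) (w 2) v) = 0 := by
    refine null_zero h (wq_st_self _ _) fun i => ?_
    rw [wq_st]
    fin_cases i
    · exact h0
    · exact k _ (ap_N_a _ _ _ _)
    · exact k _ (ap_N_b _ _ _ _)
  have h2 : wv v (N (w 1) (w 2) v) = 0 := by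
    rw [← Q6_Q6 (wv _ _), ← st_apply, h1, map_zero]
  set q := N (w 1) (w 2) v with hq
  have h3 : ⟪v, v⟫ • q = ⟪q, v⟫ • v := by
    refine ext_inner_right ℝ fun x => ?_
    have := ap_wv v q v x
    rw [h2, ap_zero] at this
    rw [real_inner_smul_left, real_inner_smul_left]
    linarith
  have h4 := congrArg (N (w 1) (w 2)) h3
  rw [map_smul, map_smul, ← hq, hq, N_N, ← hq] at h4
  have h5 := congrArg (fun x => ⟪x, v⟫) h4
  simp only [real_inner_smul_left, inner_neg_left] at h5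
  have h6 : 0 < ⟪v, v⟫ := real_inner_self_pos.2 hv
  nlinarith [mul_pos (mul_pos h6 h6) hD, mul_self_nonneg ⟪q, v⟫]

lemma f_sign {r : ℝ} {w : Fin 3 → E6} (h : PD r w) {u v : V} (hu : u ≠ 0) (hv : v ≠ 0) :
    0 < ap (w 0) u (N (w 1) (w 2) u) * ap (w 0) v (N (w 1) (w 2) v) := by
  have hc : IsPreconnected ({0}ᶜ : Set V) :=
    (isConnected_compl_singleton_of_one_lt_rank (by
      rw [← Module.finrank_eq_rank]; simp) 0).isPreconnected
  have hf : Continuous fun v : V => ap (w 0) v (N (w 1) (w 2) v) :=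
    continuous_ap.comp (continuous_const.prodMk (continuous_id.prodMk (N (w 1) (w 2)).continuous))
  by_contra h0
  have k : ∀ {a b : V}, a ≠ 0 → b ≠ 0 → ap (w 0) a (N (w 1) (w 2) a) ≤ 0 →
      0 ≤ ap (w 0) b (N (w 1) (w 2) b) → False := fun ha hb h1 h2 => by
    obtain ⟨x, hx, hx0⟩ := hc.intermediate_value ha hb hf.continuousOn ⟨h1, h2⟩
    exact f_ne h hx hx0
  rcases mul_nonpos_iff.1 (not_lt.1 h0) with h1 | h1
  · exact k hv hu h1.2 h1.1
  · exact k hu hv h1.1 h1.2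

/-- the sign function -/
def fs (w : Fin 3 → E6) : ℝ := ap (w 0) (bv 0) (N (w 1) (w 2) (bv 0))

/-- the normalising factor -/
def kk (w : Fin 3 → E6) : ℝ := fs w / √(fs w ^ 2 * Dl (w 1) (w 2))

/-- the complex structure -/
def Jf (w : Fin 3 → E6) : End := kk w • N (w 1) (w 2)

lemma bv_ne : bv 0 ≠ 0 := norm_ne_zero_iff.1 (by simp)

lemma rad_pos {r : ℝ} {w : Fin 3 → E6} (h : PD r w) : 0 < fs w ^ 2 * Dl (w 1) (w 2) :=
  mul_pos (sq_pos_of_ne_zero (f_ne h bv_ne)) (Dl_pos h)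

lemma kk_sq {r : ℝ} {w : Fin 3 → E6} (h : PD r w) : kk w * kk w * Dl (w 1) (w 2) = 1 := by
  have h1 := rad_pos h
  rw [kk, div_mul_div_comm, Real.mul_self_sqrt h1.le, div_mul_eq_mul_div, div_eq_one_iff_eq h1.ne']
  ring

lemma scal {f0 f1 d D : ℝ} (hf : 0 < f0 * f1) (hd : d ≠ 0) (hD : 0 < D) :
    d * f1 / √((d * f1) ^ 2 * (d ^ 2 * D)) * d = f0 / √(f0 ^ 2 * D) := by
  have e : (d * f1) ^ 2 * (d ^ 2 * D) = (d ^ 2) ^ 2 * (f1 ^ 2 * D) := by ring
  rw [e, Real.sqrt_mul (sq_nonneg _), Real.sqrt_mul (sq_nonneg _), Real.sqrt_mul (sq_nonneg _),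
    Real.sqrt_sq (sq_nonneg d), Real.sqrt_sq_eq_abs, Real.sqrt_sq_eq_abs]
  have hs := (Real.sqrt_pos.2 hD).ne'
  rcases mul_pos_iff.1 hf with h | h
  · rw [abs_of_pos h.1, abs_of_pos h.2]
    have := h.1.ne'
    have := h.2.ne'
    field_simp
  · rw [abs_of_neg h.1, abs_of_neg h.2]
    have := h.1.ne
    have := h.2.ne
    field_simp

lemma cd_N {P : Type*} [NormedAddCommGroup P] [NormedSpace ℝ P] {a b : P → E6}
    (ha : ContDiff ℝ ∞ a) (hb : ContDiff ℝ ∞ b) : ContDiff ℝ ∞ fun x => N (a x) (b x) :=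
  ((M.contDiff.comp (Q6.contDiff.comp hb)).clm_comp (M.contDiff.comp ha)).sub
    ((M.contDiff.comp (Q6.contDiff.comp ha)).clm_comp (M.contDiff.comp hb))

end LinJ

open LinJ in
theorem linJS : LinJS := by
  refine ⟨Jf, fun r w h => ⟨fun v => ?_, fun v hv => ?_, fun u v => ?_, fun u v => ?_⟩,
    fun r w L h => ?_, ?_⟩
  · simp only [Jf, smul_apply, map_smul, N_N, smul_neg, smul_smul]
    rw [← mul_assoc, kk_sq h, one_smul]
  · simp only [Jf, smul_apply, ap_smul_r, kk]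
    rw [div_mul_eq_mul_div]
    exact div_pos (f_sign h bv_ne hv) (Real.sqrt_pos.2 (rad_pos h))
  · simp only [Jf, smul_apply, ap_smul_r, ap_smul_l, ap_N_a, N_N, ap_neg_r]
    linear_combination (-ap (w 1) u v) * kk_sq h
  · simp only [Jf, smul_apply, ap_smul_r, ap_smul_l, ap_N_b, N_N, ap_neg_r]
    linear_combination (-ap (w 2) u v) * kk_sq h
  · have hd : (L : End).det ≠ 0 := L.toLinearEquiv.isUnit_det'.ne_zero
    have h0 : L (bv 0) ≠ 0 := fun e => bv_ne (L.injective (by rw [e, map_zero]))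
    have h1 : fs (fun i => pull (L : End) (w i)) =
        (L : End).det * ap (w 0) (L (bv 0)) (N (w 1) (w 2) (L (bv 0))) := by
      rw [fs, ap_pull, ContinuousLinearEquiv.coe_coe, N_pull, ap_smul_r]
    have h2 : kk (fun i => pull (L : End) (w i)) * (L : End).det = kk w := by
      rw [kk, h1, Dl_pull]
      exact scal (f_sign h bv_ne h0) hd (Dl_pos h)
    ext1 u
    refine L.injective ?_
    simp only [Jf, smul_apply, map_smul, N_pull, smul_smul, h2, ContinuousLinearMap.comp_apply,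
      ContinuousLinearEquiv.coe_coe, L.apply_symm_apply]
  · have hw : ∀ i, ContDiff ℝ ∞ fun w : Fin 3 → E6 => w i := fun i => contDiff_apply ℝ E6 i
    have hN := cd_N (hw 1) (hw 2)
    have hf : ContDiff ℝ ∞ fs := cd_ap (hw 0) contDiff_const (hN.clm_apply contDiff_const)
    have hD : ContDiff ℝ ∞ fun w : Fin 3 → E6 => Dl (w 1) (w 2) :=
      ((cd_wq (hw 1) (hw 1)).mul (cd_wq (hw 2) (hw 2))).sub ((cd_wq (hw 1) (hw 2)).pow 2)
    refine ContDiffOn.smul (hf.contDiffOn.div (((hf.pow 2).mul hD).contDiffOn.sqrt ?_) ?_)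
      hN.contDiffOn
    · rintro w ⟨r, h⟩
      exact (rad_pos h).ne'
    · rintro w ⟨r, h⟩
      exact (Real.sqrt_pos.2 (rad_pos h)).ne'

end Vale.Agent.P247
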