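import Vale.Agent.P247.F1K

/-! The iteration: a compatible closed form in the given class with almost maximal square. -/

set_option maxSynthPendingDepth 3
set_option linter.unusedSectionVars false

open scoped Topology ContDiff RealInnerProductSpace Manifold
open Set Metric MeasureTheory Filter

noncomputable section
namespace Vale.Agent.P247

open Vale.Agent.P204

variable {X : Type*} [TopologicalSpace X] [T2Space X] {D : Dat X}

def MainKS (D : Dat X) (c ρ : Form X) : Prop :=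
  ∀ κ : ℝ, κ < 1 → ∃ β, Null D (β - c) ∧ InK D ρ κ β

lemma II_bd (hi : HilS D) (io : IotaS D) : ∃ C, 0 ≤ C ∧ ∀ α γ (B : ℝ), D.Sm α → 0 ≤ B →
    (∀ j y, ‖y‖ ≤ 2 → ‖D.loc j α y‖ ≤ B) → |II D α γ| ≤ C * ‖D.iota γ‖ * B := by
  obtain ⟨C, hC, h⟩ := io.bd
  refine ⟨2 * C, by positivity, fun α γ B a b c => (hi.qH_le _ _).trans ?_⟩
  have := mul_le_mul_of_nonneg_right (h α B a b c) (norm_nonneg (D.iota γ))
  linarith

open F2 in
lemma iterate (h1 : FormS D) (h2 : SemS D) (hi : HilS D) (io : IotaS D) {w : Fin 3 → Form X}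
    (hw : Tri D w) (h4 : F20S D w) {e : ℝ} (he : 0 < e) : ∃ η, 0 < η ∧ ∀ α0, Z0 D (w 0) α0 →
      D.nrmm 5 α0 ≤ η → ∃ γ, D.Sm γ ∧ Z0 D (w 0) (α0 - γ) ∧ D.Inv (α0 - γ) ∧
        ∀ j y, ‖y‖ ≤ 2 → ‖D.loc j γ y‖ ≤ e := by
  choose C hC H using fun n => h4 n (n + 6)
  choose! B b1 b3 b4 using H
  let δ : ℕ → ℝ := fun n => e * (1 / 2) ^ n / (100 * (C n + 1))
  have δ0 : ∀ n, 0 < δ n := fun n => by have := hC n; positivity
  have δ1 : ∀ n, (C n + 1) * δ n = e * (1 / 2) ^ n / 100 := fun n => by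
    have := hC n
    simp only [δ]
    field_simp
  have δ2 : ∀ n, δ n ≤ e * (1 / 2) ^ n / 100 := fun n => by
    have := mul_nonneg (hC n) (δ0 n).le
    linarith [δ1 n]
  refine ⟨δ 0, δ0 0, fun α0 a1 a4 => ?_⟩
  let A : ℕ → Form X := fun n => Nat.rec α0 (fun n α => α - B n α (δ (n + 1))) n
  let β : ℕ → Form X := fun n => B n (A n) (δ (n + 1))
  have z1 : ∀ α, Z0 D (w 0) α → II D α (w 1) = 0 := fun α h => by
    rw [h.2.2 _ (hw.sm 1) (hw.cl 1), hw.on]; simp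
  have z2 : ∀ α, Z0 D (w 0) α → II D α (w 2) = 0 := fun α h => by
    rw [h.2.2 _ (hw.sm 2) (hw.cl 2), hw.on]; simp
  have zs : ∀ α α', Z0 D (w 0) α → Z0 D (w 0) α' → Z0 D (w 0) (α - α') := fun α α' h h' =>
    ⟨sm_sub h1 h.1 h'.1, cl_sub h1 h.1 h'.1 h.2.1 h'.2.1, fun γ a b => by
      rw [II_sub h1 io h.1 h'.1, II_sub h1 io h.1 h'.1, h.2.2 γ a b, h'.2.2 γ a b]; ring⟩
  have hA : ∀ n, Z0 D (w 0) (A n) ∧ D.nrmm (n + 5) (A n) ≤ δ n := fun n => by
    induction n with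
    | zero => exact ⟨a1, a4⟩
    | succ n ih => exact ⟨zs _ _ ih.1 (b1 _ _ _ ih.1.1 (z1 _ ih.1) (z2 _ ih.1) (δ0 _)),
        b4 _ _ _ ih.1.1 (z1 _ ih.1) (z2 _ ih.1) (δ0 _)⟩
  have hA' : ∀ n x, A n x = α0 x - ∑ i ∈ Finset.range n, β i x := fun n x => by
    induction n with
    | zero => exact (sub_zero _).symm
    | succ n ih => rw [Finset.sum_range_succ, ← sub_sub, ← ih]; rfl
  have s0 : ∀ n, Z0 D (w 0) (β n) := fun n =>
    b1 _ _ _ (hA n).1.1 (z1 _ (hA n).1) (z2 _ (hA n).1) (δ0 _)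
  have s1 : ∀ n, D.Sm (β n) := fun n => (s0 n).1
  have s2 : ∀ n, D.nrm n (β n) ≤ e / 50 * (1 / 2) ^ n := fun n => by
    have e1 := b3 n _ _ (hA n).1.1 (z1 _ (hA n).1) (z2 _ (hA n).1) (δ0 (n + 1))
    have e2 := mul_le_mul_of_nonneg_left (hA n).2 (hC n)
    have e3 := δ2 (n + 1)
    have e4 : (0 : ℝ) < e * (1 / 2) ^ n := by positivity
    rw [pow_succ] at e3
    linarith [δ1 n, δ0 n]
  have s3 := hasSum_geometric_two.mul_left (e / 50)
  obtain ⟨γ, g1, g2, g3⟩ := h2.series β s1 (fun n => (s0 n).2.1)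
    (s3.summable.of_nonneg_of_le (fun n => h2.nrm_nn _ _) s2)
  have tail : ∀ N j y, ‖y‖ ≤ 2 → ‖D.loc j (A N - (α0 - γ)) y‖ ≤ e / 25 * (1 / 2) ^ N := by
    intro N j y hy
    have t1 := (pull (D.fr j ((D.e j).symm y) : End)).hasSum
      ((hasSum_nat_add_iff' N).2 (g3 ((D.e j).symm y)))
    have t2 : D.loc j (A N - (α0 - γ)) y = pull (D.fr j ((D.e j).symm y) : End)
        (γ ((D.e j).symm y) - ∑ i ∈ Finset.range N, β i ((D.e j).symm y)) := by
      simp only [Atl.loc, Pi.sub_apply, hA']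
      congr 1
      abel
    rw [t2]
    refine (t1.norm_le_of_bounded (s3.mul_right ((1 / 2) ^ N)) fun n => ?_).trans_eq (by ring)
    refine (h2.pt (n + N) j _ y (s1 _) hy).trans ((s2 _).trans_eq ?_)
    rw [pow_add, mul_assoc]
  have sm := sm_sub h1 a1.1 g1
  have lim : Tendsto (fun n : ℕ => e / 25 * (1 / 2 : ℝ) ^ n) atTop (𝓝 0) := by
    simpa using (tendsto_pow_atTop_nhds_zero_of_lt_one (r := (1 / 2 : ℝ)) (by norm_num)
      (by norm_num)).const_mul (e / 25)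
  obtain ⟨Cb, hCb, hb⟩ := II_bd hi io
  have lim2 : ∀ δ, Tendsto (fun n => II D (A n) δ) atTop (𝓝 (II D (α0 - γ) δ)) := fun δ => by
    rw [tendsto_iff_norm_sub_tendsto_zero]
    refine squeeze_zero (fun n => norm_nonneg _) (fun n => ?_)
      (by simpa using lim.const_mul (Cb * ‖D.iota δ‖))
    rw [← II_sub h1 io (hA n).1.1 sm]
    simpa using hb _ δ _ (sm_sub h1 (hA n).1.1 sm) (by positivity) (tail n)
  refine ⟨γ, g1, ⟨sm, cl_sub h1 a1.1 g1 a1.2.1 g2, fun δ a b => ?_⟩,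
    (h1.inv_iff _).2 fun j => funext fun y => ?_, fun j y hy => ?_⟩
  · exact tendsto_nhds_unique (lim2 δ) (((lim2 (w 0)).mul_const _).congr
      fun n => ((hA n).1.2.2 δ a b).symm)
  · have e1 : Tendsto (fun n => A n ((D.e j).symm y)) atTop (𝓝 ((α0 - γ) ((D.e j).symm y))) := by
      simp only [hA']
      exact (g3 _).tendsto_sum_nat.const_sub _
    have e2 : Tendsto (fun n => D.cj j (A n) y) atTop (𝓝 (D.cj j (α0 - γ) y)) :=
      ((((D.F j).cm y).continuous.tendsto _).comp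
        (((pull _).continuous.tendsto _).comp e1)).const_smul _
    refine tendsto_nhds_unique e2 (squeeze_zero_norm (fun n => (h2.cjpt _ j _ y (hA n).1.1).trans
      ((hA n).2.trans (δ2 n))) ?_)
    simpa using ((tendsto_pow_atTop_nhds_zero_of_lt_one (r := (1 / 2 : ℝ)) (by norm_num)
      (by norm_num)).const_mul e).div_const 100
  · have := tail 0 j y hy
    rw [show A 0 - (α0 - γ) = γ from sub_sub_cancel _ _] at this
    linarith

open F2 in
theorem mainKS (li : LinS) (h1 : FormS D) (h2 : SemS D) (hi : HilS D) (io : IotaS D)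
    {w : Fin 3 → Form X} (hw : Tri D w) {ρ : Form X} (r3 : D.Tm ρ) (h3 : F1KS D (w 0) ρ)
    (h4 : F20S D w) : MainKS D (w 0) ρ := by
  intro κ hκ
  set κ0 := max κ 0 with hκ0
  have k0 : 0 ≤ κ0 := le_max_right _ _
  have k1 : κ0 < 1 := max_lt hκ one_pos
  set θ := √((1 + κ0) / 2) with hθ
  have θ2 : θ ^ 2 = (1 + κ0) / 2 := Real.sq_sqrt (by positivity)
  have θ0 : 0 < θ := Real.sqrt_pos.2 (by positivity)
  have θ1 : θ < 1 := by nlinarith
  obtain ⟨a, ha, ha'⟩ := isCompact_univ.exists_forall_le'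
    (F1.hat h1 ⟨w 0, hw.sm 0⟩).continuous.continuousOn (a := 0) fun q _ =>
      h1.tm_loc _ hw.tm q.1 q.2.1 q.2.2 ((mem_closedBall_zero_iff.1 q.2.1.2).trans (by norm_num))
        (ne_zero_of_mem_unit_sphere q.2.2)
  have ha2 : ∀ j y v, ‖y‖ ≤ 1 → ‖v‖ = 1 → a ≤ ap (D.loc j (w 0) y) v ((D.F j).J y v) :=
    fun j y v hy hv => ha' (j, ⟨y, by simpa using hy⟩, ⟨v, by simpa using hv⟩) (mem_univ _)
  obtain ⟨Cb, hCb, hb⟩ := II_bd hi io
  set N := Cb * ‖D.iota (w 0)‖ with hN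
  have N0 : 0 ≤ N := by positivity
  set η0 := (1 - θ) / 4 with hη0
  have η1 : 0 < η0 := by linarith
  set d := (1 - κ0) / 6 with hd
  have d0 : 0 < d := by linarith
  set e := min (η0 * a / 4) (d / (N + 1)) with he
  have e0 : 0 < e := lt_min (by positivity) (by positivity)
  obtain ⟨η, hη, it⟩ := iterate h1 h2 hi io hw h4 e0
  obtain ⟨z, β0, hz, hβ0, hge, hsm⟩ := h3 θ η0 5 η θ0 η1 (by linarith) hη
  have i0 : ∀ δ, D.Sm δ → D.Cl δ → II D (w 0 + z) δ = II D (w 0) δ := fun δ p q => by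
    rw [II_add hi io (hw.sm 0) hz.1, hz.2.2 δ p q, add_zero]
  have sm0 := h1.sm_add _ _ (hw.sm 0) hz.1
  obtain ⟨γ, g1, g2, g3, g4⟩ := it (w 0 + z) ⟨sm0, h1.cl_add _ _ (hw.sm 0) hz.1 (hw.cl 0) hz.2.1,
    fun δ p q => by rw [i0 δ p q, i0 _ (hw.sm 0) (hw.cl 0), hw.on00, one_mul]⟩ hsm
  set β := w 0 + z - γ with hβ
  set c := II D β (w 0) with hc
  have c1 : |c - 1| ≤ d := by
    rw [hc, hβ, II_sub h1 io sm0 g1, i0 _ (hw.sm 0) (hw.cl 0), hw.on00, sub_sub_cancel_left,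
      abs_neg]
    refine (hb γ _ e g1 e0.le g4).trans ?_
    have : e ≤ d / (N + 1) := min_le_right _ _
    rw [le_div_iff₀ (by positivity)] at this
    nlinarith
  obtain ⟨c2, c3⟩ := abs_le.1 c1
  have c0 : 0 < c := by linarith
  have ge : ∀ j y v, ‖y‖ ≤ 1 → ‖v‖ = 1 →
      ap (D.loc j β0 y) v ((D.F j).J y v) ≤ ap (D.loc j β y) v ((D.F j).J y v) := by
    intro j y v hy hv
    have e1 := g4 j y (by linarith)
    have e2 := abs_ap_le (D.loc j γ y) v ((D.F j).J y v)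
    have e3 := (D.F j).norm_J_le y v
    have e4 : D.loc j β y = D.loc j (w 0 + z) y - D.loc j γ y := map_sub (pull _) _ _
    have e5 : e ≤ η0 * a / 4 := min_le_left _ _
    have e6 := mul_le_mul_of_nonneg_left (ha2 j y v hy hv) η1.le
    rw [hv] at e2 e3
    rw [e4, ap_sub]
    nlinarith [hge j y v hy hv, le_abs_self (ap (D.loc j γ y) v ((D.F j).J y v)),
      norm_nonneg ((D.F j).J y v), norm_nonneg (D.loc j γ y)]
  have pos : ∀ j y v, ‖y‖ ≤ 1 → ‖v‖ = 1 → 0 < ap (D.loc j β0 y) v ((D.F j).J y v) :=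
    fun j y v hy hv => h1.tm_loc _ hβ0.2.2.1 j y v (by linarith) (by
      rintro rfl; simp at hv)
  have hK : InK D ρ (θ ^ 2) β := ⟨g2.1, g3, h1.tm_of _ fun j y v hy hv =>
    (pos j y v hy hv).trans_le (ge j y v hy hv), fun j y hy => (hβ0.2.2.2 j y hy).trans
      (li.mono (D.F j) y _ _ (inv_loc g3 j (by linarith)) (inv_loc hβ0.2.1 j (by linarith))
        (fun v hv => (pos j y v hy hv).le) fun v hv => ge j y v hy hv)⟩
  have hK' := hK.smul h1 (inv_pos.2 c0)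
  refine ⟨c⁻¹ • β, ⟨sm_sub h1 hK'.1 (hw.sm 0),
    cl_sub h1 hK'.1 (hw.sm 0) (h1.cl_smul _ _ g2.1 g2.2.1) (hw.cl 0), fun δ p q => ?_⟩,
    hK'.1, hK'.2.1, hK'.2.2.1, fun j y hy => le_trans ?_ (hK'.2.2.2 j y hy)⟩
  · rw [II_sub h1 io hK'.1 (hw.sm 0), II_smul io _ g2.1, g2.2.2 δ p q, ← hc, ← mul_assoc,
      inv_mul_cancel₀ c0.ne', one_mul, sub_self]
  · refine mul_le_mul_of_nonneg_right ((le_max_left κ 0).trans ?_)
      (li.pos (D.F j) y _ (tm_locP h1 r3 j (by linarith))).le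
    rw [inv_pow, ← div_eq_inv_mul, le_div_iff₀ (by positivity), θ2, ← hκ0]
    have e1 : c ^ 2 ≤ 1 + 3 * d := by nlinarith
    nlinarith [mul_le_mul_of_nonneg_left e1 k0]

end Vale.Agent.P247
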