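import Vale.Agent.P247.Defs

set_option maxSynthPendingDepth 3

open scoped Topology ContDiff RealInnerProductSpace Manifold
open Set Metric MeasureTheory Filter

noncomputable section
namespace Vale.Agent.P247

open Vale.Agent.P204 Vale.Agent.P204.Bridge

variable {X : Type*} [TopologicalSpace X] [T2Space X] {D : Dat X} {K : Ker D}

namespace Mbd

omit [T2Space X] in
lemma one (sc : ScaleS) (hi : HilS D) (ha : HatS D) (ms : MS K) (j : Fin D.n) :
    ∃ C, 0 ≤ C ∧ ∀ ε h, 0 < ε → ε ≤ K.ε0 →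
      ∫ y, ‖D.iota (K.M ε h) j y‖ ^ 2 ∂(D.nu j) ≤ C * ‖h‖ ^ 2 := by
  obtain ⟨hH, hH0, -⟩ := K.scf j
  obtain ⟨C1, hC1, hb1⟩ := sc.bd _ K.C0 0 hH hH0
  obtain ⟨Ca, hCa, havg⟩ := sc.avg K.C0 (by linarith [K.one_le])
  obtain ⟨Cb, hCb, hbd⟩ := ha.bd
  obtain ⟨W, hW, hw⟩ := hi.wt
  refine ⟨W * (11 * C1) ^ 2 * (Ca * Cb) ^ 2, by positivity, fun ε h hε hε' => ?_⟩
  have hε1 : ε ≤ 1 := by nlinarith [K.small, K.one_le, K.pos]
  obtain ⟨i1, i2⟩ := ha.int j h
  have z1 : ∀ y, 9 < ‖y‖ → D.hat j h y = 0 := fun y hy =>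
    indicator_of_notMem (fun hm => absurd (mem_closedBall_zero_iff.mp hm) (not_le.mpr hy)) _
  obtain ⟨-, a2, -, a4⟩ := havg ε _ hε (fun y => norm_nonneg _) i1.norm i2
  have c1 := (hbd j h).1
  set g : V → ℝ := fun z => (ε ^ 4)⁻¹ * ∫ y in closedBall z (K.C0 * ε), ‖D.hat j h y‖ with hg
  have e : (fun y => ‖D.iota (K.M ε h) j y‖ ^ 2) =ᵐ[D.nu j]
      fun y => ‖pull ((D.F j).Ai y) (D.loc j (K.M ε h) y)‖ ^ 2 := by
    filter_upwards [hi.iota_ae _ j (ms.sm ε h hε hε')] with y hy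
    rw [hy]
  rw [integral_congr_ae e, hi.int]
  have h1 : ∫ y, (D.psi j y * ((D.F j).A y).det) • ‖pull ((D.F j).Ai y) (D.loc j (K.M ε h) y)‖ ^ 2
      ≤ ∫ y, W * (11 * C1) ^ 2 * g y ^ 2 := by
    refine integral_mono_of_nonneg (Eventually.of_forall fun y => ?_) (a2.const_mul _)
      (Eventually.of_forall fun y => ?_)
    · exact smul_nonneg (hw j y).1 (sq_nonneg _)
    · beta_reduce
      by_cases hy : ‖y‖ ≤ 2
      · have d1 := hb1 ε _ hε hε1 i1 z1 y 0 le_rfl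
        rw [pow_zero, one_mul, norm_iteratedFDeriv_zero] at d1
        have d2 : ‖pull ((D.F j).Ai y) (D.loc j (K.M ε h) y)‖ ≤ 11 * C1 * g y := by
          refine ((D.F j).norm_pull_Ai y _).trans ?_
          rw [ms.m3 ε j h y hε hε' (by linarith), mul_assoc]
          refine mul_le_mul_of_nonneg_left (le_trans (le_of_eq rfl) (d1.trans_eq ?_)) (by norm_num)
          rw [hg, mul_assoc]
        rw [smul_eq_mul, mul_assoc W, ← mul_pow]
        exact mul_le_mul (hw j y).2.1 (pow_le_pow_left₀ (norm_nonneg _) d2 2) (sq_nonneg _) hW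
      · rw [(D.psi_cc j).2 y (not_le.1 hy), zero_mul, zero_smul]
        positivity
  refine h1.trans ?_
  rw [integral_const_mul, mul_assoc (W * _), ← mul_pow]
  refine mul_le_mul_of_nonneg_left ?_ (by positivity)
  have h5 : nL2 g ^ 2 = ∫ z, g z ^ 2 := Real.sq_sqrt (integral_nonneg fun z => sq_nonneg _)
  rw [← h5]
  refine pow_le_pow_left₀ (nL2_nonneg _) (a4.trans ?_) 2
  rw [mul_assoc]
  exact mul_le_mul_of_nonneg_left c1 hCa

end Mbd

theorem mbdS (sc : ScaleS) (fo : FormS D) (hi : HilS D) (ha : HatS D) (ms : MS K) :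
    MbdS K := by
  choose C hC hb using Mbd.one sc hi ha ms
  have hS : 0 ≤ ∑ j, C j := Finset.sum_nonneg fun j _ => hC j
  refine ⟨√(∑ j, C j), Real.sqrt_nonneg _, fun ε h hε hε' => ?_⟩
  refine le_of_pow_le_pow_left₀ two_ne_zero (by positivity) ?_
  rw [(hi.norm_sq _).2, mul_pow, Real.sq_sqrt hS, Finset.sum_mul]
  exact Finset.sum_le_sum fun j _ => hb j ε h hε hε'

end Vale.Agent.P247
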