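import Vale.Agent.P247.Defs

set_option maxSynthPendingDepth 3

open scoped Topology ContDiff RealInnerProductSpace Manifold
open Set Metric MeasureTheory Filter

noncomputable section
namespace Vale.Agent.P247

open Vale.Agent.P204 Vale.Agent.P204.Bridge

variable {X : Type*} [TopologicalSpace X] [ChartedSpace R4 X] [T2Space X] [CompactSpace X]
  [IsManifold (𝓡 4) ∞ X] {D : Dat X}

namespace NetA

omit [ChartedSpace R4 X] [T2Space X] [CompactSpace X] [IsManifold (𝓡 4) ∞ X] in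
lemma bl_open (j : Fin D.n) (c : V) (r : ℝ) : IsOpen (Bl D j c r) := by
  have : Bl D j c r = (D.e j).source ∩ D.e j ⁻¹' ball c r := by
    ext x; simp [Bl, dist_eq_norm]
  rw [this]
  exact (D.e j).isOpen_inter_preimage isOpen_ball

omit [ChartedSpace R4 X] [T2Space X] [CompactSpace X] [IsManifold (𝓡 4) ∞ X] in
lemma nest {δ δ' r s t : ℝ} (hn : ∀ i j x x', D.In i 9 x → D.In j 9 x →
      x' ∈ (D.e j).source → ‖D.e j x' - D.e j x‖ ≤ δ' →
      x' ∈ (D.e i).source ∧ ‖D.e i x' - D.e i x‖ ≤ δ)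
    (h1 : r ≤ 1) (h2 : s + r ≤ δ') (h3 : δ + r ≤ t) {i j : Fin D.n} {c c' : V} (hc : ‖c‖ ≤ 1)
    (hc' : ‖c'‖ ≤ 1) (h : (Bl D i c r ∩ Bl D j c' r).Nonempty) : Bl D i c s ⊆ Bl D j c' t := by
  obtain ⟨x, ⟨a1, a2⟩, b1, b2⟩ := h
  rintro x' ⟨c1, c2⟩
  have n1 : ‖D.e i x‖ ≤ 9 := by linarith [norm_le_insert' (D.e i x) c]
  have n2 : ‖D.e j x‖ ≤ 9 := by linarith [norm_le_insert' (D.e j x) c']
  have n3 : ‖D.e i x' - D.e i x‖ ≤ δ' := by
    have := norm_sub_le_norm_sub_add_norm_sub (D.e i x') c (D.e i x)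
    rw [norm_sub_rev c] at this
    linarith
  obtain ⟨d1, d2⟩ := hn j i x x' ⟨b1, n2⟩ ⟨a1, n1⟩ c1 n3
  refine ⟨d1, ?_⟩
  have := norm_sub_le_norm_sub_add_norm_sub (D.e j x') (D.e j x) c'
  linarith

end NetA

open NetA in
theorem netS (ga : GeoA D.toAtl) : NetS D := by
  intro _
  obtain ⟨δ1, p1, n1⟩ := ga.near (1 / 2) (by norm_num)
  obtain ⟨r2, q2, a2, b2⟩ : ∃ r2 : ℝ, 0 < r2 ∧ r2 ≤ δ1 / 2 ∧ r2 ≤ 1 :=
    ⟨min (δ1 / 2) 1, by positivity, min_le_left _ _, min_le_right _ _⟩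
  obtain ⟨δ2, p2, n2⟩ := ga.near (r2 / 2) (by positivity)
  obtain ⟨r3, q3, a3, b3⟩ : ∃ r3 : ℝ, 0 < r3 ∧ r3 ≤ δ2 / 2 ∧ r3 ≤ r2 / 2 :=
    ⟨min (δ2 / 2) (r2 / 2), by positivity, min_le_left _ _, min_le_right _ _⟩
  obtain ⟨t, t1, t2, t3⟩ := finite_cover_balls_of_compact (isCompact_closedBall (0 : V) 1) q3
  have := t2.fintype
  let E := (Fintype.equivFin (Fin D.n × t)).symm
  have hcov : (univ : Set X) ⊆ ⋃ a, Bl D (E a).1 ((E a).2 : V) r3 := fun x _ => by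
    obtain ⟨j, h1, h2⟩ := D.cover x
    obtain ⟨c, hc, h3⟩ := mem_iUnion₂.1 (t3 (mem_closedBall_zero_iff.2 h2.le))
    refine mem_iUnion.2 ⟨E.symm (j, ⟨c, hc⟩), ?_⟩
    rw [Equiv.apply_symm_apply]
    exact ⟨h1, mem_ball_iff_norm.1 h3⟩
  obtain ⟨f, hf⟩ := SmoothPartitionOfUnity.exists_isSubordinate (𝓡 4) isClosed_univ
    (fun a => Bl D (E a).1 ((E a).2 : V) r3) (fun a => bl_open _ _ _) hcov
  have hy : ∀ a, ‖((E a).2 : V)‖ ≤ 1 := fun a => mem_closedBall_zero_iff.1 (t1 (E a).2.2)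
  exact ⟨{
    N := _
    j := fun a => (E a).1
    y := fun a => (E a).2
    r2 := r2
    r3 := r3
    r4 := r3
    pos := q3
    le43 := le_rfl
    le32 := by linarith
    le21 := b2
    hy := hy
    chi := fun a => f a
    chi_sm := fun a e he =>
      ((f a).contMDiff.comp_contMDiffOn (he.2.mono inter_subset_left)).contDiffOn
    chi_supp := fun a x hx => hf a (subset_tsupport _ hx)
    chi_sum := fun x => by
      rw [← finsum_eq_sum_of_fintype]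
      exact f.sum_eq_one (mem_univ x)
    nest2 := fun a b h => nest n1 (by linarith) (by linarith) (by linarith) (hy a) (hy b) h
    nest3 := fun a b h => nest n2 (by linarith) (by linarith) (by linarith) (hy a) (hy b) h }⟩

end Vale.Agent.P247
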