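import Vale.Agent.P247.Defs

set_option maxSynthPendingDepth 3

open scoped Topology ContDiff RealInnerProductSpace Manifold
open Set Metric MeasureTheory Filter

noncomputable section
namespace Vale.Agent.P247

open Vale.Agent.P204 Vale.Agent.P204.Bridge

namespace Poi

/-- contraction of a two-form with a vector -/
def iv (h : E6) (u : V) : Cov := ((2 : ℝ) • innerSL ℝ h).comp (wv u)

lemma iv_apply (h : E6) (u v : V) : iv h u v = ap h u v := by
  rw [ap_inner, real_inner_comm]
  simp [iv]

lemma norm_iv (h : E6) (u : V) : ‖iv h u‖ ≤ 2 * ‖h‖ * ‖u‖ :=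
  ContinuousLinearMap.opNorm_le_bound _ (by positivity) fun v => by
    rw [iv_apply, Real.norm_eq_abs]
    exact abs_ap_le h u v

/-- point of the segment -/
def pt (c y : V) (t : ℝ) : V := c + t • (y - c)

lemma pt_mem {c y : V} {r t : ℝ} (hy : y ∈ ball c r) (ht : t ∈ Icc (0 : ℝ) 1) :
    pt c y t ∈ ball c r := by
  rw [mem_ball_iff_norm] at hy ⊢
  rw [pt, add_sub_cancel_left, norm_smul, Real.norm_of_nonneg ht.1]
  nlinarith [norm_nonneg (y - c), ht.1, ht.2]

lemma cd_pt (c : V) : ContDiff ℝ ∞ fun p : V × ℝ => pt c p.1 p.2 :=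
  contDiff_const.add (contDiff_snd.smul (contDiff_fst.sub contDiff_const))

lemma cont_pt (c y : V) : Continuous (pt c y) := by
  unfold pt
  fun_prop

lemma deriv_pt (c y : V) (t : ℝ) : HasDerivAt (pt c y) (y - c) t := by
  have h := ((hasDerivAt_id t).smul_const (y - c)).const_add c
  rw [one_smul] at h
  exact h

/-- integrand of the primitive of a two-form -/
def G (c : V) (β : V → E6) (p : V × ℝ) : Cov := p.2 • iv (β (pt c p.1 p.2)) (p.1 - c)

lemma G_apply (c : V) (β : V → E6) (y : V) (t : ℝ) (v : V) :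
    G c β (y, t) v = t * ap (β (pt c y t)) (y - c) v := by
  simp [G, iv_apply]

lemma cd_G (c : V) {β : V → E6} (hβ : ContDiff ℝ ∞ β) : ContDiff ℝ ∞ (G c β) := by
  refine contDiff_clm_apply_iff.2 fun v => ?_
  have h : (fun p : V × ℝ => G c β p v)
      = fun p : V × ℝ => p.2 * ap (β (pt c p.1 p.2)) (p.1 - c) v :=
    funext fun p => G_apply c β p.1 p.2 v
  rw [h]
  exact contDiff_snd.mul (cd_ap (hβ.comp (cd_pt c)) (contDiff_fst.sub contDiff_const)
    contDiff_const)

lemma cont_G (c y : V) {β : V → E6} (hβ : Continuous β) : Continuous fun t => G c β (y, t) := by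
  refine continuous_clm_apply.2 fun v => ?_
  have h : (fun t : ℝ => G c β (y, t) v) = fun t : ℝ => t * ap (β (pt c y t)) (y - c) v :=
    funext fun t => G_apply c β y t v
  rw [h]
  have h2 : Continuous fun t : ℝ => ((β (pt c y t), y - c, v) : E6 × V × V) :=
    (hβ.comp (cont_pt c y)).prodMk continuous_const
  exact continuous_id.mul (continuous_ap.comp h2)

/-- primitive of a two-form -/
def P (c : V) (β : V → E6) (y : V) : Cov := ∫ t in Icc (0 : ℝ) 1, G c β (y, t)

lemma avg (h1 : AvgS) (c : V) {β : V → E6} (hβ : ContDiff ℝ ∞ β) :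
    ContDiff ℝ ∞ (P c β) ∧ ∀ y,
      IntegrableOn (fun t => fderiv ℝ (fun y' => G c β (y', t)) y) (Icc (0 : ℝ) 1) ∧
      fderiv ℝ (P c β) y = ∫ t in Icc (0 : ℝ) 1, fderiv ℝ (fun y' => G c β (y', t)) y := by
  have h := h1.smul (volume.restrict (Icc (0 : ℝ) 1)) (G c β) (fun t => t) (fun _ => (1 : ℝ))
    (Icc 0 1) (cd_G c hβ) isCompact_Icc aestronglyMeasurable_id (integrable_const _)
    ((ae_restrict_mem measurableSet_Icc).mono fun t ht _ => ht)
  simp only [one_smul] at h
  exact ⟨h.1, fun y => h.2.2.1 y⟩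

lemma fderiv_G (c : V) {β : V → E6} (hβ : ContDiff ℝ ∞ β) (y : V) (t : ℝ) (p q : V) :
    fderiv ℝ (fun y' => G c β (y', t)) y p q
      = t * (t * ap (fderiv ℝ β (pt c y t) p) (y - c) q + ap (β (pt c y t)) p q) := by
  have hd : DifferentiableAt ℝ (fun y' => G c β (y', t)) y :=
    (((cd_G c hβ).comp (contDiff_id.prodMk contDiff_const)).differentiable (by simp)) y
  rw [← fderiv_app hd]
  have h : (fun y' => G c β (y', t) q)
      = fun y' => t * (2 * ⟪wv.flip q (y' - c), β (pt c y' t)⟫) :=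
    funext fun y' => by rw [G_apply, ap_inner]; rfl
  have a1 : HasFDerivAt (fun y' : V => wv.flip q (y' - c))
      ((wv.flip q).comp (ContinuousLinearMap.id ℝ V)) y :=
    (wv.flip q).hasFDerivAt.comp y ((hasFDerivAt_id y).sub_const c)
  have a2 : HasFDerivAt (fun y' : V => pt c y' t) (t • ContinuousLinearMap.id ℝ V) y :=
    (((hasFDerivAt_id y).sub_const c).const_smul t).const_add c
  have a3 : HasFDerivAt (fun y' : V => β (pt c y' t))
      ((fderiv ℝ β (pt c y t)).comp (t • ContinuousLinearMap.id ℝ V)) y :=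
    (hβ.differentiable (by simp) _).hasFDerivAt.comp y a2
  rw [h, (((a1.inner ℝ a3).const_mul 2).const_mul t).fderiv, ap_inner, ap_inner]
  simp only [smul_apply, ContinuousLinearMap.comp_apply, fderivInnerCLM_apply,
    ContinuousLinearMap.prod_apply, ContinuousLinearMap.flip_apply, ContinuousLinearMap.id_apply,
    map_smul, inner_smul_right, smul_eq_mul]
  ring

lemma d1_P (h1 : AvgS) (c : V) {β : V → E6} {r : ℝ} (hβ : ContDiff ℝ ∞ β)
    (hc : ∀ z ∈ ball c r, ∀ u v w, cyc β z u v w = 0) {y : V} (hy : y ∈ ball c r) :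
    d1 (P c β) y = β y := by
  refine ap_ext fun p q => ?_
  obtain ⟨hi, he⟩ := (avg h1 c hβ).2 y
  have hi1 : ∀ a, IntegrableOn (fun t => fderiv ℝ (fun y' => G c β (y', t)) y a) (Icc (0 : ℝ) 1) :=
    fun a => hi.apply_continuousLinearMap a
  have hi2 : ∀ a b, IntegrableOn (fun t => fderiv ℝ (fun y' => G c β (y', t)) y a b)
      (Icc (0 : ℝ) 1) := fun a b => (hi1 a).apply_continuousLinearMap b
  rw [ap_d1, he, ContinuousLinearMap.integral_apply hi, ContinuousLinearMap.integral_apply hi,
    ContinuousLinearMap.integral_apply (hi1 p), ContinuousLinearMap.integral_apply (hi1 q),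
    ← integral_sub (hi2 p q) (hi2 q p)]
  have hD : ∀ t : ℝ, HasDerivAt (fun t => t ^ 2 * ap (β (pt c y t)) p q)
      (2 * t * ap (β (pt c y t)) p q + t ^ 2 * ap (fderiv ℝ β (pt c y t) (y - c)) p q) t := by
    intro t
    have b1 : HasDerivAt (fun t => β (pt c y t)) (fderiv ℝ β (pt c y t) (y - c)) t :=
      (hβ.differentiable (by simp) _).hasFDerivAt.comp_hasDerivAt t (deriv_pt c y t)
    have b2 := (ev p q).hasFDerivAt.comp_hasDerivAt t b1
    simp only [Function.comp_def, ev_apply] at b2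
    have b3 := (hasDerivAt_pow 2 t).fun_mul b2
    refine b3.congr_deriv ?_
    simp
  have hcont : Continuous fun t : ℝ =>
      2 * t * ap (β (pt c y t)) p q + t ^ 2 * ap (fderiv ℝ β (pt c y t) (y - c)) p q := by
    have c1 : Continuous fun t : ℝ => ev p q (β (pt c y t)) :=
      (ev p q).continuous.comp (hβ.continuous.comp (cont_pt c y))
    have c2 : Continuous fun t : ℝ => ev p q (fderiv ℝ β (pt c y t) (y - c)) :=
      (ev p q).continuous.comp
        (((cd_fderiv hβ).continuous.comp (cont_pt c y)).clm_apply continuous_const)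
    simp only [ev_apply] at c1 c2
    fun_prop
  have hF := intervalIntegral.integral_eq_sub_of_hasDerivAt (a := 0) (b := 1)
    (fun t _ => hD t) (hcont.intervalIntegrable 0 1)
  rw [intervalIntegral.integral_of_le zero_le_one, ← integral_Icc_eq_integral_Ioc] at hF
  rw [setIntegral_congr_fun measurableSet_Icc (g := fun t =>
    2 * t * ap (β (pt c y t)) p q + t ^ 2 * ap (fderiv ℝ β (pt c y t) (y - c)) p q), hF]
  · simp [pt]
  · intro t ht
    have h0 := hc _ (pt_mem hy ht) (y - c) p q
    rw [cyc, ap_swap _ q (y - c)] at h0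
    simp only [fderiv_G c hβ]
    rw [ap_swap _ q p]
    linear_combination (-t ^ 2) * h0

/-- primitive of a one-form -/
def L (c : V) (b : V → Cov) (y : V) : ℝ := ∫ t in Icc (0 : ℝ) 1, b (pt c y t) (y - c)

lemma cont_L {c y : V} {r : ℝ} {b : V → Cov} (hb : ContinuousOn b (ball c r))
    (hy : y ∈ ball c r) : ContinuousOn (fun t => b (pt c y t) (y - c)) (Icc (0 : ℝ) 1) :=
  (hb.comp (cont_pt c y).continuousOn fun _ ht => pt_mem hy ht).clm_apply continuousOn_const

lemma L_spec {c : V} {r : ℝ} {b : V → Cov} (hb : ContDiffOn ℝ ∞ b (ball c r))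
    (hd : ∀ z ∈ ball c r, d1 b z = 0) :
    ContDiffOn ℝ ∞ (L c b) (ball c r) ∧ ∀ y ∈ ball c r, HasFDerivAt (L c b) (b y) y := by
  obtain ⟨f, hf⟩ := (convex_ball c r).exists_forall_hasFDerivAt_of_fderiv_symmetric isOpen_ball
    (hb.differentiableOn (by simp)) fun a ha x y => by
      have h := ap_d1 b a x y
      rw [hd a ha, ap_zero] at h
      linarith
  have he : ∀ y ∈ ball c r, L c b y = f y - f c := by
    intro y hy
    have hF := intervalIntegral.integral_eq_sub_of_hasDerivAt (a := 0) (b := 1)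
      (f := fun t => f (pt c y t)) (f' := fun t => b (pt c y t) (y - c))
      (fun t ht => (hf _ (pt_mem hy (by rwa [uIcc_of_le zero_le_one] at ht))).comp_hasDerivAt t
        (deriv_pt c y t))
      ((cont_L hb.continuousOn hy).intervalIntegrable_of_Icc zero_le_one)
    rw [intervalIntegral.integral_of_le zero_le_one, ← integral_Icc_eq_integral_Ioc] at hF
    rw [L, hF]
    simp [pt]
  have hL : ∀ y ∈ ball c r, HasFDerivAt (L c b) (b y) y := by
    intro y hy
    refine ((hf y hy).sub_const (f c)).congr_of_eventuallyEq ?_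
    filter_upwards [isOpen_ball.mem_nhds hy] with z hz using he z hz
  refine ⟨(contDiffOn_infty_iff_fderiv_of_isOpen isOpen_ball).2 ⟨fun y hy =>
    (hL y hy).differentiableAt.differentiableWithinAt, hb.congr fun y hy => (hL y hy).fderiv⟩, hL⟩

lemma norm_int_le {E : Type} [NormedAddCommGroup E] [NormedSpace ℝ E] {f : ℝ → E} {C : ℝ}
    (h : ∀ t ∈ Icc (0 : ℝ) 1, ‖f t‖ ≤ C) : ‖∫ t in Icc (0 : ℝ) 1, f t‖ ≤ C := by
  have := norm_setIntegral_le_of_norm_le_const (μ := volume) (s := Icc (0 : ℝ) 1)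
    (measure_Icc_lt_top) h
  simpa using this

end Poi

open Poi in
theorem poiS (h1 : AvgS) : PoiS := by
  refine ⟨⟨P, fun c β β' hβ hβ' => funext fun y => ?_, fun c a β => funext fun y => ?_,
    fun c β hβ => (avg h1 c hβ).1, fun c β r B hB y hy => norm_int_le fun t ht => ?_,
    fun c β r hβ hc y hy => d1_P h1 c hβ hc hy⟩,
    ⟨L, fun c r b b' hb hb' y hy => ?_, fun c a b y => ?_, fun c b => by simp [L],
    fun c b r B hB y hy => ?_, fun c b r hb hd => L_spec hb hd⟩⟩
  · rw [Pi.add_apply, P, P, P, ← integral_add (cont_G c y hβ).integrableOn_Icc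
      (cont_G c y hβ').integrableOn_Icc]
    refine integral_congr_ae (Eventually.of_forall fun t => ?_)
    ext v
    simp only [G_apply, Pi.add_apply, ap_add, add_apply]
    ring
  · rw [Pi.smul_apply, P, P, ← integral_smul]
    refine integral_congr_ae (Eventually.of_forall fun t => ?_)
    ext v
    simp only [G_apply, Pi.smul_apply, ap_smul, smul_apply, smul_eq_mul]
    ring
  · have h2 := hB _ (pt_mem hy ht)
    have h3 := norm_iv (β (pt c y t)) (y - c)
    have h4 := (mem_ball_iff_norm.1 hy).le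
    have h5 : ‖β (pt c y t)‖ * ‖y - c‖ ≤ B * r :=
      mul_le_mul h2 h4 (norm_nonneg _) ((norm_nonneg _).trans h2)
    rw [G, norm_smul, Real.norm_of_nonneg ht.1]
    nlinarith [ht.1, ht.2, norm_nonneg (iv (β (pt c y t)) (y - c))]
  · rw [L, L, L, ← integral_add ((cont_L hb hy).integrableOn_Icc)
      ((cont_L hb' hy).integrableOn_Icc)]
    simp
  · rw [L, L, ← integral_const_mul]
    simp
  · rw [← Real.norm_eq_abs]
    refine norm_int_le fun t ht => ?_
    have h2 := hB _ (pt_mem hy ht)
    have h4 := (mem_ball_iff_norm.1 hy).le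
    refine ((b (pt c y t)).le_opNorm _).trans ?_
    rw [mul_comm r]
    exact mul_le_mul h2 h4 (norm_nonneg _) ((norm_nonneg _).trans h2)

end Vale.Agent.P247
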