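import Vale.Agent.P247.Defs

set_option maxSynthPendingDepth 3

open scoped Topology ContDiff RealInnerProductSpace Manifold
open Set Metric MeasureTheory Filter

noncomputable section
namespace Vale.Agent.P247

open Vale.Agent.P204 Vale.Agent.P204.Bridge

variable {X : Type*} [TopologicalSpace X] [ChartedSpace R4 X] [T2Space X] [CompactSpace X]
  [IsManifold (𝓡 4) ∞ X] {D : Dat X}

namespace RhoA

omit [ChartedSpace R4 X] [T2Space X] [CompactSpace X] [IsManifold (𝓡 4) ∞ X]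

/-- invariant part of a form -/
def pj (D : Dat X) (c : Form X) : Form X := fun x => (1 / 2 : ℝ) • (c x + pull (D.J x) (c x))

lemma pj_inv (c : Form X) : D.Inv (pj D c) := fun x u v => by
  simp only [pj, ap_smul, ap_add, ap_pull, D.JJ, ap_neg_l, ap_neg_r]
  ring

lemma pj_tm {c : Form X} (h : D.Tm c) : D.Tm (pj D c) := fun x v hv => by
  have := h x v hv
  simp only [pj, ap_smul, ap_add, ap_pull, D.JJ, ap_neg_r]
  rw [ap_swap (c x) (D.J x v) v]
  linarith

lemma mem_target (j : Fin D.n) {y : V} (hy : ‖y‖ ≤ 12) : y ∈ (D.e j).target :=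
  D.big j (mem_closedBall_zero_iff.2 hy)

lemma pj_loc (c : Form X) (j : Fin D.n) {y : V} (hy : ‖y‖ ≤ 11) :
    D.loc j (pj D c) y = (1 / 2 : ℝ) • (D.loc j c y + pull ((D.F j).J y) (D.loc j c y)) := by
  have ht := mem_target (D := D) j (hy.trans (by norm_num : (11 : ℝ) ≤ 12))
  have he : D.e j ((D.e j).symm y) = y := (D.e j).right_inv ht
  have hx : D.In j 11 ((D.e j).symm y) := ⟨(D.e j).map_target ht, by rw [he]; exact hy⟩
  have h1 : ∀ v, D.fr j ((D.e j).symm y) ((D.F j).J y v)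
      = D.J ((D.e j).symm y) (D.fr j ((D.e j).symm y) v) := fun v => by
    have := D.FJ j _ hx
    rw [he] at this
    rw [this]; simp [Atl.Jc]
  refine ap_ext fun u v => ?_
  simp only [Atl.loc, pj, ap_smul, ap_add, ap_pull, ContinuousLinearEquiv.coe_coe, h1]

lemma pj_sm {c : Form X} (h : D.Sm c) (j : Fin D.n) :
    ContDiffOn ℝ ∞ (D.loc j (pj D c)) (ball 0 1) := by
  have h1 : ContDiffOn ℝ ∞ (D.loc j c) (ball 0 1) := (h j).mono fun y hy =>
    mem_target j (by linarith [mem_ball_zero_iff.1 hy])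
  refine ((h1.add ((cd_pull (D.F j).smJ).contDiffOn.clm_apply h1)).const_smul (1 / 2 : ℝ)).congr
    fun y hy => pj_loc c j (by linarith [mem_ball_zero_iff.1 hy])

end RhoA

open RhoA in
theorem rhoS (li : LinS) (fo : FormS D) : RhoS D := by
  intro σ c a hf hσ hp hc ht ha
  have hw : ∀ j y, ‖y‖ ≤ 2 → 0 < wq (D.loc j (pj D c) y) (D.loc j (pj D c) y) := fun j y hy =>
    li.pos (D.F j) y _ fun v hv => fo.tm_loc _ (pj_tm ht) j y v (by linarith) hv
  have hq : ∀ j y, ‖y‖ ≤ 2 → wq (pj D c ((D.e j).symm y)) (pj D c ((D.e j).symm y)) ≠ 0 ∧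
      a * σ ((D.e j).symm y) / wq (pj D c ((D.e j).symm y)) (pj D c ((D.e j).symm y))
        = a * sg σ (D.e j) y / wq (D.loc j (pj D c) y) (D.loc j (pj D c) y) := fun j y hy => by
    have h1 := hw j y hy
    rw [Atl.loc, wq_pull] at h1 ⊢
    obtain ⟨h2, h3⟩ := mul_ne_zero_iff.1 h1.ne'
    refine ⟨h3, ?_⟩
    rw [sg, ← (hf j).2]
    field_simp
  have hx : ∀ x, wq (pj D c x) (pj D c x) ≠ 0 ∧ 0 < a * σ x / wq (pj D c x) (pj D c x) := by
    intro x
    obtain ⟨j, h1, h2⟩ := D.cover x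
    have h3 : ‖D.e j x‖ ≤ 2 := by linarith
    have h4 := hq j _ h3
    rw [(D.e j).left_inv h1] at h4
    refine ⟨h4.1, ?_⟩
    rw [h4.2]
    exact div_pos (mul_pos ha (hp j _ h3)) (hw j _ h3)
  refine ⟨fun x => √(a * σ x / wq (pj D c x) (pj D c x)) • pj D c x, fo.sm_of _ fun j => ?_,
    fun x u v => ?_, fun x v hv => ?_, fun x => ?_⟩
  · have s1 := pj_sm hc j
    have s2 : ContDiffOn ℝ ∞ (sg σ (D.e j)) (ball 0 1) := (hσ _ (hf j).1).mono fun y hy =>
      mem_target j (by linarith [mem_ball_zero_iff.1 hy])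
    have s3 : ContDiffOn ℝ ∞ (fun y => wq (D.loc j (pj D c) y) (D.loc j (pj D c) y)) (ball 0 1) :=
      contDiff_wq.comp_contDiffOn (s1.prodMk s1)
    have b2 : ∀ y ∈ ball (0 : V) 1, ‖y‖ ≤ 2 := fun y hy => by linarith [mem_ball_zero_iff.1 hy]
    have s4 := ((contDiffOn_const (c := a)).mul s2).div s3 fun y hy => (hw j y (b2 y hy)).ne'
    have s5 := s4.sqrt fun y hy =>
      (div_pos (mul_pos ha (hp j _ (b2 y hy))) (hw j _ (b2 y hy))).ne'
    refine (s5.smul s1).congr fun y hy => ?_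
    rw [Atl.loc, map_smul, (hq j y (b2 y hy)).2]
    rfl
  · rw [ap_smul, ap_smul, pj_inv c x u v]
  · rw [ap_smul]
    exact mul_pos (Real.sqrt_pos.2 (hx x).2) (pj_tm ht x v hv)
  · rw [wq_smul_l, wq_smul_r, ← mul_assoc, Real.mul_self_sqrt (hx x).2.le,
      div_mul_cancel₀ _ (hx x).1]

end Vale.Agent.P247
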