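import Vale.Agent.P247.Defs

set_option maxSynthPendingDepth 3

open scoped Topology ContDiff RealInnerProductSpace Manifold
open Set Metric MeasureTheory Filter

noncomputable section
namespace Vale.Agent.P247

open Vale.Agent.P204 Vale.Agent.P204.Bridge

theorem sepS.{u} : SepS.{u} := by
  intro Y _ _ Ω _ _ N Z hat w K φ0 η h0 hadd hs hK hφ0 hη hno
  obtain ⟨A, hA⟩ : ∃ A : Set (C(Y, ℝ) × Ω),
    ∀ x, x ∈ A ↔ ∃ ψ ∈ K, ψ ≤ x.1 + (φ0 + 1) ∧ N x.2 ≤ η := ⟨{x | _}, fun _ => Iff.rfl⟩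
  have N0 : N 0 = 0 := by simpa using hs 0 0
  have hc : Convex ℝ A := by
    intro x hx y hy a b ha hb hab
    obtain ⟨ψ, h1, h2, h3⟩ := (hA x).1 hx
    obtain ⟨ψ', h1', h2', h3'⟩ := (hA y).1 hy
    refine (hA _).2 ⟨a • ψ + b • ψ', hK h1 h1' ha hb hab, ContinuousMap.le_def.2 fun p => ?_, ?_⟩
    · have h4 := mul_le_mul_of_nonneg_left (ContinuousMap.le_def.1 h2 p) ha
      have h5 := mul_le_mul_of_nonneg_left (ContinuousMap.le_def.1 h2' p) hb
      have h6 : (a + b) * (φ0 p + 1) = φ0 p + 1 := by rw [hab, one_mul]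
      simp only [ContinuousMap.add_apply, ContinuousMap.smul_apply, ContinuousMap.one_apply,
        Prod.fst_add, Prod.smul_fst, smul_eq_mul] at h4 h5 ⊢
      linarith
    · have h4 := hadd (a • x.2) (b • y.2)
      rw [hs, hs, abs_of_nonneg ha, abs_of_nonneg hb] at h4
      have h5 := mul_le_mul_of_nonneg_left h3 ha
      have h6 := mul_le_mul_of_nonneg_left h3' hb
      have h7 : (a + b) * η = η := by rw [hab, one_mul]
      show N (a • x.2 + b • y.2) ≤ η
      linarith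
  have hmem : ∀ (φ : C(Y, ℝ)) α, (∀ p, -1 ≤ φ p) → N α ≤ η → (φ, α) ∈ A := fun φ α h1 h2 =>
    (hA _).2 ⟨φ0, hφ0, ContinuousMap.le_def.2 fun p => by
      simp only [ContinuousMap.add_apply, ContinuousMap.one_apply]
      linarith [h1 p], h2⟩
  have habs : Absorbent ℝ A := by
    refine absorbent_iff_eventually_nhdsNE_zero.2 fun x => Eventually.filter_mono nhdsWithin_le_nhds ?_
    have h1 : ∀ B : ℝ, ContinuousAt (fun c : ℝ => |c| * B) 0 := fun B => by fun_prop
    filter_upwards [(h1 ‖x.1‖).eventually (gt_mem_nhds (a := 1) (by simp)),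
      (h1 (N x.2)).eventually (gt_mem_nhds (a := η) (by simpa using hη))] with c h2 h3
    refine hmem (c • x.1) (c • x.2) (fun p => ?_) (by rw [hs]; exact h3.le)
    have h4 : |c * x.1 p| ≤ |c| * ‖x.1‖ := by
      rw [abs_mul]
      exact mul_le_mul_of_nonneg_left (x.1.norm_coe_le_norm p) (abs_nonneg _)
    have h5 := neg_abs_le (c * x.1 p)
    show -1 ≤ c * x.1 p
    linarith
  obtain ⟨L, hL, hZ, he⟩ := hb_kill (gauge A) (Z.map (hat.prod LinearMap.id))
    (hat w - (φ0 + 1), w) 1 gauge_nonneg (gauge_add_le hc habs)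
    (fun c x h => gauge_smul_of_nonneg h.le x) (by
      rintro _ ⟨z, hz, rfl⟩
      refine one_le_gauge_of_notMem (hc.starConvex habs.zero_mem) (habs _) fun h => hno ?_
      obtain ⟨ψ, h1, h2, h3⟩ := (hA _).1 h
      refine ⟨-z, Z.neg_mem hz, ψ, h1, h2.trans_eq ?_, by rw [← sub_eq_add_neg]; exact h3⟩
      show hat w - (φ0 + 1) - hat z + (φ0 + 1) = hat (w + -z)
      rw [map_add, map_neg]
      abel)
  have h1 : ∀ x ∈ A, L x ≤ 1 := fun x hx => (hL x).trans (gauge_le_one_of_mem hx)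
  have hsplit : ∀ φ α, L (φ, α) = L (φ, 0) + L (0, α) := fun φ α => by
    rw [← map_add, Prod.mk_add_mk, add_zero, zero_add]
  have hsub : ∀ φ : C(Y, ℝ), L (φ - (φ0 + 1), 0) = L (φ, 0) - L (φ0, 0) - L (1, 0) := fun φ => by
    rw [← map_sub, ← map_sub, Prod.mk_sub_mk, Prod.mk_sub_mk, sub_sub, sub_zero, sub_zero]
  have hone : ∀ α, L (0, α) * η ≤ N α := fun α => by
    by_contra hcon
    have h2 := not_le.1 hcon
    have h3 : 0 < N α + L (0, α) * η := by linarith [h0 α]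
    have h4 : 0 < 2 * η / (N α + L (0, α) * η) := by positivity
    have h5 := h1 _ (hmem 0 ((2 * η / (N α + L (0, α) * η)) • α) (fun p => by simp) (by
      rw [hs, abs_of_pos h4, div_mul_eq_mul_div, div_le_iff₀ h3]
      nlinarith))
    have e : ((0 : C(Y, ℝ)), (2 * η / (N α + L (0, α) * η)) • α) =
      (2 * η / (N α + L (0, α) * η)) • ((0 : C(Y, ℝ)), α) := by simp
    rw [e, map_smul, smul_eq_mul, div_mul_eq_mul_div, div_le_one h3] at h5
    linarith
  rw [hsplit, hsub] at he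
  refine ⟨-L.comp (LinearMap.inl ℝ _ _), -L.comp (LinearMap.inr ℝ _ _), η⁻¹, by positivity,
    fun φ hφ => ?_, fun α => ?_, fun z hz => ?_, fun φ hφ => ?_, ?_⟩
  · show 0 ≤ -L (φ, 0)
    by_contra hcon
    have h2 : 0 < L (φ, 0) := by linarith
    have h3 := h1 _ (hmem ((2 / L (φ, 0)) • φ) 0 (fun p => le_trans (by norm_num)
      (mul_nonneg (by positivity) (ContinuousMap.le_def.1 hφ p))) (N0.trans_le hη.le))
    have e : ((2 / L (φ, 0)) • φ, (0 : Ω)) = (2 / L (φ, 0)) • (φ, (0 : Ω)) := by simp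
    rw [e, map_smul, smul_eq_mul, div_mul_cancel₀ _ h2.ne'] at h3
    linarith
  · show |(-L (0, α))| ≤ η⁻¹ * N α
    have h2 := hone α
    have h3 := hone (-α)
    have e : ((0 : C(Y, ℝ)), -α) = -((0 : C(Y, ℝ)), α) := by simp
    have e2 : N (-α) = N α := by simpa using hs (-1) α
    rw [e, map_neg, e2] at h3
    rw [inv_mul_eq_div, le_div_iff₀ hη, ← abs_of_pos hη, ← abs_mul, abs_le]
    constructor <;> linarith
  · have h2 : L (hat z, z) = 0 := hZ _ ⟨z, hz, rfl⟩
    rw [hsplit] at h2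
    show -L (hat z, 0) + -L (0, z) = 0
    linarith
  · have h2 := h1 (φ - (φ0 + 1), 0) ((hA _).2 ⟨φ, hφ, by simp, N0.trans_le hη.le⟩)
    rw [hsub] at h2
    show -L (hat w, 0) + -L (0, w) ≤ -L (φ, 0)
    linarith
  · show -L (hat w, 0) + -L (0, w) + 1 ≤ -L (φ0, 0) + -L (1, 0)
    linarith

end Vale.Agent.P247
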