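import Vale.Agent.P247.Defs

set_option maxSynthPendingDepth 3

open scoped Topology ContDiff RealInnerProductSpace Manifold
open Set Metric MeasureTheory Filter

noncomputable section
namespace Vale.Agent.P247

open Vale.Agent.P204 Vale.Agent.P204.Bridge

theorem Sing.ae (μ : Measure (V × V)) [IsFiniteMeasure μ] {N : Set V} (hN : volume N = 0)
    (hμ : ∀ᵐ p ∂μ, p.1 ∈ N) {C0 : ℝ} (hC : 0 < C0) :
    ∀ᵐ y : V, Tendsto (fun t => tau μ C0 t y) (𝓝[>] 0) (𝓝 0) := by
  have hs : μ.map Prod.fst ⟂ₘ (volume : Measure V) := by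
    refine ⟨(toMeasurable volume N)ᶜ, (measurableSet_toMeasurable _ _).compl, ?_, ?_⟩
    · rw [Measure.map_apply measurable_fst (measurableSet_toMeasurable _ _).compl]
      exact measure_mono_null (fun p hp h => hp (subset_toMeasurable _ _ h)) (ae_iff.1 hμ)
    · rw [compl_compl, measure_toMeasurable, hN]
  filter_upwards [Besicovitch.ae_tendsto_rnDeriv (μ.map Prod.fst) (volume : Measure V),
    hs.rnDeriv_ae_eq_zero] with y h1 h2
  rw [h2, Pi.zero_apply] at h1
  have h3 : Tendsto (fun t : ℝ => C0 * t) (𝓝[>] 0) (𝓝[>] 0) := by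
    refine tendsto_nhdsWithin_iff.2 ⟨?_, ?_⟩
    · have h4 : Tendsto (fun t : ℝ => C0 * t) (𝓝 0) (𝓝 (C0 * 0)) :=
        (continuous_const.mul continuous_id).tendsto 0
      rw [mul_zero] at h4
      exact h4.mono_left nhdsWithin_le_nhds
    · filter_upwards [self_mem_nhdsWithin] with t ht using mul_pos hC ht
  have h4 := (((ENNReal.tendsto_toReal ENNReal.zero_ne_top).comp h1).comp h3).const_mul
    (C0 ^ 4 * (volume : Measure V).real (ball 0 1))
  rw [ENNReal.toReal_zero, mul_zero] at h4
  refine h4.congr' ?_
  filter_upwards [self_mem_nhdsWithin] with t ht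
  have ht : 0 < t := ht
  have hb : 0 < (volume : Measure V).real (ball 0 1) :=
    ENNReal.toReal_pos (measure_ball_pos _ _ one_pos).ne' measure_ball_lt_top.ne
  have e : {p : V × V | ‖p.1 - y‖ ≤ C0 * t} = Prod.fst ⁻¹' closedBall y (C0 * t) := by
    ext p
    simp [dist_eq_norm]
  simp only [Function.comp_apply, tau, mass]
  rw [ENNReal.toReal_div, ← measureReal_def, ← measureReal_def,
    Measure.addHaar_real_closedBall volume _ (mul_pos hC ht).le, e,
    map_measureReal_apply measurable_fst measurableSet_closedBall, finrank_euclideanSpace_fin]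
  field_simp

theorem singS (h1 : TauS) : SingS := by
  intro μ ν N C0 δ hμ hν hac hN hμN hC hδ
  have hm : ∀ t, MeasurableSet {y | δ < tau μ C0 t y} := fun t =>
    measurableSet_lt measurable_const ((h1.meas μ (C0 * t) hμ).const_mul _)
  have h2 := tendsto_integral_filter_of_dominated_convergence (μ := ν) (l := 𝓝[>] (0 : ℝ))
    (F := fun t => {y | δ < tau μ C0 t y}.indicator (1 : V → ℝ)) (f := fun _ => 0) (fun _ => 1)
    (Eventually.of_forall fun t => (measurable_one.indicator (hm t)).aestronglyMeasurable)
    (Eventually.of_forall fun t => Eventually.of_forall fun y => by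
      by_cases h : y ∈ {y | δ < tau μ C0 t y} <;> simp [h])
    (integrable_const _) (by
      filter_upwards [hac.ae_le (Sing.ae μ hN hμN hC)] with y hy
      refine tendsto_const_nhds.congr' ?_
      filter_upwards [hy.eventually (gt_mem_nhds hδ)] with t ht
      exact (indicator_of_notMem (s := {y | δ < tau μ C0 t y}) (fun h => lt_asymm ht h)
        (1 : V → ℝ)).symm)
  rw [integral_zero] at h2
  exact h2.congr fun t => integral_indicator_one (hm t)

end Vale.Agent.P247
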