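import Vale.Agent.P247.Defs

set_option maxSynthPendingDepth 3

open scoped Topology ContDiff RealInnerProductSpace Manifold
open Set Metric MeasureTheory Filter

noncomputable section
namespace Vale.Agent.P247

open Vale.Agent.P204 Vale.Agent.P204.Bridge

namespace SmK

lemma abs0 (E : E6) : |E 0| ≤ ‖E‖ := by
  simpa using PiLp.norm_apply_le E 0

lemma cone (E R : E6) (c s : ℝ) (hR : Pm R = 0) (hc : c ≤ R 0 - ‖Pa R‖) (hs : 0 ≤ s)
    (hE : 2 * ‖E‖ ≤ s * c) :
    ‖Pa (Po E + s • R)‖ ≤ (Po E + s • R) 0 ∧ Pm (Po E + s • R) = 0 := by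
  constructor
  · have e1 : Pa (Po E + s • R) = Pa E + s • Pa R := by apply E6_ext <;> simp
    have e2 : (Po E + s • R) 0 = E 0 + s * R 0 := by simp
    have h1 := norm_add_le (Pa E) (s • Pa R)
    rw [norm_smul, Real.norm_of_nonneg hs] at h1
    have h2 := (norm_Pa_le E).trans (norm_Po_le E)
    have h3 := neg_abs_le (E 0)
    have h4 := abs0 E
    have h5 := mul_le_mul_of_nonneg_left hc hs
    rw [e1, e2]; nlinarith
  · have e1 : Pm (Po E + s • R) = s • Pm R := by apply E6_ext <;> simp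
    rw [e1, hR, smul_zero]

lemma key0 (li : LinS) (G U : E6) (hG : Pm G = 0) (hG' : ‖Pa G‖ ≤ G 0) (hp : 0 < wq G G)
    (hU : Pm U = 0) (hU' : ‖Pa U‖ ≤ U 0) :
    ‖Pa (G + U)‖ < (G + U) 0 ∧ wq G G ≤ wq (G + U) (G + U) := by
  constructor
  · have h1 : ‖Pa G‖ < G 0 := by
      rw [wq_split, hG, real_inner_self_eq_norm_sq, real_inner_self_eq_norm_sq, norm_zero] at hp
      rcases hG'.lt_or_eq with h | h
      · exact h
      · rw [h] at hp; nlinarith
    have h2 := norm_add_le (Pa G) (Pa U)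
    rw [map_add]
    have e2 : (G + U) 0 = G 0 + U 0 := by simp
    rw [e2]; linarith
  · have h1 := (li.rcs G U hG' hU' hG hU).1
    have h2 := (li.rcs U U hU' hU' hU hU).1
    rw [wq_add_l, wq_add_r, wq_add_r, wq_symm U G]; linarith

lemma wq_fr (F : Frame) (z : V) (b : E6) :
    wq b b = (F.A z).det * wq (pull (F.Ai z) b) (pull (F.Ai z) b) := by
  rw [← wq_pull, F.pull_A_Ai]

lemma key (li : LinS) (F : Frame) (z : V) (m g0 r b : E6) (c δ s σ : ℝ)
    (h1 : Pm (pull (F.Ai z) g0) = 0) (h2 : ‖Pa (pull (F.Ai z) g0)‖ ≤ pull (F.Ai z) g0 0)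
    (h3 : σ ≤ wq g0 g0) (hσ : 0 < σ) (hm : ‖m - g0‖ ≤ δ) (hr : Pm (pull (F.Ai z) r) = 0)
    (hc : c ≤ pull (F.Ai z) r 0 - ‖Pa (pull (F.Ai z) r)‖) (hs : 0 ≤ s) (hδ : 22 * δ ≤ s * c)
    (hb : pull (F.Ai z) b = Po (pull (F.Ai z) m) + s • pull (F.Ai z) r) :
    TameP (F.J z) b ∧ σ ≤ wq b b := by
  have hE := F.norm_pull_Ai z (m - g0)
  obtain ⟨u1, u2⟩ := cone (pull (F.Ai z) (m - g0)) _ c s hr hc hs (by linarith)
  have hd := F.det_pos z
  have hg := wq_fr F z g0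
  have hp : 0 < wq (pull (F.Ai z) g0) (pull (F.Ai z) g0) := by
    by_contra hn
    have := mul_nonpos_of_nonneg_of_nonpos hd.le (not_lt.1 hn)
    linarith
  obtain ⟨k1, k2⟩ := key0 li _ _ h1 h2 hp u2 u1
  have e : pull (F.Ai z) b =
      pull (F.Ai z) g0 + (Po (pull (F.Ai z) (m - g0)) + s • pull (F.Ai z) r) := by
    have := Pm_add_Po (pull (F.Ai z) g0)
    rw [h1, zero_add] at this
    rw [hb, map_sub, map_sub, this]; abel
  rw [← e] at k1 k2
  refine ⟨(li.tameF F z b).2 k1, ?_⟩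
  have := mul_le_mul_of_nonneg_left k2 hd.le
  rw [wq_fr F z b]; linarith

variable {X : Type*} [TopologicalSpace X] {D : Dat X}

/-- invariant part of a form -/
def Pj (D : Dat X) (α : Form X) : Form X := fun x => (1 / 2 : ℝ) • (α x + pull (D.J x) (α x))

lemma mem_target (D : Dat X) (j : Fin D.n) {y : V} (hy : ‖y‖ ≤ 12) : y ∈ (D.e j).target :=
  D.big j (by simpa using hy)

lemma loc_Pj (α : Form X) (j : Fin D.n) {y : V} (hy : ‖y‖ ≤ 11) :
    D.loc j (Pj D α) y = (1 / 2 : ℝ) • (D.loc j α y + pull ((D.F j).J y) (D.loc j α y)) := by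
  have ht := mem_target D j (hy.trans (by norm_num))
  have hJ := D.FJ j ((D.e j).symm y)
    ⟨(D.e j).map_target ht, by rw [(D.e j).right_inv ht]; exact hy⟩
  rw [(D.e j).right_inv ht] at hJ
  rw [hJ]
  refine ap_ext fun p q => ?_
  simp [Atl.loc, Pj, ap_pull, Atl.Jc]

lemma fr_Pj (F : Frame) (y : V) (c : E6) :
    pull (F.Ai y) ((1 / 2 : ℝ) • (c + pull (F.J y) c)) = Po (pull (F.Ai y) c) := by
  have e : pull (F.Ai y) (pull (F.J y) c) = pull J0 (pull (F.Ai y) c) :=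
    ap_ext fun p q => by simp only [ap_pull, F.J_Ai]
  rw [map_smul, map_add, e, pull_J0]
  apply E6_ext <;> simp <;> ring

lemma sm_Pj (fo : FormS D) {α : Form X} (h : D.Sm α) : D.Sm (Pj D α) := by
  refine fo.sm_of _ fun j => ?_
  have h1 : ContDiffOn ℝ ∞ (D.loc j α) (ball 0 1) :=
    (h j).mono fun y hy => mem_target D j ((mem_ball_zero_iff.1 hy).le.trans (by norm_num))
  have h2 := (h1.add ((cd_pull (D.F j).smJ).contDiffOn.clm_apply h1)).const_smul (1 / 2 : ℝ)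
  exact h2.congr fun y hy => loc_Pj α j ((mem_ball_zero_iff.1 hy).le.trans (by norm_num))

lemma inv_Pj (α : Form X) : D.Inv (Pj D α) := by
  intro x u v
  simp only [Pj, ap_smul, ap_add, ap_pull, D.JJ, ap_neg_l, ap_neg_r]; ring

lemma anti_Pj (α : Form X) : Anti D (α + (-1 : ℝ) • Pj D α) := by
  intro x u v
  simp only [Pj, Pi.add_apply, Pi.smul_apply, ap_smul, ap_add, ap_pull, D.JJ, ap_neg_l, ap_neg_r]
  ring

lemma Pj_eq {α : Form X} (h : D.Inv α) : Pj D α = α := by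
  funext x
  refine ap_ext fun u v => ?_
  simp only [Pj, ap_smul, ap_add, ap_pull, h x u v]; ring

lemma T_Pj (fo : FormS D) (cu : CurS D) (io : IotaS D) {α : Form X} (h : D.Sm α) (m)
    (hm : ∀ j, PM 1 (m j)) : D.T m (Pj D α) = D.T m α := by
  have h1 := io.T_anti m _ hm (anti_Pj α)
  rw [(cu.fn m hm).1 _ _ h (fo.sm_smul _ _ (sm_Pj fo h)), (cu.fn m hm).2 _ _ (sm_Pj fo h)] at h1
  linarith

lemma loc_add (α β : Form X) (s : ℝ) (j : Fin D.n) (y : V) :
    D.loc j (α + s • β) y = D.loc j α y + s • D.loc j β y := by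
  simp [Atl.loc]

lemma gap (li : LinS) (fo : FormS D) {ρ : Form X} (hs : D.Sm ρ) (ht : D.Tm ρ) (j : Fin D.n) :
    ∃ c, 0 < c ∧ ∀ z ∈ closedBall (0 : V) 1, c ≤ pull ((D.F j).Ai z) (D.loc j ρ z) 0
      - ‖Pa (pull ((D.F j).Ai z) (D.loc j ρ z))‖ := by
  have h1 : ContinuousOn (D.loc j ρ) (closedBall 0 1) :=
    (hs j).continuousOn.mono fun y hy =>
      mem_target D j ((mem_closedBall_zero_iff.1 hy).trans (by norm_num))
  have h2 : ContinuousOn (fun z => pull ((D.F j).Ai z) (D.loc j ρ z)) (closedBall 0 1) :=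
    (cd_pull (D.F j).smAi).continuous.continuousOn.clm_apply h1
  have h3 : ContinuousOn (fun z => pull ((D.F j).Ai z) (D.loc j ρ z) 0) (closedBall 0 1) :=
    (p6 0).continuous.comp_continuousOn h2
  refine (isCompact_closedBall (0 : V) 1).exists_forall_le'
    (h3.sub (Pa.continuous.comp_continuousOn h2).norm) fun z hz => ?_
  have := (li.tameF (D.F j) z (D.loc j ρ z)).1 fun v hv =>
    fo.tm_loc ρ ht j z v ((mem_closedBall_zero_iff.1 hz).trans (by norm_num)) hv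
  exact sub_pos.2 this

end SmK

variable {X : Type*} [TopologicalSpace X] [T2Space X] {D : Dat X} {K : Ker D}

open SmK in
theorem smKS (li : LinS) (ga : GeoA D.toAtl) (fo : FormS D) (ha : HatS D) (cu : CurS D)
    (ms : MS K) (io : IotaS D) (hk : HatKS D) (kk : KopKS) : SmKS K := by
  intro ρ hs hi ht
  obtain ⟨Ch, hCh, hh⟩ := hk
  have hσ : ∀ j y, ‖y‖ ≤ 2 → 0 < wq (D.loc j ρ y) (D.loc j ρ y) := fun j y hy =>
    li.pos (D.F j) y _ fun v hv => fo.tm_loc ρ ht j y v (hy.trans (by norm_num)) hv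
  have hsm : ∀ j, ContDiffOn ℝ ∞ (fun y => wq (D.loc j ρ y) (D.loc j ρ y)) (ball 0 3) := by
    intro j
    have h1 : ContDiffOn ℝ ∞ (D.loc j ρ) (ball 0 3) :=
      (hs j).mono fun y hy => mem_target D j ((mem_ball_zero_iff.1 hy).le.trans (by norm_num))
    exact contDiff_wq.comp_contDiffOn (h1.prodMk h1)
  choose Ck hCk hkk using fun j => kk (D.F j) (K.Hs j) K.C0 K.ε0 K.Cc _ (K.scf j) K.one_le K.pos
    K.small (K.cone j) (hsm j) (hσ j)
  choose c hc hcc using gap li fo hs ht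
  have hnn : ∀ j, 0 ≤ 22 * Ck j * Ch / c j := fun j => by
    have := hCk j; have := hc j; positivity
  refine ⟨∑ j, 22 * Ck j * Ch / c j, Finset.sum_nonneg fun j _ => hnn j, ?_⟩
  set C := ∑ j, 22 * Ck j * Ch / c j with hC
  have hC0 : 0 ≤ C := Finset.sum_nonneg fun j _ => hnn j
  have hCj : ∀ j, 22 * Ck j * Ch ≤ C * c j := fun j =>
    (div_le_iff₀ (hc j)).1 (Finset.single_le_sum (fun j _ => hnn j) (Finset.mem_univ j))
  intro t B h ht0 ht1 hB hcone
  have hM := ms.sm t h ht0 ht1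
  have hs0 : 0 ≤ C * t * B := by positivity
  have main : ∀ j z, ‖z‖ ≤ 1 →
      TameP ((D.F j).J z) (D.loc j (Pj D (K.M t h) + (C * t * B) • ρ) z) ∧
      wq (D.loc j ρ z) (D.loc j ρ z) ≤ wq (D.loc j (Pj D (K.M t h) + (C * t * B) • ρ) z)
        (D.loc j (Pj D (K.M t h) + (C * t * B) • ρ) z) := by
    intro j z hz
    obtain ⟨g0, g1, g2, g3, g4⟩ := hkk j t (Ch * B) (D.hat j h) ht0 ht1 (by positivity)
      (ha.int j h).1 (hh ρ h B hs ht hB hcone j) z hz
    have hm : D.loc j (K.M t h) z = ∫ y, ksc (K.Hs j) t y z (D.hat j h y) :=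
      ms.m3 t j h z ht0 ht1 (hz.trans (by norm_num))
    rw [← hm] at g4
    have hr : Pm (pull ((D.F j).Ai z) (D.loc j ρ z)) = 0 := by
      have e := loc_Pj ρ j (hz.trans (by norm_num : (1 : ℝ) ≤ 11))
      rw [Pj_eq hi] at e
      have e2 := fr_Pj (D.F j) z (D.loc j ρ z)
      rw [← e] at e2
      rw [e2]; apply E6_ext <;> simp
    refine key li (D.F j) z _ g0 _ _ (c j) _ (C * t * B) _ g1 g2 g3
      (hσ j z (hz.trans (by norm_num))) g4 hr (hcc j z (mem_closedBall_zero_iff.2 hz)) hs0 ?_ ?_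
    · have := mul_le_mul_of_nonneg_right (hCj j) (mul_nonneg ht0.le hB)
      nlinarith
    · rw [loc_add, map_add, map_smul, loc_Pj _ j (hz.trans (by norm_num)), fr_Pj]
  have hP := sm_Pj fo hM
  refine ⟨Pj D (K.M t h) + (C * t * B) • ρ,
    ⟨fo.sm_add _ _ hP (fo.sm_smul _ _ hs), fun x u v => ?_, ?_, fun j y hy => ?_⟩, fun m hm => ?_⟩
  · simp only [Pi.add_apply, Pi.smul_apply, ap_add, ap_smul, inv_Pj _ x u v, hi x u v]
  · refine fo.tm_of _ fun j y v hy hv => (main j y hy).1 v ?_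
    rintro rfl
    simp at hv
  · rw [one_mul]; exact (main j y hy).2
  · rw [(cu.fn m hm).1 _ _ hP (fo.sm_smul _ _ hs), (cu.fn m hm).2 _ _ hs, T_Pj fo cu io hM m hm]

end Vale.Agent.P247
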