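import Vale.Agent.P204.Main
import Vale.Agent.P247.MainK
import Vale.Agent.P247.Ad
import Vale.Agent.P247.App
import Vale.Agent.P247.Br
import Vale.Agent.P247.BrV
import Vale.Agent.P247.Cech
import Vale.Agent.P247.Clos
import Vale.Agent.P247.Glue
import Vale.Agent.P247.HatK
import Vale.Agent.P247.Int
import Vale.Agent.P247.Iota
import Vale.Agent.P247.KopB
import Vale.Agent.P247.Lin
import Vale.Agent.P247.LinJ
import Vale.Agent.P247.Mbd
import Vale.Agent.P247.Net
import Vale.Agent.P247.One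
import Vale.Agent.P247.Poi
import Vale.Agent.P247.Rho
import Vale.Agent.P247.Sep
import Vale.Agent.P247.Sing
import Vale.Agent.P247.SmK

/-! Assembly for one atlas, and construction of an atlas. -/

set_option maxSynthPendingDepth 3
set_option linter.unusedSectionVars false

open scoped Topology ContDiff RealInnerProductSpace Manifold
open Set Metric MeasureTheory Filter

noncomputable section
namespace Vale.Agent.P247

open Vale.Agent.P204 Vale.Agent.P204.Bridge

theorem allD {X : Type*} [TopologicalSpace X] [T2Space X] (D : Dat X) : IotaS D ∧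
    (∀ γ, Null D γ → ∀ R Λ, 0 ≤ Λ → D.Fn R → D.Ord R 0 Λ → D.KillsD R → R γ = 0) ∧
    ∀ w ρ, Tri D w → D.Sm ρ → D.Inv ρ → D.Tm ρ → II D ρ ρ ≤ 1 → MainKS D (w 0) ρ := by
  have ga := geoA D.toAtl
  have gd := geoD D
  have fo : FormS D := formS natS ga
  have se := semS nkS ga fo
  have hi : HilS D := hilS ga
  have ha := hatS ga gd fo hi
  have ta := tauS convS
  have cu := curS ta ga fo se
  have sc := scaleS avgS
  obtain ⟨K⟩ := kerS kSupS (kScS avgS) (kClS avgS natS) kConeS ga (kdS ga) (kIndS cvpiS ga gd)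
  have m : MS K := mS nkS sc fo se hi ha
  have st := stepS nkS sc (r1S avgS sc) fo se hi ha m
  have le := leakS sc fo hi ha m
  have th := thTS ta fo hi cu m
  have io : IotaS D := iotaS linS natS ga fo se hi ha
  have ap : AppS K := appS avgS nkS ga fo ha m
  have mb : MbdS K := mbdS sc fo hi ha m
  have cs : ClosS K := closS avgS natS sc fo se hi ha m io ap mb
  have sk : SmKS K := smKS linS ga fo ha cu m io (hatKS linS ga gd fo hi) (kopKS' linS)
  refine ⟨io, fun γ hγ R Λ hΛ hR ho hD => kills_null fo hi m ap cs hγ hΛ hR ho hD,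
    fun w ρ hw r1 r2 r3 r4 => ?_⟩
  have bd := bdd0S nkS ta (monoS convS (monoA natS) (monoB natS)) fo se hi cu m st le th io ap cs hw
  exact mainKS linS fo se hi io hw r3
    (f1KS linS sepS nkS natS fo se hi io hw r1 r2 r3
      (mt1S nkS (l2S nkS) locAll ta ga fo se hi cu m le th io ap cs bd hw)
      (mt2S nkS (l2S nkS) locAll ta ga fo se hi cu m le th io ap cs bd (singS ta) (adS linS hi) sk
        hw r1 r2 r3 r4))
    (f20S nkS natS fo se hi io hw (de0S nkS fo se hi m st le io ap cs hw))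

variable {X : Type*} [TopologicalSpace X] [ChartedSpace R4 X] [T2Space X] [CompactSpace X]
  [IsManifold (𝓡 4) ∞ X]

theorem fitS {J : X → End} (hJ : ∀ x v, J x (J x v) = -v)
    (hs : ∀ e, Good e → ContDiffOn ℝ ∞ (Jl e J) e.target) : ∃ D : Dat X, Fit D ∧ D.J = J := by
  choose e ge hp h0 hbig hsm hnear using fun p : X =>
    exists_chart hJ (good_chart p) (mem_chart_source R4 p) (hs _ (good_chart p))
  obtain ⟨t, ht⟩ := CompactSpace.elim_nhds_subcover
    (fun p => (e p).source ∩ e p ⁻¹' ball 0 1) fun p =>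
      ((e p).isOpen_inter_preimage isOpen_ball).mem_nhds ⟨hp p, by simp [h0]⟩
  have hcov : ∀ x, ∃ j : Fin t.card, x ∈ (e (t.equivFin.symm j)).source ∧
      ‖e (t.equivFin.symm j) x‖ < 1 := fun x => by
    obtain ⟨p, hp, hx⟩ := mem_iUnion₂.1 (ht.symm ▸ mem_univ x : x ∈ ⋃ p ∈ t,
      (e p).source ∩ e p ⁻¹' ball 0 1)
    refine ⟨t.equivFin ⟨p, hp⟩, ?_⟩
    rw [Equiv.symm_apply_apply]
    exact ⟨hx.1, mem_ball_zero_iff.1 hx.2⟩
  let a : Atl X := ⟨t.card, fun j => e (t.equivFin.symm j), fun j => hbig _, hcov,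
    fun j => fr (e (t.equivFin.symm j)), fun i j => tm_smooth (ge _) (ge _),
    fun i j x hi hj => tm_deriv (ge _) (ge _) hi hj, J, hJ, fun j => hsm _, fun j => hnear _⟩
  have ha : (∀ j, Good (a.e j) ∧ a.fr j = fr (a.e j)) ∧ a.J = J := ⟨fun j => ⟨ge _, rfl⟩, rfl⟩
  obtain ⟨D, hD⟩ := datS (geoA a)
  rw [← hD] at ha
  exact ⟨D, ha⟩

variable {D : Dat X}

lemma Fit.loc (h : Fit D) (j : Fin D.n) (α : Form X) : D.loc j α = lc (D.e j) α := by
  funext y
  rw [Atl.loc, (h j).2, lc]

lemma Fit.sm (h : Fit D) {α : Form X} : D.Sm α ↔ SmC α := by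
  refine ⟨fun a e he => ?_, fun a j => h.loc j α ▸ a _ (h j).1⟩
  exact sm_transfer (c' := fun _ : Unit => e) (fun j => (h j).1) (fun _ => he)
    (fun x => (D.cover x).imp fun _ h => h.1) (fun j => h.loc j α ▸ a j) ()

lemma Fit.cl (h : Fit D) {α : Form X} (hs : SmC α) : D.Cl α ↔ ClC α := by
  refine ⟨fun a e he => ?_, fun a j => h.loc j α ▸ a _ (h j).1⟩
  exact cl_transfer natS (c' := fun _ : Unit => e) (fun j => (h j).1) (fun _ => he)
    (fun x => (D.cover x).imp fun _ h => h.1) (fun j => hs _ (h j).1) (fun j => h.loc j α ▸ a j) ()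

end Vale.Agent.P247
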