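import Vale.Agent.P247.DE0
import Vale.Agent.P204.Bdd

/-! Bounds at all scales for currents killing exact forms. -/

set_option maxSynthPendingDepth 3
set_option linter.unusedSectionVars false

open scoped Topology ContDiff RealInnerProductSpace Manifold
open Set Metric MeasureTheory Filter

noncomputable section
namespace Vale.Agent.P247

open Vale.Agent.P204

variable {X : Type*} [TopologicalSpace X] [T2Space X] {D : Dat X} {K : Ker D}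

def Bdd0S (K : Ker D) : Prop :=
  ∀ m mm s k Λ, (∀ j, PM 1 (m j)) → D.IsCM m mm → 0 ≤ Λ → D.Fn s → D.OrdM s k Λ →
    KillsE D (fun α => D.T m α + s α) →
    ∃ (M : ℕ) (ε1 B Dn : ℝ), 1 ≤ M ∧ 0 < ε1 ∧ ε1 ≤ K.ε0 ∧ 0 ≤ B ∧
      (∀ ε, 0 < ε → ε ≤ ε1 → D.Bd s M ε B) ∧
      ∀ j y r, ‖y‖ ≤ 4 → 0 < r → mass (mm j) y r ≤ Dn * r ^ 2

open Bdd in
/-- the basic inequality -/
lemma five0 (h6 : HilS D) {Θ1 Θ2 : D.H} {τ : Fin D.n → V → ℝ} {C t lam E : ℝ}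
    (hC : 0 ≤ C) (ht : 0 < t) (ht1 : t ≤ 1) (hl : 0 < lam) (hτ : ∀ j y, 0 ≤ τ j y)
    (hi : ∀ j, Integrable (fun y => τ j y * τ j y) (D.nu j))
    (hb : ∀ j, ∀ᵐ y ∂(D.nu j), ‖Θ1 j y‖ ≤ C * τ j y ∧ ‖Pm (Θ1 j y)‖ ≤ C * t * τ j y ∧
      ‖Pa (Θ1 j y)‖ ≤ Θ1 j y 0 + C * t ^ 2 * τ j y)
    (hq : D.qH (Θ1 + Θ2) (Θ1 + Θ2) ≤ E) :
    ‖D.mapH Pm Θ2‖ ^ 2 ≤ (10 + 4 / lam) * C ^ 2 * ∑ j, t ^ 2 * ∫ y, τ j y * τ j y ∂(D.nu j)
      + (2 + lam / t ^ 2) * ‖D.mapH Po Θ2‖ ^ 2 + E := by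
  obtain ⟨i1, e1⟩ := h6.norm_sq (D.mapH Pm Θ2)
  obtain ⟨i2, e2⟩ := h6.norm_sq (D.mapH Po Θ2)
  obtain ⟨i3, e3⟩ := h6.qH_eq (Θ1 + Θ2) (Θ1 + Θ2)
  have key : ∀ j, ∫ y, ‖D.mapH Pm Θ2 j y‖ ^ 2 ∂(D.nu j)
      - (10 + 4 / lam) * C ^ 2 * (t ^ 2 * ∫ y, τ j y * τ j y ∂(D.nu j))
      - (2 + lam / t ^ 2) * ∫ y, ‖D.mapH Po Θ2 j y‖ ^ 2 ∂(D.nu j)
      ≤ ∫ y, wq ((Θ1 + Θ2) j y) ((Θ1 + Θ2) j y) ∂(D.nu j) := fun j => by
    have i4 : Integrable (fun y => ‖D.mapH Pm Θ2 j y‖ ^ 2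
        - (10 + 4 / lam) * C ^ 2 * t ^ 2 * (τ j y * τ j y)) (D.nu j) :=
      (i1 j).sub ((hi j).const_mul _)
    rw [← mul_assoc, ← integral_const_mul, ← integral_const_mul,
      ← integral_sub (i1 j) ((hi j).const_mul _), ← integral_sub i4 ((i2 j).const_mul _)]
    refine integral_mono_ae (i4.sub ((i2 j).const_mul _)) (i3 j) ?_
    filter_upwards [hb j, h6.map_ae Pm Θ2 j, h6.map_ae Po Θ2 j, Lp.coeFn_add (Θ1 j) (Θ2 j)]
      with y b1 b2 b3 b4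
    have b5 : (Θ1 + Θ2) j y = Θ1 j y + Θ2 j y := b4
    rw [b2, b3, b5]
    exact pw _ _ hC ht ht1 (hτ j y) hl b1.1 b1.2.1 b1.2.2
  have := Finset.sum_le_sum fun j (_ : j ∈ Finset.univ) => key j
  rw [← e3, Finset.sum_sub_distrib, Finset.sum_sub_distrib, ← Finset.mul_sum,
    ← Finset.mul_sum _ _ (2 + lam / t ^ 2), ← e1, ← e2] at this
  linarith

open Bdd in
set_option maxHeartbeats 1000000 in
theorem bdd0S (h1 : NkS) (h2 : TauS) (h3 : MonoS) (h4 : FormS D) (h5 : SemS D) (h6 : HilS D)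
    (h7 : CurS D) (h8 : MS K) (h10 : StepS K) (h11 : LeakS K) (h12 : ThTS K)
    (io : IotaS D) (ap : AppS K) (cs : ClosS K) {w : Fin 3 → Form X} (hw : Tri D w) :
    Bdd0S K := by
  intro m mm s k Λ hm hcm hΛ hs hord hZ
  have hI := h4.killsI s k Λ hord
  choose s0 hs0 hmono using fun j => h3 (D.F j) (k + 3)
  obtain ⟨C1, L0, hC1, hL0, hrec⟩ := h10.recur (k + 3)
  obtain ⟨C2, hC2, hleak⟩ := h11.leak (k + 3)
  obtain ⟨C3, hC3, hth⟩ := h12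
  obtain ⟨C4, hC4, htau⟩ := tau2 h2 h6 K.C0 K.one_le
  obtain ⟨C5, hC5, hcr⟩ := h5.crude k
  obtain ⟨C6, hC6, hcr'⟩ := h1.crude
  obtain ⟨ΛT, hΛT, hT⟩ := h7.ord m hm
  obtain ⟨C7, -, th0⟩ := h8.theta 0
  obtain ⟨C8, -, thk⟩ := h8.theta k
  obtain ⟨E1, hE1, er1⟩ := err_ord3 h4 h8 ap hw.sm 0
  obtain ⟨E2, hE2, er2⟩ := err_bd3 h1 h4 h5 h8 ap hw.sm (k + 3)
  obtain ⟨E0, hE0, er0⟩ : ∃ E0, 0 ≤ E0 ∧ ∀ i, |D.T m (w i) + s (w i)| ≤ E0 :=
    uniform3 (fun i => ⟨_, abs_nonneg _, le_rfl⟩) fun _ _ _ a b => b.trans a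
  set L := L0 + 4 * C1 with hL
  have hL1 : 1 ≤ L := by linarith
  set κ := 1 / (4 * (C1 + 1) * L ^ (k + 2)) with hκ
  have hκ0 : 0 < κ := by positivity
  set lam := κ ^ 2 / (4 * (C2 ^ 2 + 3 * E2 ^ 2 + 1)) with hlam
  have hlam0 : 0 < lam := by positivity
  obtain ⟨ε1, he0, he1, he2⟩ := exists_min s0 hs0 (min K.ε0 (min 1 (lam / 2)))
    (lt_min K.pos (lt_min one_pos (by positivity)))
  have he3 : ε1 ≤ K.ε0 := he1.trans (min_le_left _ _)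
  have he4 : ε1 ≤ 1 := he1.trans ((min_le_right _ _).trans (min_le_left _ _))
  have he5 : ε1 ≤ lam / 2 := he1.trans ((min_le_right _ _).trans (min_le_right _ _))
  choose Cm hCm hmono using fun j => hmono j ε1 he0 (he2 j)
  have hcl : ∀ j b, Cc 6 b →
      TL (D.F j) (mm j) (d1 b) + D.sj s j (fun y => (D.F j).cm y (d1 b y)) = 0 := fun j b hb => by
    rw [← (hcm j).2 _ hb.d1.continuous hb.d1.2, ← h4.s_ext s j _ hs hI (hb.d1.mono (by norm_num))]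
    exact hZ j b hb
  have hdens : ∀ (β r : ℝ), 0 < r → r ≤ ε1 → 0 ≤ β →
      (∀ s', r ≤ s' → s' ≤ ε1 → D.Bd s (k + 3) s' β) → ∀ j y ρ, ‖y‖ ≤ 4 → r ≤ ρ →
      mass (mm j) y ρ ≤ Cm j * ((mm j).real univ + β) * ρ ^ 2 :=
    fun β r hr hr1 hβ hb j => hmono j (mm j) _ β r (hcm j).1 (hcl j) hr hr1 hβ
      fun s' a b => hb s' a b j
  set W := (10 + 4 / lam) * C3 ^ 2 with hW
  set A1 := W * ∑ j, C4 * Cm j * (mm j).real univ ^ 2 + 6 * (E0 + E1 * ΛT) ^ 2 with hA1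
  set A2 := W * ∑ j, C4 * Cm j * (mm j).real univ with hA2
  have hA10 : 0 ≤ A1 := add_nonneg (mul_nonneg (by positivity)
    (Finset.sum_nonneg fun j _ => mul_nonneg (mul_nonneg hC4 (hCm j)) (sq_nonneg _)))
    (by positivity)
  set A := A1 + A2 ^ 2 / (2 * κ ^ 2) + 1 with hA
  have hA0 : 0 ≤ A := by positivity
  have ha : ∀ t β Θ, 0 < t → t ≤ ε1 → 0 ≤ β → (∀ s', t ≤ s' → s' ≤ ε1 → D.Bd s (k + 3) s' β) →
      K.IsTh t s Θ → ‖D.mapH Pm Θ‖ ≤ A + κ * β := by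
    intro t β Θ ht ht1 hβ hb hΘ
    have ht0 : t ≤ K.ε0 := ht1.trans he3
    obtain ⟨Θ1, hΘ1, -⟩ := th0 t _ ΛT ht ht0 hΛT (h7.fn m hm) hT
    have hsum : K.IsTh t (fun α => D.T m α + s α) (Θ1 + Θ) := fun h => by
      rw [h6.qH_add, hΘ1 h, hΘ h]
    have hq := (keyI h4 h6 io cs hw ht ht0 (fn_add (h7.fn m hm) hs) hZ.killsD hsum).trans
      (sum_sq_le (e := (E0 + E1 * ΛT) + E2 * t * β) fun i => by
        have d0 := abs_le.1 (er0 i)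
        have d1 := abs_le.1 (er1 i t ΛT _ Θ1 ht ht0 hΛT (h7.fn m hm) hT hΘ1)
        have d2 := abs_le.1 (er2 i t β s Θ ht ht0 hβ hs hI (hb t le_rfl ht1) hΘ)
        have d3 : E1 * t * ΛT ≤ E1 * 1 * ΛT := by gcongr; exact ht1.trans he4
        rw [h6.qH_add]
        exact abs_le.2 ⟨by linarith [d0.1, d1.1, d2.1], by linarith [d0.2, d1.2, d2.2]⟩)
    have hCt : K.C0 * t ≤ 1 / 2 :=
      (mul_le_mul_of_nonneg_left ht0 (by linarith [K.one_le])).trans K.small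
    have hτ := fun j => htau (mm j) t (Cm j * ((mm j).real univ + β)) j (hcm j).1.1 ht hCt
      (mul_nonneg (hCm j) (add_nonneg measureReal_nonneg hβ))
      (fun y hy => hdens β t ht ht1 hβ hb j y _ hy (by nlinarith [K.one_le]))
    have h5' := five0 h6 hC3 ht (ht1.trans he4) hlam0 (fun j y => tau_nonneg _ _ _ y)
      (fun j => (hτ j).1) (hth t m mm Θ1 ht ht0 hm hcm hΘ1) hq
    have hl := hleak t β s Θ ht ht0 hβ hs hI hΘ (hb t le_rfl ht1)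
    have b1 : W * ∑ j, t ^ 2 * ∫ y, tau (mm j) K.C0 t y * tau (mm j) K.C0 t y ∂(D.nu j)
        ≤ W * ∑ j, C4 * Cm j * (mm j).real univ ^ 2 + A2 * β := by
      rw [hA2, mul_assoc W, ← mul_add, Finset.sum_mul, ← Finset.sum_add_distrib]
      refine mul_le_mul_of_nonneg_left (Finset.sum_le_sum fun j _ => (hτ j).2.trans_eq ?_)
        (by positivity)
      ring
    have b2 : (2 + lam / t ^ 2) * ‖D.mapH Po Θ‖ ^ 2 ≤ (2 * t ^ 2 + lam) * C2 ^ 2 * β ^ 2 := by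
      calc _ ≤ (2 + lam / t ^ 2) * (C2 * t * β) ^ 2 := by gcongr
        _ = _ := by field_simp
    refine young (A2 := A2) (θ := (2 * t ^ 2 + lam) * C2 ^ 2 + 6 * E2 ^ 2 * t ^ 2) (norm_nonneg _)
      hA10 hκ0 hβ ?_ (h5'.trans ?_)
    · have a1 : t ^ 2 ≤ lam / 2 := by nlinarith
      have a2 : 2 * lam * (C2 ^ 2 + 3 * E2 ^ 2 + 1) = κ ^ 2 / 2 := by rw [hlam]; field_simp; ring
      nlinarith [sq_nonneg C2, sq_nonneg E2]
    · rw [hA1]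
      nlinarith [sq_nonneg ((E0 + E1 * ΛT) - E2 * t * β)]
  have hB := h1.close (fun ε β => D.Bd s (k + 3) ε β) ε1 L (C1 * κ + C1 * (L ^ (k + 3))⁻¹)
    (C1 * A) (C6 * (C5 * Λ)) 0 (k + 2) he0 hL1 (by positivity) (by positivity) (by positivity)
    (Nat.zero_le _) ?_ (fun ε β β' h hβ j => h1.lbd_mono (h j) hβ)
    (fun ε β h j => h1.lbd_lim fun η hη => h η hη j)
    (fun ε hε hε1 j => hcr' _ k _ _ ε (by positivity) (by omega) hε (hε1.trans he4)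
      ((hcr s Λ hΛ hord).2 j)) ?_
  · refine ⟨k + 3, ε1, 2 * (C1 * A), ∑ j, Cm j * ((mm j).real univ + 2 * (C1 * A)), by omega, he0,
      he3, by positivity, fun ε hε hε1 => by simpa using hB ε hε hε1, fun j y r hy hr => ?_⟩
    have := hdens (2 * (C1 * A)) (min r ε1) (lt_min hr he0) (min_le_right _ _) (by positivity)
      (fun s' a b => by simpa using hB s' ((lt_min hr he0).trans_le a) b) j y r hy
      (min_le_left _ _)
    refine this.trans (mul_le_mul_of_nonneg_right ?_ (sq_nonneg _))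
    exact Finset.single_le_sum (f := fun j => Cm j * ((mm j).real univ + 2 * (C1 * A)))
      (fun j _ => mul_nonneg (hCm j) (add_nonneg measureReal_nonneg (by positivity)))
      (Finset.mem_univ j)
  · have a1 : C1 * κ * L ^ (k + 2) ≤ 1 / 4 := by
      rw [hκ]
      have : C1 * (1 / (4 * (C1 + 1) * L ^ (k + 2))) * L ^ (k + 2) = C1 / (4 * (C1 + 1)) := by
        field_simp
      rw [this, div_le_iff₀ (by positivity)]; linarith
    have a2 : C1 * (L ^ (k + 3))⁻¹ * L ^ (k + 2) ≤ 1 / 4 := by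
      have : C1 * (L ^ (k + 3))⁻¹ * L ^ (k + 2) = C1 / L := by field_simp; ring
      rw [this, div_le_iff₀ (by positivity)]; linarith
    linarith [add_mul (C1 * κ) (C1 * (L ^ (k + 3))⁻¹) (L ^ (k + 2))]
  · intro ε β hε hε1 hβ hb
    have ht : 0 < ε / L := by positivity
    have ht1 : ε / L ≤ ε1 := (div_le_self hε.le hL1).trans hε1
    obtain ⟨Θ, hΘ, -⟩ := thk (ε / L) s _ ht (ht1.trans he3) (by positivity) hs
      (hcr s Λ hΛ hord).1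
    have := hrec L ε β s Θ (by linarith) hε (hε1.trans he4) (ht1.trans he3) hβ hs hI hΘ
      (hb _ le_rfl ht1)
    intro j
    refine h1.lbd_mono (this j) ?_
    have := mul_le_mul_of_nonneg_left (ha _ β Θ ht ht1 hβ hb hΘ) hC1
    simp only [pow_zero, inv_one, mul_one]
    linarith

end Vale.Agent.P247
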