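import Vale.Agent.P247.Key0

/-! The a priori estimate for the anti-invariant part of a current killing exact forms. -/

set_option maxSynthPendingDepth 3
set_option linter.unusedSectionVars false

open scoped Topology ContDiff RealInnerProductSpace Manifold
open Set Metric MeasureTheory Filter

noncomputable section
namespace Vale.Agent.P247

open Vale.Agent.P204

variable {X : Type*} [TopologicalSpace X] [T2Space X] {D : Dat X} {K : Ker D}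

def DE0S (D : Dat X) (w : Fin 3 → Form X) : Prop :=
  ∀ k k' : ℕ, ∃ C, 0 ≤ C ∧ ∀ τ s Λ, 0 ≤ Λ → D.Fn τ → D.Fn s → D.Ord τ k 1 → D.OrdM s k' Λ →
    KillsE D (fun α => τ α + s α) → (∀ i, τ (w i) + s (w i) = 0) →
    ∀ γ, D.Sm γ → |s γ| ≤ C * D.nrmm (k + 5) γ

lemma sum_sq_le {a : Fin 3 → ℝ} {e : ℝ} (h : ∀ i, |a i| ≤ e) : ∑ i, a i ^ 2 ≤ 3 * e ^ 2 := by
  have : ∀ i, a i ^ 2 ≤ e ^ 2 := fun i => by
    rw [← sq_abs]; exact pow_le_pow_left₀ (abs_nonneg _) (h i) 2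
  rw [Fin.sum_univ_three]
  linarith [this 0, this 1, this 2]

lemma minus_le0 (h4 : HilS D) {Θτ Θs : D.H} {e : ℝ} (he : 0 ≤ e)
    (h0 : D.qH (Θτ + Θs) (Θτ + Θs) ≤ 3 * e ^ 2) :
    ‖D.mapH Pm Θs‖ ≤ 2 * ‖Θτ‖ + ‖D.mapH Po Θs‖ + 2 * e := by
  have h1 := h4.qH_self (Θτ + Θs)
  have h3 : ‖D.mapH Pm (Θτ + Θs)‖ ≤ ‖D.mapH Po (Θτ + Θs)‖ + 2 * e := by
    refine (pow_le_pow_iff_left₀ (norm_nonneg _) (by positivity) two_ne_zero).mp ?_
    nlinarith [mul_nonneg (norm_nonneg (D.mapH Po (Θτ + Θs))) he, sq_nonneg e]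
  rw [h4.map_add, h4.map_add] at h3
  have h5 := norm_add_le (D.mapH Po Θτ) (D.mapH Po Θs)
  have h7 := norm_sub_le (D.mapH Pm Θτ + D.mapH Pm Θs) (D.mapH Pm Θτ)
  rw [add_sub_cancel_left] at h7
  have h8 := h4.proj Θτ
  linarith [h8.1, h8.2.1]

theorem de0S (h1 : NkS) (h2 : FormS D) (h3 : SemS D) (h4 : HilS D) (h5 : MS K)
    (h7 : StepS K) (h8 : LeakS K) (io : IotaS D) (ap : AppS K) (cs : ClosS K)
    {w : Fin 3 → Form X} (hw : Tri D w) : DE0S D w := by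
  intro k k'
  obtain ⟨q, hq1, hq2⟩ : ∃ q : ℕ, k + 4 ≤ q ∧ k' + 2 ≤ q := ⟨k + k' + 4, by omega, by omega⟩
  obtain ⟨C1, hC1, hcr1⟩ := h3.crude k'
  obtain ⟨C2, hC2, hcr2⟩ := h1.crude
  obtain ⟨Ct0, hCt0, hth⟩ := h5.theta k
  obtain ⟨E1, hE1, he1⟩ := err_ord3 h2 h5 ap hw.sm k
  obtain ⟨E2, hE2, he2⟩ := err_bd3 h1 h2 h3 h5 ap hw.sm (q + 1)
  obtain ⟨Ct, hCt, hCt'⟩ : ∃ Ct : ℝ, 0 ≤ Ct ∧ Ct = Ct0 + E1 := ⟨_, by positivity, rfl⟩
  obtain ⟨Cs, -, hths⟩ := h5.theta k'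
  obtain ⟨Cr, L0, hCr, hL0, hrec⟩ := h7.recur (q + 1)
  obtain ⟨Cl0, hCl0, hleak⟩ := h8.leak (q + 1)
  obtain ⟨Cl, hCl, hCl'⟩ : ∃ Cl : ℝ, 0 ≤ Cl ∧ Cl = Cl0 + 2 * E2 := ⟨_, by positivity, rfl⟩
  obtain ⟨L, hL1, hL2⟩ : ∃ L : ℝ, L0 ≤ L ∧ 4 * Cr ≤ L :=
    ⟨max L0 (4 * Cr), le_max_left _ _, le_max_right _ _⟩
  have hL : 1 ≤ L := hL0.trans hL1
  have hLp : 0 < L := by linarith
  obtain ⟨ε1, hε1, hε1a, hε1b⟩ : ∃ ε1 : ℝ, 0 < ε1 ∧ ε1 ≤ K.ε0 ∧ Cr * Cl * L ^ q * ε1 ≤ 1 / 4 := by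
    have h0 : 0 ≤ Cr * Cl * L ^ q := by positivity
    refine ⟨min K.ε0 (1 / (4 * (Cr * Cl * L ^ q + 1))), lt_min K.pos (by positivity),
      min_le_left _ _, ?_⟩
    have h9 := min_le_right K.ε0 (1 / (4 * (Cr * Cl * L ^ q + 1)))
    have h10 : 0 < min K.ε0 (1 / (4 * (Cr * Cl * L ^ q + 1))) := lt_min K.pos (by positivity)
    rw [le_div_iff₀ (by positivity)] at h9
    nlinarith
  have hε1c : ε1 ≤ 1 := by linarith [DEA.eps_le K]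
  obtain ⟨Cp, hCp, hrep⟩ := h7.rep (k + 4) k' ε1 hε1 hε1a
  set A : ℝ := 2 * Cr * Ct * L ^ (k + 4) with hA
  have hA0 : 0 ≤ A := by positivity
  refine ⟨Cp * (2 * Ct + 2 * Cl * A), by positivity, fun τ s Λ hΛ hτ hs hτo hso hZ hW γ hγ => ?_⟩
  have hI := h2.killsI s k' Λ hso
  obtain ⟨hord, hsj⟩ := hcr1 s Λ hΛ hso
  have main : ∀ t, 0 < t → t ≤ K.ε0 → ∃ Θ, K.IsTh t s Θ ∧ ∀ β, 0 ≤ β → D.Bd s (q + 1) t β →
      ‖D.mapH Pm Θ‖ ≤ 2 * Ct * (t ^ (k + 4))⁻¹ + Cl * t * β := by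
    intro t ht ht'
    obtain ⟨Θτ, a1, a2⟩ := hth t τ 1 ht ht' zero_le_one hτ hτo
    obtain ⟨Θs, b1, -⟩ := hths t s (C1 * Λ) ht ht' (by positivity) hs hord
    refine ⟨Θs, b1, fun β hβ hb => ?_⟩
    have c0 := keyI h2 h4 io cs hw ht ht' (fn_add hτ hs) hZ.killsD (isTh_add h4 a1 b1)
    have c1 := minus_le0 h4 (e := E1 * t + E2 * t * β) (by positivity)
      (c0.trans (sum_sq_le fun i => by
        have d1 := abs_le.1 (he1 i t 1 τ Θτ ht ht' zero_le_one hτ hτo a1)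
        have d2 := abs_le.1 (he2 i t β s Θs ht ht' hβ hs hI hb b1)
        rw [h4.qH_add]
        exact abs_le.2 ⟨by linarith [hW i, d1.1, d2.1], by linarith [hW i, d1.2, d2.2]⟩))
    have c2 := hleak t β s Θs ht ht' hβ hs hI b1 hb
    have t1 : t ≤ 1 := by linarith [DEA.eps_le K]
    have c3 : t ≤ (t ^ (k + 4))⁻¹ :=
      t1.trans (one_le_inv₀ (by positivity) |>.2 (pow_le_one₀ ht.le t1))
    have c4 := mul_le_mul_of_nonneg_left c3 hE1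
    rw [mul_one] at a2
    rw [hCt', hCl']
    linarith
  have hκ : (Cr * Cl * ε1 + Cr * (L ^ (q + 1))⁻¹) * L ^ q ≤ 1 / 2 := by
    have e1 : Cr * (L ^ (q + 1))⁻¹ * L ^ q = Cr / L := by
      field_simp
      ring
    have e2 : Cr / L ≤ 1 / 4 := by
      rw [div_le_iff₀ hLp]
      linarith
    rw [add_mul, e1]
    linarith
  have hbd := h1.close (fun ε β => D.Bd s (q + 1) ε β) ε1 L (Cr * Cl * ε1 + Cr * (L ^ (q + 1))⁻¹)
    A (C2 * (C1 * Λ)) (k + 4) q hε1 hL (by positivity) hA0 (by positivity) hq1 hκ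
    (fun ε β β' hb hβ j => h1.lbd_mono (hb j) hβ)
    (fun ε β hb j => h1.lbd_lim fun η hη => hb η hη j)
    (fun ε hε hε' j => by
      refine h1.lbd_mono (hcr2 (D.sj s j) k' (q + 1) (C1 * Λ) ε (by positivity) (by omega) hε
        (hε'.trans hε1c) (hsj j)) (mul_le_mul_of_nonneg_left ?_ (by positivity))
      exact inv_anti₀ (by positivity) (pow_le_pow_of_le_one hε.le (hε'.trans hε1c) hq2))
    (fun ε β hε hε' hβ hall j => by
      have ht : 0 < ε / L := by positivity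
      have ht1 : ε / L ≤ ε1 := (div_le_self hε.le hL).trans hε'
      obtain ⟨Θ, a1, a2⟩ := main (ε / L) ht (ht1.trans hε1a)
      have hb := hall (ε / L) le_rfl ht1
      have a3 := a2 β hβ hb
      refine h1.lbd_mono (hrec L ε β s Θ hL1 hε (hε'.trans hε1c) (ht1.trans hε1a) hβ hs hI a1 hb j)
        ?_
      have a4 : Cl * (ε / L) * β ≤ Cl * ε1 * β :=
        mul_le_mul_of_nonneg_right (mul_le_mul_of_nonneg_left ht1 hCl) hβ
      have a5 : ((ε / L) ^ (k + 4))⁻¹ = L ^ (k + 4) * (ε ^ (k + 4))⁻¹ := by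
        rw [div_pow, inv_div, div_eq_mul_inv]
      rw [a5] at a3
      have a6 := mul_le_mul_of_nonneg_left (a3.trans (add_le_add le_rfl a4)) hCr
      rw [hA]
      linarith)
  have hfin := hrep s Λ (2 * Ct + 2 * Cl * A) hΛ (by positivity) hs hso (fun t ht ht' => by
    obtain ⟨Θ, a1, a2⟩ := main t ht (ht'.trans hε1a)
    refine ⟨Θ, a1, (a2 _ (by positivity) (hbd t ht ht')).trans ?_⟩
    have a3 : 0 ≤ Cl * (2 * A * (t ^ (k + 4))⁻¹) := by positivity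
    have a4 := mul_le_mul_of_nonneg_left (ht'.trans hε1c) a3
    linarith)
  rw [h2.s_sum s γ hs hI hγ]
  refine (Finset.abs_sum_le_sum_abs _ _).trans ?_
  unfold Dat.nrmm
  rw [Finset.mul_sum]
  exact Finset.sum_le_sum fun j _ => hfin j _ (h2.cj_cc j γ hγ)

end Vale.Agent.P247
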