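import Vale.Agent.P204.Statement

/-! Hypersymplectic structures on an oriented four-manifold, in charts. -/

open scoped Manifold ContDiff
open MeasureTheory

noncomputable section
namespace Vale.Agent.P247.St

open Vale.Agent.P204.St

section
variable (E : Type*) [NormedAddCommGroup E] [NormedSpace ℝ E]
variable (X : Type*) [TopologicalSpace X] [ChartedSpace E X]

/-- a field of continuous linear forms on the tangent spaces -/
def OneTensor := ∀ x : X, TangentSpace 𝓘(ℝ, E) x →L[ℝ] ℝ

/-- a field of alternating four-linear forms on the tangent spaces -/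
def FourForm := ∀ x : X, AlternatingMap ℝ (TangentSpace 𝓘(ℝ, E) x) ℝ (Fin 4)
end

section
variable {E : Type*} [NormedAddCommGroup E] [NormedSpace ℝ E]
variable {X : Type*} [TopologicalSpace X] [ChartedSpace E X]

/-- the number `η(u)` at the point `x` -/
def OneTensor.val (η : OneTensor E X) (x : X) (u : TangentSpace 𝓘(ℝ, E) x) : ℝ := η x u

/-- the number `μ(v₀, v₁, v₂, v₃)` at the point `x` -/
def FourForm.val (μ : FourForm E X) (x : X) (v : Fin 4 → TangentSpace 𝓘(ℝ, E) x) : ℝ := μ x v

/-- the coefficient `η(a)` in the chart at `p`, as a function of the coordinates -/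
def oneCoord (η : OneTensor E X) (p : X) (a y : E) : ℝ :=
  η.val ((chartAt E p).symm y) (coordVec p a y)

/-- the coefficient `μ(a₀, a₁, a₂, a₃)` in the chart at `p`, as a function of the coordinates -/
def fourCoord (μ : FourForm E X) (p : X) (a : Fin 4 → E) (y : E) : ℝ :=
  μ.val ((chartAt E p).symm y) (fun i => coordVec p (a i) y)

/-- smooth nowhere vanishing four-form -/
def IsVolumeForm (μ : FourForm E X) : Prop :=
  (∀ x, ∃ v, μ.val x v ≠ 0) ∧ ∀ p a, ContDiffOn ℝ ∞ (fourCoord μ p a) (chartAt E p).target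

/-- the wedge product of two two-forms, evaluated on four vectors -/
def wedge (α β : TwoTensor E X) (x : X) (v : Fin 4 → TangentSpace 𝓘(ℝ, E) x) : ℝ :=
  α.val x (v 0) (v 1) * β.val x (v 2) (v 3) - α.val x (v 0) (v 2) * β.val x (v 1) (v 3)
    + α.val x (v 0) (v 3) * β.val x (v 1) (v 2) + α.val x (v 1) (v 2) * β.val x (v 0) (v 3)
    - α.val x (v 1) (v 3) * β.val x (v 0) (v 2) + α.val x (v 2) (v 3) * β.val x (v 0) (v 1)

/-- `w_i ∧ w_j = 2 Q_ij μ` -/
def IsGram (μ : FourForm E X) (w : Fin 3 → TwoTensor E X) (Q : X → Matrix (Fin 3) (Fin 3) ℝ) :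
    Prop :=
  ∀ x i j v, wedge (w i) (w j) x v = 2 * Q x i j * μ.val x v

/-- three smooth closed two-forms with positive definite matrix `Q` at every point -/
def IsHypersymplectic (μ : FourForm E X) (w : Fin 3 → TwoTensor E X) : Prop :=
  (∀ i, IsSmoothTwoForm (w i) ∧ IsClosedTwoForm (w i)) ∧
    ∃ Q : X → Matrix (Fin 3) (Fin 3) ℝ, IsGram μ w Q ∧ ∀ x, (Q x).PosDef

/-- `α - β = dη` for a smooth one-form `η` -/
def Cohomologous (α β : TwoTensor E X) : Prop :=
  ∃ η : OneTensor E X, (∀ p a, ContDiffOn ℝ ∞ (oneCoord η p a) (chartAt E p).target) ∧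
    ∀ p, ∀ y ∈ (chartAt E p).target, ∀ a b : E, formCoord α p a b y - formCoord β p a b y
      = dirDeriv (oneCoord η p b) y a - dirDeriv (oneCoord η p a) y b

/-- the coefficient of a family of two-forms, as a function of time and coordinates -/
def familyCoord (Ω : ℝ → Fin 3 → TwoTensor E X) (i : Fin 3) (p : X) (a b : E) (q : ℝ × E) : ℝ :=
  formCoord (Ω q.1 i) p a b q.2

/-- a family of hypersymplectic structures for `0 ≤ t ≤ 1`, smooth in `(t, x)`, starting at `w`,
in the cohomology classes of `w` -/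
def IsCohomologousDeformation (μ : FourForm E X) (w : Fin 3 → TwoTensor E X)
    (Ω : ℝ → Fin 3 → TwoTensor E X) : Prop :=
  (∀ i p a b, ContDiffOn ℝ ∞ (familyCoord Ω i p a b) (Set.Icc 0 1 ×ˢ (chartAt E p).target)) ∧
    Ω 0 = w ∧ ∀ t ∈ Set.Icc (0 : ℝ) 1,
      IsHypersymplectic μ (Ω t) ∧ ∀ i, Cohomologous (Ω t i) (w i)

/-- `∫ α ∧ β = c`, where `m` is the measure of the volume form `μ` -/
def WedgeIntegral [MeasurableSpace X] (μ : FourForm E X) (m : Measure X) (α β : TwoTensor E X)
    (c : ℝ) : Prop :=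
  ∃ f : X → ℝ, (∀ x v, wedge α β x v = f x * μ.val x v) ∧ ∫ x, f x ∂m = c

/-- Gram matrix equal to the identity -/
def IsNormalized [MeasurableSpace X] (μ : FourForm E X) (m : Measure X)
    (w : Fin 3 → TwoTensor E X) : Prop :=
  ∀ i j, WedgeIntegral μ m (w i) (w j) (if i = j then 1 else 0)

/-- the intersection form is negative semidefinite on the orthogonal complement of the three
classes, that is `b₂⁺ = 3` -/
def BPlusThree [MeasurableSpace X] (μ : FourForm E X) (m : Measure X)
    (w : Fin 3 → TwoTensor E X) : Prop :=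
  ∀ γ : TwoTensor E X, IsSmoothTwoForm γ → IsClosedTwoForm γ →
    (∀ i, WedgeIntegral μ m γ (w i) 0) → ∀ c, WedgeIntegral μ m γ γ c → c ≤ 0
end

/-- the standard basis of `ℝ⁴` -/
def stdFrame (i : Fin 4) : EuclideanSpace ℝ (Fin 4) := EuclideanSpace.single i 1

/-- `m` is the measure of the volume form `μ`: in every chart it has density `|μ(e₀, …, e₃)|` with
respect to Lebesgue measure -/
def IsVolumeMeasure {X : Type*} [TopologicalSpace X] [ChartedSpace (EuclideanSpace ℝ (Fin 4)) X]
    [MeasurableSpace X] (μ : FourForm (EuclideanSpace ℝ (Fin 4)) X) (m : Measure X) : Prop :=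
  ∀ (p : X) (S : Set (EuclideanSpace ℝ (Fin 4))), MeasurableSet S →
    S ⊆ (chartAt (EuclideanSpace ℝ (Fin 4)) p).target →
    m ((chartAt (EuclideanSpace ℝ (Fin 4)) p).symm '' S)
      = ∫⁻ y in S, ENNReal.ofReal |fourCoord μ p stdFrame y|

end Vale.Agent.P247.St
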