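import Vale.Agent.P204.Bridge
import Vale.Agent.P247.Statement

/-! Definitions and intermediate statements. Each statement is proved in its own file. -/

set_option maxSynthPendingDepth 3

open scoped Topology ContDiff RealInnerProductSpace Manifold
open Set Metric MeasureTheory Filter

noncomputable section
namespace Vale.Agent.P247

open Vale.Agent.P204 Vale.Agent.P204.Bridge

/-! ### pointwise linear algebra -/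

def CS (J : End) : Prop := ∀ v, J (J v) = -v
def TameP (J : End) (c : E6) : Prop := ∀ v, v ≠ 0 → 0 < ap c v (J v)
def InvP (J : End) (c : E6) : Prop := ∀ u v, ap c (J u) (J v) = ap c u v
def AntiP (J : End) (c : E6) : Prop := ∀ u v, ap c (J u) (J v) = -ap c u v

/-- the wedge product, multiplied by `r`, is positive definite on the triple -/
def PD (r : ℝ) (w : Fin 3 → E6) : Prop :=
  ∀ v : Fin 3 → ℝ, v ≠ 0 → 0 < r * wq (∑ i, v i • w i) (∑ i, v i • w i)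

/-- the complex structure of a definite triple -/
def LinJS : Prop :=
  ∃ Jf : (Fin 3 → E6) → End,
    (∀ r w, PD r w → CS (Jf w) ∧ TameP (Jf w) (w 0) ∧ AntiP (Jf w) (w 1) ∧ AntiP (Jf w) (w 2)) ∧
    (∀ r w (L : V ≃L[ℝ] V), PD r w → Jf (fun i => pull (L : End) (w i))
      = (L.symm : End).comp ((Jf w).comp (L : End))) ∧
    ContDiffOn ℝ ∞ Jf {w | ∃ r, PD r w}

structure LinS : Prop where
  swap : ∀ (J : End) (r : ℝ) (c c' a b : E6), CS J → AntiP J a → AntiP J b → TameP J c' →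
    PD r ![c, a, b] → PD r ![c', a, b]
  orth : ∀ (J : End) (c a : E6), CS J → InvP J c → AntiP J a → wq c a = 0
  tame0 : ∀ c : E6, TameP J0 c ↔ ‖Pa c‖ < c 0
  nonneg0 : ∀ c : E6, (∀ v : V, ‖v‖ = 1 → 0 ≤ ap c v (J0 v)) ↔ ‖Pa c‖ ≤ c 0
  tameF : ∀ (F : Frame) (y : V) (c : E6), TameP (F.J y) c ↔ ‖Pa (pull (F.Ai y) c)‖ < pull (F.Ai y) c 0
  nonnegF : ∀ (F : Frame) (y : V) (c : E6), (∀ v : V, ‖v‖ = 1 → 0 ≤ ap c v (F.J y v)) ↔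
    ‖Pa (pull (F.Ai y) c)‖ ≤ pull (F.Ai y) c 0
  invF : ∀ (F : Frame) (y : V) (c : E6), InvP (F.J y) c ↔ Pm (pull (F.Ai y) c) = 0
  antiF : ∀ (F : Frame) (y : V) (c : E6), AntiP (F.J y) c ↔ Po (pull (F.Ai y) c) = 0
  rcs : ∀ g h : E6, ‖Pa g‖ ≤ g 0 → ‖Pa h‖ ≤ h 0 → Pm g = 0 → Pm h = 0 →
    0 ≤ wq g h ∧ wq g g * wq h h ≤ wq g h ^ 2
  dual : ∀ (g : E6) (s : ℝ), 0 < s → Pm g = 0 →
    (∀ u : E6, ‖Pa u‖ ≤ u 0 → Pm u = 0 → s * √(wq u u) ≤ wq g u) → ‖Pa g‖ < g 0 ∧ s ^ 2 ≤ wq g g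
  pos : ∀ (F : Frame) (y : V) (c : E6), TameP (F.J y) c → 0 < wq c c
  mono : ∀ (F : Frame) (y : V) (g g' : E6), InvP (F.J y) g → InvP (F.J y) g' →
    (∀ v : V, ‖v‖ = 1 → 0 ≤ ap g' v (F.J y v)) →
    (∀ v : V, ‖v‖ = 1 → ap g' v (F.J y v) ≤ ap g v (F.J y v)) → wq g' g' ≤ wq g g
  conv : ∀ (F : Frame) (y : V) (g g' : E6) (s a b : ℝ), InvP (F.J y) g → InvP (F.J y) g' →
    TameP (F.J y) g → TameP (F.J y) g' → s ≤ wq g g → s ≤ wq g' g' → 0 ≤ a → 0 ≤ b → a + b = 1 →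
    s ≤ wq (a • g + b • g') (a • g + b • g')

/-- separation of an affine space from a convex set -/
def SepS.{u} : Prop :=
  ∀ {Y : Type} [TopologicalSpace Y] [CompactSpace Y] {Ω : Type u} [AddCommGroup Ω] [Module ℝ Ω]
    (N : Ω → ℝ) (Z : Submodule ℝ Ω) (hat : Ω →ₗ[ℝ] C(Y, ℝ)) (w : Ω) (K : Set C(Y, ℝ))
    (φ0 : C(Y, ℝ)) (η : ℝ), (∀ x, 0 ≤ N x) → (∀ x y, N (x + y) ≤ N x + N y) →
    (∀ (c : ℝ) x, N (c • x) = |c| * N x) → Convex ℝ K → φ0 ∈ K → 0 < η →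
    (¬ ∃ z ∈ Z, ∃ φ ∈ K, φ ≤ hat (w + z) ∧ N (w + z) ≤ η) →
    ∃ (L : C(Y, ℝ) →ₗ[ℝ] ℝ) (s : Ω →ₗ[ℝ] ℝ) (Λ : ℝ), 0 ≤ Λ ∧ (∀ φ, 0 ≤ φ → 0 ≤ L φ) ∧
      (∀ α, |s α| ≤ Λ * N α) ∧ (∀ z ∈ Z, L (hat z) + s z = 0) ∧
      (∀ φ ∈ K, L (hat w) + s w ≤ L φ) ∧ L (hat w) + s w + 1 ≤ L φ0 + L 1

/-- the smoothed density of a singular measure tends to zero in measure -/
def SingS : Prop :=
  ∀ (μ : Measure (V × V)) (ν : Measure V) (N : Set V) (C0 δ : ℝ), IsFiniteMeasure μ →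
    IsFiniteMeasure ν → ν ≪ volume → volume N = 0 → (∀ᵐ p ∂μ, p.1 ∈ N) → 0 < C0 → 0 < δ →
    Tendsto (fun t => ν.real {y | δ < tau μ C0 t y}) (𝓝[>] 0) (𝓝 0)

/-- radial primitives -/
structure PoiS : Prop where
  two : ∃ P : V → (V → E6) → V → Cov,
    (∀ c β β', Continuous β → Continuous β' → P c (β + β') = P c β + P c β') ∧
    (∀ c (a : ℝ) β, P c (a • β) = a • P c β) ∧
    (∀ c β, ContDiff ℝ ∞ β → ContDiff ℝ ∞ (P c β)) ∧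
    (∀ c β (r B : ℝ), (∀ z ∈ ball c r, ‖β z‖ ≤ B) → ∀ y ∈ ball c r, ‖P c β y‖ ≤ 2 * r * B) ∧
    ∀ c β (r : ℝ), ContDiff ℝ ∞ β → (∀ z ∈ ball c r, ∀ u v w, cyc β z u v w = 0) →
      ∀ y ∈ ball c r, d1 (P c β) y = β y
  one : ∃ L : V → (V → Cov) → V → ℝ,
    (∀ c (r : ℝ) b b', ContinuousOn b (ball c r) → ContinuousOn b' (ball c r) →
      ∀ y ∈ ball c r, L c (b + b') y = L c b y + L c b' y) ∧
    (∀ c (a : ℝ) b y, L c (a • b) y = a * L c b y) ∧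
    (∀ c b, L c b c = 0) ∧
    (∀ c b (r B : ℝ), (∀ z ∈ ball c r, ‖b z‖ ≤ B) → ∀ y ∈ ball c r, |L c b y| ≤ r * B) ∧
    ∀ c b (r : ℝ), ContDiffOn ℝ ∞ b (ball c r) → (∀ z ∈ ball c r, d1 b z = 0) →
      ContDiffOn ℝ ∞ (L c b) (ball c r) ∧ ∀ y ∈ ball c r, HasFDerivAt (L c b) (b y) y

/-! ### statements about an atlas -/

section atlas
variable {X : Type*} [TopologicalSpace X]

/-- intersection pairing -/
def II (D : Dat X) (α β : Form X) : ℝ := D.qH (D.iota α) (D.iota β)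
def KillsE (D : Dat X) (R : Form X → ℝ) : Prop := ∀ j b, Cc 6 b → R (D.ext j (d1 b)) = 0
def Anti (D : Dat X) (α : Form X) : Prop := ∀ x, AntiP (D.J x) (α x)
/-- closed forms orthogonal to all closed forms -/
def Null (D : Dat X) (α : Form X) : Prop :=
  D.Sm α ∧ D.Cl α ∧ ∀ γ, D.Sm γ → D.Cl γ → II D α γ = 0

structure Tri (D : Dat X) (w : Fin 3 → Form X) : Prop where
  sm : ∀ i, D.Sm (w i)
  cl : ∀ i, D.Cl (w i)
  tm : D.Tm (w 0)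
  a1 : Anti D (w 1)
  a2 : Anti D (w 2)
  on : ∀ i j, II D (w i) (w j) = if i = j then 1 else 0
  sig : ∀ γ, D.Sm γ → D.Cl γ → (∀ i, II D γ (w i) = 0) → II D γ γ ≤ 0

/-- compatible forms whose square is at least `κ ρ²` -/
def InK (D : Dat X) (ρ : Form X) (κ : ℝ) (β : Form X) : Prop :=
  D.Sm β ∧ D.Inv β ∧ D.Tm β ∧ ∀ j y, ‖y‖ ≤ 1 →
    κ * wq (D.loc j ρ y) (D.loc j ρ y) ≤ wq (D.loc j β y) (D.loc j β y)

structure IotaS (D : Dat X) : Prop where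
  add : ∀ α β, D.Sm α → D.Sm β → D.iota (α + β) = D.iota α + D.iota β
  smul : ∀ (c : ℝ) α, D.Sm α → D.iota (c • α) = c • D.iota α
  bd : ∃ C, 0 ≤ C ∧ ∀ α (B : ℝ), D.Sm α → 0 ≤ B → (∀ j y, ‖y‖ ≤ 2 → ‖D.loc j α y‖ ≤ B) →
    ‖D.iota α‖ ≤ C * B
  eq : ∀ α β, D.Sm α → D.Sm β →
    II D α β = ∑ j, ∫ y, D.psi j y * wq (D.loc j α y) (D.loc j β y)
  stokes : ∀ j b γ, Cc 6 b → D.Sm γ → D.Cl γ → II D (D.ext j (d1 b)) γ = 0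
  anti_po : ∀ α, D.Sm α → Anti D α → D.mapH Po (D.iota α) = 0
  anti_bd : ∀ w, D.Sm w → Anti D w → ∃ C, 0 ≤ C ∧ ∀ α, D.Sm α → |II D α w| ≤ C * D.nrmm 0 α
  po_pos : ∀ α, D.Sm α → D.Tm α → II D α α ≠ 0 → 2 * ‖D.mapH Pm (D.iota α)‖ ^ 2 < II D α α
  sq_bd : ∀ ρ, D.Sm ρ → D.Tm ρ → ∃ B, ∀ j, ∀ᵐ y ∂(D.nu j),
    0 ≤ wq (D.iota ρ j y) (D.iota ρ j y) ∧ wq (D.iota ρ j y) (D.iota ρ j y) ≤ B
  T_anti : ∀ m α, (∀ j, PM 1 (m j)) → Anti D α → D.T m α = 0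
  T_nn : ∀ m α, (∀ j, PM 1 (m j)) → D.Tm α → 0 ≤ D.T m α

/-- approximation of smooth forms by the smoothing operator -/
def AppS {D : Dat X} (K : Ker D) : Prop :=
  ∀ α k, D.Sm α → ∃ C, 0 ≤ C ∧ ∀ ε, 0 < ε → ε ≤ K.ε0 → D.nrm k (K.M ε (D.iota α) - α) ≤ C * ε

/-- uniform bound for the smoothing operator -/
def MbdS {D : Dat X} (K : Ker D) : Prop :=
  ∃ C, 0 ≤ C ∧ ∀ ε h, 0 < ε → ε ≤ K.ε0 → ‖D.iota (K.M ε h)‖ ≤ C * ‖h‖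

/-- the representative of a closed current is a limit of smooth closed forms -/
def ClosS {D : Dat X} (K : Ker D) : Prop :=
  ∀ ε R Θ, 0 < ε → ε ≤ K.ε0 → D.Fn R → D.KillsD R → K.IsTh ε R Θ → ∀ η, 0 < η →
    ∃ γ, D.Sm γ ∧ D.Cl γ ∧ ‖Θ - D.iota γ‖ ≤ η

/-- almost positivity at scale `t` -/
def AP (C t τ : ℝ) (g : E6) : Prop :=
  ‖g‖ ≤ C * τ ∧ ‖Pm g‖ ≤ C * t * τ ∧ ‖Pa g‖ ≤ g 0 + C * t ^ 2 * τ

/-- choice of a test form adapted to an almost positive element -/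
def AdS (D : Dat X) : Prop :=
  ∀ (σ : Fin D.n → V → ℝ) (B C W r η : ℝ), (∀ j, AEStronglyMeasurable (σ j) (D.nu j)) →
    (∀ j, ∀ᵐ y ∂(D.nu j), 0 ≤ σ j y ∧ σ j y ≤ B) → ∑ j, ∫ y, σ j y ∂(D.nu j) ≤ 1 →
    0 ≤ C → 0 ≤ W → 0 ≤ r → 0 < η → ∃ δ, 0 < δ ∧
    ∀ (t : ℝ) (θ0 θs : D.H) (τ0 τs : Fin D.n → V → ℝ), 0 < t → t ≤ δ →
      (∀ j, Measurable (τ0 j) ∧ Measurable (τs j)) → (∀ j y, 0 ≤ τ0 j y ∧ 0 ≤ τs j y) →
      (∀ j, Integrable (τ0 j) (D.nu j) ∧ Integrable (τs j) (D.nu j) ∧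
        Integrable (fun y => τ0 j y * τ0 j y) (D.nu j) ∧
        Integrable (fun y => τs j y * τs j y) (D.nu j)) →
      (∀ j, ∫ y, τ0 j y ∂(D.nu j) ≤ W ∧ ∫ y, τs j y ∂(D.nu j) ≤ W ∧
        t ^ 2 * ∫ y, τ0 j y * τ0 j y ∂(D.nu j) ≤ δ ∧ t ^ 2 * ∫ y, τs j y * τs j y ∂(D.nu j) ≤ W ∧
        (D.nu j).real {y | δ < τs j y} ≤ δ) →
      (∀ j, ∀ᵐ y ∂(D.nu j), AP C t (τ0 j y) (θ0 j y) ∧ AP C t (τs j y) (θs j y)) →
      D.qH θ0 θ0 ≤ r ^ 2 + δ → D.qH (θ0 + θs) (θ0 + θs) ≤ W →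
      ∃ h : D.H, (∀ j, ∀ᵐ y ∂(D.nu j), Pm (h j y) = 0 ∧ ‖Pa (h j y)‖ ≤ h j y 0 ∧
        σ j y ≤ wq (h j y) (h j y) ∧ ‖h j y‖ ≤ η / t) ∧ D.qH (θ0 + θs) h ≤ r + η

/-- the chart expression of an element in the cone is in the cone -/
def HatKS (D : Dat X) : Prop :=
  ∃ C, 0 ≤ C ∧ ∀ (ρ : Form X) (h : D.H) (B : ℝ), D.Sm ρ → D.Tm ρ → 0 ≤ B →
    (∀ j, ∀ᵐ y ∂(D.nu j), Pm (h j y) = 0 ∧ ‖Pa (h j y)‖ ≤ h j y 0 ∧
      wq (D.iota ρ j y) (D.iota ρ j y) ≤ wq (h j y) (h j y) ∧ ‖h j y‖ ≤ B) →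
    ∀ i, ∀ᵐ y : V, ‖y‖ ≤ 2 → Pm (pull ((D.F i).Ai y) (D.hat i h y)) = 0 ∧
      ‖Pa (pull ((D.F i).Ai y) (D.hat i h y))‖ ≤ pull ((D.F i).Ai y) (D.hat i h y) 0 ∧
      wq (D.loc i ρ y) (D.loc i ρ y) ≤ wq (D.hat i h y) (D.hat i h y) ∧ ‖D.hat i h y‖ ≤ C * B

/-- smoothing in one chart almost preserves the cone -/
def KopKS : Prop :=
  ∀ (F : Frame) (Hs : V × V × ℝ → Op) (C0 ε0 Cc : ℝ) (σ : V → ℝ), ScF Hs C0 → 1 ≤ C0 → 0 < ε0 →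
    C0 * ε0 ≤ 1 / 2 → (∀ ε, 0 < ε → ε ≤ ε0 → Cone F (ksc Hs ε) Cc ε) →
    ContDiffOn ℝ ∞ σ (ball 0 3) → (∀ y, ‖y‖ ≤ 2 → 0 < σ y) →
    ∃ C, 0 ≤ C ∧ ∀ (t B : ℝ) (g : V → E6), 0 < t → t ≤ ε0 → 0 ≤ B → Integrable g →
      (∀ᵐ y : V, ‖y‖ ≤ 2 → Pm (pull (F.Ai y) (g y)) = 0 ∧
        ‖Pa (pull (F.Ai y) (g y))‖ ≤ pull (F.Ai y) (g y) 0 ∧ σ y ≤ wq (g y) (g y) ∧ ‖g y‖ ≤ B) →
      ∀ z, ‖z‖ ≤ 1 → ∃ g0 : E6, Pm (pull (F.Ai z) g0) = 0 ∧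
        ‖Pa (pull (F.Ai z) g0)‖ ≤ pull (F.Ai z) g0 0 ∧ σ z ≤ wq g0 g0 ∧
        ‖(∫ y, ksc Hs t y z (g y)) - g0‖ ≤ C * t * B

/-- smoothing almost preserves the cone -/
def SmKS {D : Dat X} (K : Ker D) : Prop :=
  ∀ ρ, D.Sm ρ → D.Inv ρ → D.Tm ρ → ∃ C, 0 ≤ C ∧ ∀ (t B : ℝ) (h : D.H), 0 < t → t ≤ K.ε0 → 0 ≤ B →
    (∀ j, ∀ᵐ y ∂(D.nu j), Pm (h j y) = 0 ∧ ‖Pa (h j y)‖ ≤ h j y 0 ∧
      wq (D.iota ρ j y) (D.iota ρ j y) ≤ wq (h j y) (h j y) ∧ ‖h j y‖ ≤ B) →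
    ∃ β, InK D ρ 1 β ∧ ∀ m, (∀ j, PM 1 (m j)) →
      D.T m β = D.T m (K.M t h) + C * t * B * D.T m ρ

/-- small ball in a chart -/
def Bl (D : Dat X) (j : Fin D.n) (c : V) (r : ℝ) : Set X :=
  {x | x ∈ (D.e j).source ∧ ‖D.e j x - c‖ < r}

end atlas

/-! ### statements about a manifold -/

section mfd
variable {X : Type*} [TopologicalSpace X] [ChartedSpace R4 X]

def SmC (α : Form X) : Prop := ∀ e, Good e → ContDiffOn ℝ ∞ (lc e α) e.target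
def ClC (α : Form X) : Prop :=
  ∀ e, Good e → ∀ y ∈ e.target, ∀ u v w, cyc (lc e α) y u v w = 0

/-- a one-form in a chart -/
def lc1 (e : OpenPartialHomeomorph X V) (η : X → Cov) (y : V) : Cov :=
  (η (e.symm y)).comp (fr e (e.symm y) : End)
/-- the part of an open set seen in a chart -/
def dom (e : OpenPartialHomeomorph X V) (U : Set X) : Set V := e.target ∩ e.symm ⁻¹' U
def Sm0 (U : Set X) (f : X → ℝ) : Prop :=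
  ∀ e, Good e → ContDiffOn ℝ ∞ (fun y => f (e.symm y)) (dom e U)
def Sm1 (U : Set X) (η : X → Cov) : Prop := ∀ e, Good e → ContDiffOn ℝ ∞ (lc1 e η) (dom e U)
def D0 (U : Set X) (f : X → ℝ) (η : X → Cov) : Prop :=
  ∀ e, Good e → ∀ y ∈ dom e U, HasFDerivAt (fun y => f (e.symm y)) (lc1 e η y) y
def D1 (U : Set X) (η : X → Cov) (γ : Form X) : Prop :=
  ∀ e, Good e → ∀ y ∈ dom e U, d1 (lc1 e η) y = lc e γ y
/-- exact forms -/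
def ExC (γ : Form X) : Prop := ∃ η, Sm1 univ η ∧ D1 univ η γ

/-- the charts of the atlas are smooth charts of the manifold -/
def Fit (D : Dat X) : Prop := ∀ j, Good (D.e j) ∧ D.fr j = fr (D.e j)

structure OneS (X : Type*) [TopologicalSpace X] [ChartedSpace R4 X] : Prop where
  sm0 : ∀ (e : OpenPartialHomeomorph X V) U (f : X → ℝ), Good e → IsOpen U → U ⊆ e.source →
    ContDiffOn ℝ ∞ (fun y => f (e.symm y)) (dom e U) → Sm0 U f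
  sm1 : ∀ (e : OpenPartialHomeomorph X V) U η, Good e → IsOpen U → U ⊆ e.source →
    ContDiffOn ℝ ∞ (lc1 e η) (dom e U) → Sm1 U η
  dz : ∀ (e : OpenPartialHomeomorph X V) U (f : X → ℝ) η, Good e → IsOpen U → U ⊆ e.source →
    (∀ y ∈ dom e U, HasFDerivAt (fun y => f (e.symm y)) (lc1 e η y) y) → D0 U f η
  done : ∀ (e : OpenPartialHomeomorph X V) U η γ, Good e → IsOpen U → U ⊆ e.source →
    ContDiffOn ℝ ∞ (lc1 e η) (dom e U) → (∀ y ∈ dom e U, d1 (lc1 e η) y = lc e γ y) → D1 U η γ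
  glue : ∀ (η : X → Cov) γ, (∀ x, ∃ U η', IsOpen U ∧ x ∈ U ∧ Sm1 U η' ∧ D1 U η' γ ∧
    ∀ x' ∈ U, η x' = η' x') → Sm1 univ η ∧ D1 univ η γ
  grad : ∀ U (f : X → ℝ), IsOpen U → Sm0 U f → ∃ η, Sm1 U η ∧ D0 U f η ∧ D1 U η 0
  uniq : ∀ U (f : X → ℝ) η η', IsOpen U → D0 U f η → D0 U f η' → ∀ x ∈ U, η x = η' x
  ext : ∀ (D : Dat X) j b, Fit D → Cc 12 b → ExC (D.ext j (d1 b))

/-- a fine cover by small balls with a partition of unity -/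
structure Net (D : Dat X) where
  N : ℕ
  j : Fin N → Fin D.n
  y : Fin N → V
  r2 : ℝ
  r3 : ℝ
  r4 : ℝ
  pos : 0 < r4
  le43 : r4 ≤ r3
  le32 : r3 ≤ r2
  le21 : r2 ≤ 1
  hy : ∀ a, ‖y a‖ ≤ 1
  chi : Fin N → X → ℝ
  chi_sm : ∀ a, Sm0 univ (chi a)
  chi_supp : ∀ a x, chi a x ≠ 0 → x ∈ Bl D (j a) (y a) r4
  chi_sum : ∀ x, ∑ a, chi a x = 1
  nest2 : ∀ a b, (Bl D (j a) (y a) r4 ∩ Bl D (j b) (y b) r4).Nonempty →
    Bl D (j a) (y a) r2 ⊆ Bl D (j b) (y b) 1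
  nest3 : ∀ a b, (Bl D (j a) (y a) r4 ∩ Bl D (j b) (y b) r4).Nonempty →
    Bl D (j a) (y a) r3 ⊆ Bl D (j b) (y b) r2

def Net.B {D : Dat X} (n : Net D) (a : Fin n.N) (r : ℝ) : Set X := Bl D (n.j a) (n.y a) r
def Net.Adj {D : Dat X} (n : Net D) (a b : Fin n.N) : Prop := (n.B a n.r4 ∩ n.B b n.r4).Nonempty

def NetS (D : Dat X) : Prop := Fit D → Nonempty (Net D)

/-- local primitives whose differences have compatible primitives glue -/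
def GlueS (D : Dat X) : Prop :=
  ∀ (n : Net D) (γ : Form X) (η : Fin n.N → X → Cov) (f : Fin n.N → Fin n.N → X → ℝ),
    (∀ a, Sm1 (n.B a 1) (η a) ∧ D1 (n.B a 1) (η a) γ) →
    (∀ a b, n.Adj a b → Sm0 (n.B a n.r2) (f a b) ∧ D0 (n.B a n.r2) (f a b) (η a - η b)) →
    (∀ a b c, n.Adj a b → n.Adj b c → n.Adj a c → ∀ x ∈ n.B a n.r3,
      f a b x + f b c x = f a c x) → ExC γ

/-- a closed form killed by all closed currents of order zero is exact -/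
def CechS (D : Dat X) : Prop :=
  Fit D → ∀ γ, D.Sm γ → D.Cl γ →
    (∀ R Λ, 0 ≤ Λ → D.Fn R → D.Ord R 0 Λ → D.KillsD R → R γ = 0) → ExC γ

/-- a volume form in a chart -/
def sg (σ : X → ℝ) (e : OpenPartialHomeomorph X V) (y : V) : ℝ :=
  σ (e.symm y) * (fr e (e.symm y) : End).det

structure VolC [MeasurableSpace X] (σ : X → ℝ) (m : Measure X) : Prop where
  ne : ∀ x, σ x ≠ 0
  sm : ∀ e, Good e → ContDiffOn ℝ ∞ (sg σ e) e.target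
  meas : ∀ e, Good e → ∀ S, MeasurableSet S → S ⊆ e.target →
    m (e.symm '' S) = ∫⁻ y in S, ENNReal.ofReal |sg σ e y|

omit [ChartedSpace R4 X] in
/-- integral of the wedge product -/
def prC [MeasurableSpace X] (σ : X → ℝ) (m : Measure X) (α β : Form X) : ℝ :=
  ∫ x, wq (α x) (β x) / σ x ∂m

def IntS [MeasurableSpace X] (D : Dat X) : Prop :=
  ∀ (σ : X → ℝ) (m : Measure X), Fit D → VolC σ m → IsFiniteMeasure m ∧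
    ((∀ j y, ‖y‖ ≤ 2 → 0 < sg σ (D.e j) y) → ∀ α β, D.Sm α → D.Sm β →
      prC σ m α β = ∑ j, ∫ y, D.psi j y * wq (D.loc j α y) (D.loc j β y))

/-- compatible form with prescribed square -/
def RhoS (D : Dat X) : Prop :=
  ∀ (σ : X → ℝ) (c : Form X) (a : ℝ), Fit D → (∀ e, Good e → ContDiffOn ℝ ∞ (sg σ e) e.target) →
    (∀ j y, ‖y‖ ≤ 2 → 0 < sg σ (D.e j) y) → D.Sm c → D.Tm c → 0 < a →
    ∃ ρ, D.Sm ρ ∧ D.Inv ρ ∧ D.Tm ρ ∧ ∀ x, wq (ρ x) (ρ x) = a * σ x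

/-- the coefficient of a four-form -/
def sig (μ : St.FourForm R4 X) (x : X) : ℝ := μ.val x (fun i => (bv i : V))

/-- the two-form with given coordinates -/
def ofF (α : Form X) : St.TwoTensor R4 X :=
  fun x => ((ContinuousLinearMap.compL ℝ V E6 ℝ ((2 : ℝ) • innerSL ℝ (α x))).comp wv : Bil)

structure BrS (X : Type*) [TopologicalSpace X] [ChartedSpace R4 X] : Prop where
  val : ∀ (α : Form X) x (u v : V), (ofF α).val x u v = ap (α x) u v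
  surj : ∀ α : St.TwoTensor R4 X, (∀ x u v, α.val x u v = -α.val x v u) → ∃ β, ofF β = α
  sm : ∀ α : Form X, St.IsSmoothTwoForm (ofF α) ↔ SmC α
  cl : ∀ α : Form X, SmC α → (St.IsClosedTwoForm (ofF α) ↔ ClC α)
  four : ∀ (μ : St.FourForm R4 X) x (v : Fin 4 → V),
    μ.val x v = sig μ x * D4 (v 0) (v 1) (v 2) (v 3)
  wedge : ∀ (α β : Form X) x (v : Fin 4 → V),
    St.wedge (ofF α) (ofF β) x v = wq (α x) (β x) * D4 (v 0) (v 1) (v 2) (v 3)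
  ex : ∀ α β : Form X, ExC (α - β) → St.Cohomologous (ofF α) (ofF β)
  fam : ∀ (α β : Form X) (a : ℝ → ℝ) (p : X) (u v : V), SmC α → SmC β → ContDiff ℝ ∞ a →
    ContDiffOn ℝ ∞ (fun q : ℝ × V => St.formCoord (ofF (α + a q.1 • β)) p u v q.2)
      (univ ×ˢ (chartAt R4 p).target)

def BrVS (X : Type*) [TopologicalSpace X] [ChartedSpace R4 X] [MeasurableSpace X] : Prop :=
  ∀ (μ : St.FourForm R4 X) (m : Measure X), St.IsVolumeForm μ → St.IsVolumeMeasure μ m →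
    VolC (sig μ) m

end mfd

end Vale.Agent.P247
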