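import Vale.Agent.P247.F20
import Vale.Agent.P204.Form

/-! Closed forms in a given class which dominate an element of the cone and have small
anti-invariant part. -/

set_option maxSynthPendingDepth 3
set_option linter.unusedSectionVars false

open scoped Topology ContDiff RealInnerProductSpace Manifold
open Set Metric MeasureTheory Filter

noncomputable section
namespace Vale.Agent.P247

open Vale.Agent.P204

universe u
variable {X : Type u} [TopologicalSpace X] [T2Space X] {D : Dat X}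

def F1KS (D : Dat X) (c ρ : Form X) : Prop :=
  ∀ (θ η0 : ℝ) (k : ℕ) (η : ℝ), 0 < θ → 0 < η0 → θ + 2 * η0 < 1 → 0 < η →
    ∃ z β, Null D z ∧ InK D ρ (θ ^ 2) β ∧ (∀ j y v, ‖y‖ ≤ 1 → ‖v‖ = 1 →
      ap (D.loc j β y) v ((D.F j).J y v) + η0 * ap (D.loc j c y) v ((D.F j).J y v)
        ≤ ap (D.loc j (c + z) y) v ((D.F j).J y v)) ∧ D.nrmm k (c + z) ≤ η

lemma loc_smul (j : Fin D.n) (c : ℝ) (α : Form X) (y : V) :
    D.loc j (c • α) y = c • D.loc j α y := map_smul (pull _) _ _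

lemma loc_add (j : Fin D.n) (α β : Form X) (y : V) :
    D.loc j (α + β) y = D.loc j α y + D.loc j β y := map_add (pull _) _ _

lemma inv_loc {α : Form X} (h : D.Inv α) (j : Fin D.n) {y : V} (hy : ‖y‖ ≤ 11) :
    InvP ((D.F j).J y) (D.loc j α y) := by
  have := (FormAux.inv_at (FormAux.in_symm D.toAtl (j := j) hy (by norm_num)) α).1 (h _)
  rw [(D.e j).right_inv (FormAux.mem_target _ (hy.trans (by norm_num)))] at this
  exact ((D.F j).inv_iff y _).2 this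

lemma tm_locP (fo : FormS D) {α : Form X} (h : D.Tm α) (j : Fin D.n) {y : V} (hy : ‖y‖ ≤ 11) :
    TameP ((D.F j).J y) (D.loc j α y) := fun v hv => fo.tm_loc α h j y v hy hv

lemma InK.smul (fo : FormS D) {ρ β : Form X} {κ c : ℝ} (h : InK D ρ κ β) (hc : 0 < c) :
    InK D ρ (c ^ 2 * κ) (c • β) := by
  refine ⟨fo.sm_smul c β h.1, fun x u v => ?_, fun x v hv => ?_, fun j y hy => ?_⟩
  · simp only [Pi.smul_apply, ap_smul, h.2.1 x u v]
  · simp only [Pi.smul_apply, ap_smul]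
    exact mul_pos hc (h.2.2.1 x v hv)
  · rw [loc_smul, wq_smul_l, wq_smul_r]
    have := mul_le_mul_of_nonneg_left (h.2.2.2 j y hy) (sq_nonneg c)
    linarith

lemma InK.conv (li : LinS) (fo : FormS D) {ρ β β' : Form X} {κ a b : ℝ} (h : InK D ρ κ β)
    (h' : InK D ρ κ β') (ha : 0 ≤ a) (hb : 0 ≤ b) (hab : a + b = 1) :
    InK D ρ κ (a • β + b • β') := by
  refine ⟨fo.sm_add _ _ (fo.sm_smul a β h.1) (fo.sm_smul b β' h'.1), fun x u v => ?_,
    fun x v hv => ?_, fun j y hy => ?_⟩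
  · simp only [Pi.add_apply, Pi.smul_apply, ap_add, ap_smul, h.2.1 x u v, h'.2.1 x u v]
  · simp only [Pi.add_apply, Pi.smul_apply, ap_add, ap_smul]
    have e1 := h.2.2.1 x v hv
    have e2 := h'.2.2.1 x v hv
    rcases ha.eq_or_lt with rfl | ha'
    · have : b = 1 := by linarith
      simpa [this] using e2
    · have := mul_pos ha' e1
      have := mul_nonneg hb e2.le
      linarith
  · have hy' : ‖y‖ ≤ 11 := hy.trans (by norm_num)
    rw [loc_add, loc_smul, loc_smul]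
    exact li.conv (D.F j) y _ _ _ a b (inv_loc h.2.1 j hy') (inv_loc h'.2.1 j hy')
      (tm_locP fo h.2.2.1 j hy') (tm_locP fo h'.2.2.1 j hy') (h.2.2.2 j y hy) (h'.2.2.2 j y hy)
      ha hb hab

/-- null forms -/
def Zn (fo : FormS D) (hi : HilS D) (io : IotaS D) : Submodule ℝ (F1.Om fo) where
  carrier := {α | Null D α.1}
  add_mem' := fun {a b} ha hb => ⟨fo.sm_add _ _ a.2 b.2, fo.cl_add _ _ a.2 b.2 ha.2.1 hb.2.1,
    fun γ d e => by
      change II D (a.1 + b.1) γ = 0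
      rw [II_add hi io a.2 b.2, ha.2.2 γ d e, hb.2.2 γ d e, add_zero]⟩
  zero_mem' := ⟨fo.sm_zero, fo.cl_zero, fun γ _ _ => II_zero fo io γ⟩
  smul_mem' := fun r a ha => ⟨fo.sm_smul r _ a.2, fo.cl_smul r _ a.2 ha.2.1, fun γ d e => by
      change II D (r • a.1) γ = 0
      rw [II_smul io r a.2, ha.2.2 γ d e, mul_zero]⟩

theorem f1KS (li : LinS) (sp : SepS.{u}) (nk : NkS) (na : NatS) (h1 : FormS D) (h2 : SemS D)
    (hi : HilS D) (io : IotaS D) {w : Fin 3 → Form X} (hw : Tri D w) {ρ : Form X} (r1 : D.Sm ρ)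
    (r2 : D.Inv ρ) (r3 : D.Tm ρ) (m1 : MT1S D w) (m2 : MT2S D w ρ) : F1KS D (w 0) ρ := by
  classical
  intro θ η0 k η hθ hη0 hθ1 hη
  by_contra hno
  let w0 : F1.Om h1 := ⟨w 0, hw.sm 0⟩
  have hρ : InK D ρ (θ ^ 2) (θ • ρ) := by
    simpa using InK.smul h1 (κ := 1) ⟨r1, r2, r3, fun j y _ => by simp⟩ hθ
  obtain ⟨L, s, Λ, hΛ, hL, hs, hZ, hK, hL1⟩ := sp (Y := Fin D.n × F1.Kc) (Ω := F1.Om h1)
    (fun α => D.nrmm k α.1) (Zn h1 hi io) (F1.hat h1) w0
    {φ | ∃ β : F1.Om h1, InK D ρ (θ ^ 2) β.1 ∧ φ = F1.hat h1 β + η0 • F1.hat h1 w0}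
    (F1.hat h1 ⟨θ • ρ, hρ.1⟩ + η0 • F1.hat h1 w0) η
    (fun α => h2.nrmm_nn k _) (fun α β => h2.nrmm_add k _ _ α.2 β.2)
    (fun c α => h2.nrmm_smul k c _ α.2) (by
      rintro _ ⟨β, hβ, rfl⟩ _ ⟨β', hβ', rfl⟩ a b ha hb hab
      refine ⟨a • β + b • β', hβ.conv li h1 hβ' ha hb hab, ?_⟩
      rw [map_add, map_smul, map_smul, smul_add, smul_add, add_add_add_comm, ← add_smul, hab,
        one_smul]) ⟨_, hρ, rfl⟩ hη (by
      rintro ⟨z, hz, _, ⟨β, hβ, rfl⟩, ha, hb⟩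
      exact hno ⟨z.1, β.1, hz, hβ, fun j y v hy hv =>
        ha (j, ⟨y, by simpa using hy⟩, ⟨v, by simpa using hv⟩), hb⟩)
  obtain ⟨μ, hμ, hμ'⟩ := F1.riesz_sheets L hL
  let m : Fin D.n → Measure (V × V) := fun j => (μ j).map F1.emb
  have hm : ∀ j, PM 1 (m j) := fun j => by
    have := hμ j
    refine ⟨inferInstance, ?_⟩
    rw [F1.emb_closed.measurableEmbedding.ae_map_iff]
    exact Eventually.of_forall fun q =>
      ⟨mem_closedBall_zero_iff.1 q.1.2, mem_sphere_zero_iff_norm.1 q.2.2⟩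
  have hT : ∀ α : F1.Om h1, D.T m α.1 = L (F1.hat h1 α) := fun α => by
    rw [← hμ']
    refine Finset.sum_congr rfl fun j _ => ?_
    exact F1.emb_closed.integral_map _
  let s' : Form X → ℝ := fun α => if h : D.Sm α then s ⟨α, h⟩ else 0
  have hs' : ∀ α (h : D.Sm α), s' α = s ⟨α, h⟩ := fun α h => dif_pos h
  obtain ⟨Λ', hΛ', f1, f2⟩ := normalize nk h1 hi io hw (s := s') (k := k) hΛ
    ⟨fun α β ha hb => by
      rw [hs' _ ha, hs' _ hb, hs' _ (h1.sm_add _ _ ha hb), ← map_add]; rfl,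
     fun c α ha => by
      rw [hs' _ ha, hs' _ (h1.sm_smul c _ ha), ← smul_eq_mul, ← map_smul]; rfl⟩
    (fun α ha => by rw [hs' _ ha]; exact hs ⟨α, ha⟩) (s' (w 1)) (s' (w 2))
  have kE : KillsE D fun α => D.T m α + (s' α - s' (w 1) * II D α (w 1) - s' (w 2) * II D α (w 2)) :=
    fun j b hb => by
      have n := null_ext na h1 io j hb
      have := hZ ⟨_, n.1⟩ n
      rw [← hT] at this
      change D.T m _ + (s' _ - _ * II D _ (w 1) - _ * II D _ (w 2)) = 0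
      rw [n.2.2 _ (hw.sm 1) (hw.cl 1), n.2.2 _ (hw.sm 2) (hw.cl 2), hs' _ n.1]
      linarith
  have k1 : s' (w 1) - s' (w 1) * II D (w 1) (w 1) - s' (w 2) * II D (w 1) (w 2) = 0 := by
    simp [hw.on]
  have k2 : s' (w 2) - s' (w 1) * II D (w 2) (w 1) - s' (w 2) * II D (w 2) (w 2) = 0 := by
    simp [hw.on]
  have k0 : s' (w 0) - s' (w 1) * II D (w 0) (w 1) - s' (w 2) * II D (w 0) (w 2) = s w0 := by
    simp [hw.on, hs' _ (hw.sm 0), w0]
  have c1 := m1 m _ k Λ' hm hΛ' f1 f2 kE k1 k2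
  have c2 := m2 m _ k Λ' hm hΛ' f1 f2 kE k1 k2
  simp only [k0] at c1 c2
  have t0 : D.T m (w 0) = L (F1.hat h1 w0) := hT w0
  rw [t0] at c1 c2
  have n0 := io.T_nn m _ hm hw.tm
  rw [t0] at n0
  set r := L (F1.hat h1 w0) + s w0 with hr
  have r0 : r ≤ 0 := by
    by_contra hp
    push Not at hp
    obtain ⟨β, hβ, hle⟩ := c2 ((1 - θ - 2 * η0) * r / 2) (by
      have : 0 < 1 - θ - 2 * η0 := by linarith
      positivity)
    have hβ' : InK D ρ (θ ^ 2) (θ • β) := by simpa using hβ.smul h1 hθ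
    have e := hK _ ⟨⟨θ • β, hβ'.1⟩, hβ', rfl⟩
    have e2 : L (F1.hat h1 ⟨θ • β, hβ'.1⟩) = θ * D.T m β := by
      rw [hT ⟨β, hβ.1⟩, ← smul_eq_mul, ← map_smul, ← map_smul]; rfl
    rw [map_add, map_smul, e2, smul_eq_mul] at e
    have e3 := mul_le_mul_of_nonneg_left hle hθ.le
    have e4 := mul_le_mul_of_nonneg_left c1 hη0.le
    have e5 : 0 < (1 - θ - 2 * η0) * r := mul_pos (by linarith) hp
    have e6 : θ * ((1 - θ - 2 * η0) * r / 2) ≤ 1 * ((1 - θ - 2 * η0) * r / 2) :=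
      mul_le_mul_of_nonneg_right (by linarith) (by linarith)
    nlinarith
  have h0 : L (F1.hat h1 w0) = 0 := by linarith
  obtain ⟨c, hc, hc'⟩ := isCompact_univ.exists_forall_le'
    (F1.hat h1 w0).continuous.continuousOn (a := 0) fun q _ =>
      h1.tm_loc _ hw.tm q.1 q.2.1 q.2.2 ((mem_closedBall_zero_iff.1 q.2.1.2).trans (by norm_num))
        (ne_zero_of_mem_unit_sphere q.2.2)
  have h4 := hL (F1.hat h1 w0 - c • 1) fun q => by simpa using hc' q (mem_univ q)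
  rw [map_sub, map_smul, h0, smul_eq_mul] at h4
  have h5 : L 1 = 0 := le_antisymm (by nlinarith) (hL 1 zero_le_one)
  set φ0 := F1.hat h1 ⟨θ • ρ, hρ.1⟩ + η0 • F1.hat h1 w0
  have h6 := hL (‖φ0‖ • 1 - φ0) fun q => by
    simpa using (le_abs_self _).trans (φ0.norm_coe_le_norm q)
  rw [map_sub, map_smul, h5, smul_zero] at h6
  linarith

end Vale.Agent.P247
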