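import Vale.Agent.P247.MT3
import Vale.Agent.P204.F1

/-! Approximation by closed forms in the line of the first class. -/

set_option maxSynthPendingDepth 3
set_option linter.unusedSectionVars false

open scoped Topology ContDiff RealInnerProductSpace Manifold
open Set Metric MeasureTheory Filter

noncomputable section
namespace Vale.Agent.P247

open Vale.Agent.P204

variable {X : Type*} [TopologicalSpace X] [T2Space X] {D : Dat X}

/-- closed forms whose class is a multiple of the class of `c` -/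
def Z0 (D : Dat X) (c : Form X) (β : Form X) : Prop :=
  D.Sm β ∧ D.Cl β ∧ ∀ γ, D.Sm γ → D.Cl γ → II D β γ = II D β c * II D c γ

def F20S (D : Dat X) (w : Fin 3 → Form X) : Prop :=
  ∀ k k' : ℕ, ∃ C, 0 ≤ C ∧ ∀ α η, D.Sm α → II D α (w 1) = 0 → II D α (w 2) = 0 → 0 < η →
    ∃ β, Z0 D (w 0) β ∧ D.nrm k β ≤ C * D.nrmm (k + 5) α + η ∧ D.nrmm k' (α - β) ≤ η

lemma II_zero (fo : FormS D) (io : IotaS D) (γ : Form X) : II D 0 γ = 0 := by
  simpa using II_smul io 0 fo.sm_zero γ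

lemma null_ext (na : NatS) (fo : FormS D) (io : IotaS D) (j : Fin D.n) {b : V → Cov}
    (hb : Cc 6 b) : Null D (D.ext j (d1 b)) :=
  ⟨fo.sm_ext j _ (hb.d1.mono (by norm_num)), fo.cl_ext j _ (hb.d1.mono (by norm_num))
    fun y => na.dd (hb.1.contDiffAt.of_le (by norm_cast)),
    fun γ a c => io.stokes j b γ hb a c⟩

lemma Null.z0 {α c : Form X} (h : Null D α) (a : D.Sm c) (b : D.Cl c) : Z0 D c α :=
  ⟨h.1, h.2.1, fun γ d e => by rw [h.2.2 γ d e, h.2.2 c a b, zero_mul]⟩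

lemma Tri.on00 {w : Fin 3 → Form X} (hw : Tri D w) : II D (w 0) (w 0) = 1 := by
  simpa using hw.on 0 0

lemma Tri.z0 {w : Fin 3 → Form X} (hw : Tri D w) : Z0 D (w 0) (w 0) :=
  ⟨hw.sm 0, hw.cl 0, fun γ _ _ => by rw [hw.on00, one_mul]⟩

/-- normalisation of a functional of the anti-invariant part -/
lemma normalize (nk : NkS) (fo : FormS D) (hi : HilS D) (io : IotaS D) {w : Fin 3 → Form X}
    (hw : Tri D w) {s : Form X → ℝ} {k : ℕ} {Λ : ℝ} (hΛ : 0 ≤ Λ) (hs : D.Fn s)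
    (ho : D.OrdM s k Λ) (c1 c2 : ℝ) : ∃ Λ', 0 ≤ Λ' ∧
      D.Fn (fun α => s α - c1 * II D α (w 1) - c2 * II D α (w 2)) ∧
      D.OrdM (fun α => s α - c1 * II D α (w 1) - c2 * II D α (w 2)) k Λ' := by
  obtain ⟨C1, hC1, h1⟩ := io.anti_bd _ (hw.sm 1) hw.a1
  obtain ⟨C2, hC2, h2⟩ := io.anti_bd _ (hw.sm 2) hw.a2
  refine ⟨Λ + |c1| * C1 + |c2| * C2, by positivity, ⟨fun α β a b => ?_, fun c α a => ?_⟩,
    fun α a => ?_⟩
  · simp only [hs.1 α β a b, II_add hi io a b]; ring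
  · simp only [hs.2 c α a, II_smul io c a]; ring
  · have e := nrmm_mono nk fo a (Nat.zero_le k)
    have e1 := (h1 α a).trans (mul_le_mul_of_nonneg_left e hC1)
    have e2 := (h2 α a).trans (mul_le_mul_of_nonneg_left e hC2)
    have e3 := ho α a
    have f1 := mul_le_mul_of_nonneg_left e1 (abs_nonneg c1)
    have f2 := mul_le_mul_of_nonneg_left e2 (abs_nonneg c2)
    rw [← abs_mul] at f1 f2
    have g1 := abs_sub (s α - c1 * II D α (w 1)) (c2 * II D α (w 2))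
    have g2 := abs_sub (s α) (c1 * II D α (w 1))
    show |s α - c1 * II D α (w 1) - c2 * II D α (w 2)| ≤ _
    linarith

open F2 in
/-- pairs of opposite closed forms -/
def Zs0 (fo : FormS D) (hi : HilS D) (io : IotaS D) (c : Form X) :
    Submodule ℝ (Om fo × Om fo) where
  carrier := {x | x.1 = -x.2 ∧ Z0 D c x.2.1}
  add_mem' := fun {a b} ha hb => ⟨by rw [Prod.fst_add, Prod.snd_add, ha.1, hb.1, neg_add],
    fo.sm_add _ _ a.2.2 b.2.2, fo.cl_add _ _ a.2.2 b.2.2 ha.2.2.1 hb.2.2.1, fun γ d e => by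
      change II D (a.2.1 + b.2.1) γ = II D (a.2.1 + b.2.1) c * _
      rw [II_add hi io a.2.2 b.2.2, II_add hi io a.2.2 b.2.2, ha.2.2.2 γ d e, hb.2.2.2 γ d e]
      ring⟩
  zero_mem' := ⟨neg_zero.symm, fo.sm_zero, fo.cl_zero, fun γ _ _ => by
    change II D 0 γ = II D 0 c * _
    rw [II_zero fo io, II_zero fo io, zero_mul]⟩
  smul_mem' := fun r a ha => ⟨by rw [Prod.smul_fst, Prod.smul_snd, ha.1, smul_neg],
    fo.sm_smul r _ a.2.2, fo.cl_smul r _ a.2.2 ha.2.2.1, fun γ d e => by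
      change II D (r • a.2.1) γ = II D (r • a.2.1) c * _
      rw [II_smul io r a.2.2, II_smul io r a.2.2, ha.2.2.2 γ d e]
      ring⟩

open F2 in
theorem f20S (nk : NkS) (na : NatS) (h1 : FormS D) (h2 : SemS D) (hi : HilS D) (io : IotaS D)
    {w : Fin 3 → Form X} (hw : Tri D w) (h3 : DE0S D w) : F20S D w := by
  intro k k'
  obtain ⟨C, hC, H⟩ := h3 k k'
  refine ⟨C, hC, fun α η hα a1 a2 hη => ?_⟩
  by_contra hn
  set d := C * D.nrmm (k + 5) α + η with hd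
  have d0 : 0 ≤ d / η := div_nonneg (by have := h2.nrmm_nn (k + 5) α; positivity) hη.le
  have ps : ∀ (c : ℝ) (x : Om h1 × Om h1), D.nrm k (c • x).1.1 + d / η * D.nrmm k' (c • x).2.1
      = |c| * (D.nrm k x.1.1 + d / η * D.nrmm k' x.2.1) := fun c x => by
    rw [mul_add, mul_left_comm, ← h2.nrm_smul k c _ x.1.2, ← h2.nrmm_smul k' c _ x.2.2]
    rfl
  obtain ⟨L, l1, l2, l3⟩ := hb_kill
    (fun x : Om h1 × Om h1 => D.nrm k x.1.1 + d / η * D.nrmm k' x.2.1) (Zs0 h1 hi io (w 0))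
    (0, ⟨α, hα⟩) d
    (fun x => add_nonneg (h2.nrm_nn _ _) (mul_nonneg d0 (h2.nrmm_nn _ _)))
    (fun x y => by
      have a := h2.nrm_add k _ _ x.1.2 y.1.2
      have b := mul_le_mul_of_nonneg_left (h2.nrmm_add k' _ _ x.2.2 y.2.2) d0
      exact (add_le_add a b).trans_eq (by ring))
    (fun c x hc => (ps c x).trans (by rw [abs_of_pos hc]))
    (fun z hz => by
      show d ≤ D.nrm k (0 - z.1 : Om h1).1 + d / η * D.nrmm k' (α - z.2.1)
      rw [hz.1, zero_sub, neg_neg]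
      by_contra hlt
      have a := h2.nrm_nn k z.2.1
      have b := mul_nonneg d0 (h2.nrmm_nn k' (α - z.2.1))
      refine hn ⟨z.2.1, hz.2, by linarith, not_lt.1 fun h => hlt ?_⟩
      have := mul_le_mul_of_nonneg_left h.le d0
      rw [div_mul_cancel₀ _ hη.ne'] at this
      linarith)
  have la : ∀ x, |L x| ≤ D.nrm k x.1.1 + d / η * D.nrmm k' x.2.1 := fun x => by
    have := l1 ((-1 : ℝ) • x)
    rw [ps, map_smul, abs_neg, abs_one, one_mul, smul_eq_mul] at this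
    exact abs_le.2 ⟨by linarith, l1 x⟩
  have z1 : D.nrm k 0 = 0 := by simpa using h2.nrm_smul k 0 0 h1.sm_zero
  have z2 : D.nrmm k' 0 = 0 := by simpa using h2.nrmm_smul k' 0 0 h1.sm_zero
  set τ := ex h1 (-L.comp (LinearMap.inl ℝ _ _)) with hτ
  set s := ex h1 (L.comp (LinearMap.inr ℝ _ _)) with hs
  have kz : ∀ β, Z0 D (w 0) β → τ β + s β = 0 := fun β hβ => by
    simpa [hτ, hs, ex_eq _ _ hβ.1, ← map_neg, ← map_add]
      using l2 (-⟨β, hβ.1⟩, ⟨β, hβ.1⟩) ⟨rfl, hβ⟩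
  obtain ⟨Λ', hΛ', f1, f2⟩ := normalize nk h1 hi io hw d0 (ex_fn h1 (L.comp (LinearMap.inr ℝ _ _)))
    (fun β hβ => by simpa [ex_eq _ _ hβ, z1] using la (0, ⟨β, hβ⟩))
    (τ (w 1) + s (w 1)) (τ (w 2) + s (w 2))
  have := H _ _ _ hΛ' (ex_fn h1 (-L.comp (LinearMap.inl ℝ _ _))) f1
    (fun β hβ => by simpa [ex_eq _ _ hβ, z2] using la (⟨β, hβ⟩, 0)) f2
    (fun j b hb => by
      have n := null_ext na h1 io j hb
      have := kz _ (n.z0 (hw.sm 0) (hw.cl 0))
      change τ _ + (s _ - _ * II D _ (w 1) - _ * II D _ (w 2)) = 0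
      rw [n.2.2 _ (hw.sm 1) (hw.cl 1), n.2.2 _ (hw.sm 2) (hw.cl 2)]
      linarith)
    (fun i => by
      change τ _ + (s _ - _ * II D _ (w 1) - _ * II D _ (w 2)) = 0
      rw [hw.on, hw.on]
      have := kz _ hw.z0
      fin_cases i <;> simp
      linarith) α hα
  rw [a1, a2, mul_zero, mul_zero, sub_zero, sub_zero, ex_eq _ _ hα] at this
  have := (l3.trans (le_abs_self _)).trans this
  linarith

end Vale.Agent.P247
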