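import Vale.Agent.P247.Path

/-! Translation to the statement. -/

set_option maxSynthPendingDepth 3
set_option linter.unusedSectionVars false

open scoped Topology ContDiff RealInnerProductSpace Manifold
open Set Metric MeasureTheory Filter Function

noncomputable section
namespace Vale.Agent.P247

open Vale.Agent.P204 Vale.Agent.P204.Bridge

lemma D4_bv : D4 (bv 0) (bv 1) (bv 2) (bv 3) = 1 := by simp [D4_apply, bv_apply]

lemma wq_sum (v : Fin 3 → ℝ) (c : Fin 3 → E6) :
    wq (∑ i, v i • c i) (∑ i, v i • c i) = ∑ i, v i * ∑ j, wq (c i) (c j) * v j := by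
  simp only [Fin.sum_univ_three, wq_add_l, wq_add_r, wq_smul_l, wq_smul_r]
  ring

variable {X : Type*} [TopologicalSpace X] [ChartedSpace R4 X] [T2Space X] [CompactSpace X]
  [IsManifold (𝓡 4) ∞ X] [MeasurableSpace X] [BorelSpace X]
  {μ : St.FourForm R4 X} {m : Measure X}

/-- the Gram matrix -/
def gram (μ : St.FourForm R4 X) (u : Fin 3 → Form X) (x : X) : Matrix (Fin 3) (Fin 3) ℝ :=
  Matrix.of fun i j => wq (u i x) (u j x) / (2 * sig μ x)

lemma dens_eq (br : BrS X) {α β : Form X} {x : X} {f : ℝ} (h0 : sig μ x ≠ 0) :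
    (∀ v, St.wedge (ofF α) (ofF β) x v = f * μ.val x v) ↔ f = wq (α x) (β x) / sig μ x := by
  constructor
  · intro h
    have := h fun i => (bv i : V)
    rw [br.wedge, D4_bv, mul_one] at this
    rw [this, eq_div_iff h0]; rfl
  · rintro rfl v
    refine (br.wedge α β x v).trans (Eq.trans ?_ (congrArg _ (br.four μ x v).symm))
    field_simp

lemma isGram (br : BrS X) (h0 : ∀ x, sig μ x ≠ 0) (u : Fin 3 → Form X) :
    St.IsGram μ (fun i => ofF (u i)) (gram μ u) := fun x i j =>
  (dens_eq br (h0 x)).2 (by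
    have := h0 x
    simp only [gram, Matrix.of_apply]
    field_simp)

lemma wi_iff (br : BrS X) (h0 : ∀ x, sig μ x ≠ 0) {α β : Form X} {c : ℝ} :
    St.WedgeIntegral μ m (ofF α) (ofF β) c ↔ prC (sig μ) m α β = c := by
  constructor
  · rintro ⟨f, h1, h2⟩
    rw [← h2, prC]
    exact integral_congr_ae (Eventually.of_forall fun x => ((dens_eq br (h0 x)).1 (h1 x)).symm)
  · exact fun h => ⟨_, fun x => (dens_eq br (h0 x)).2 rfl, h⟩

lemma pd_iff (h0 : ∀ x, sig μ x ≠ 0) (u : Fin 3 → Form X) (x : X) :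
    (gram μ u x).PosDef ↔ PD (sig μ x)⁻¹ fun i => u i x := by
  have e : ∀ v : Fin 3 → ℝ, (sig μ x)⁻¹ * wq (∑ i, v i • u i x) (∑ i, v i • u i x)
      = 2 * (star v ⬝ᵥ (gram μ u x).mulVec v) := fun v => by
    have := h0 x
    rw [wq_sum]
    simp only [dotProduct, Matrix.mulVec, gram, Matrix.of_apply, Fin.sum_univ_three, star_trivial]
    field_simp
  rw [Matrix.posDef_iff_dotProduct_mulVec]
  refine ⟨fun h v hv => ?_, fun h => ⟨?_, fun v hv => ?_⟩⟩
  · rw [e]; linarith [h.2 hv]
  · ext i j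
    simp [gram, wq_symm (u j x)]
  · have := h v hv
    rw [e] at this
    linarith

lemma hyp_iff (br : BrS X) (h0 : ∀ x, sig μ x ≠ 0) (u : Fin 3 → Form X) :
    St.IsHypersymplectic μ (fun i => ofF (u i)) ↔
      (∀ i, SmC (u i) ∧ ClC (u i)) ∧ ∀ x, PD (sig μ x)⁻¹ fun i => u i x := by
  constructor
  · rintro ⟨h1, Q, h2, h3⟩
    have hQ : Q = gram μ u := by
      funext x
      ext i j
      have := (dens_eq br (h0 x)).1 (h2 x i j)
      have := h0 x
      simp only [gram, Matrix.of_apply]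
      field_simp at *
      linarith
    exact ⟨fun i => ⟨(br.sm _).1 (h1 i).1, (br.cl _ ((br.sm _).1 (h1 i).1)).1 (h1 i).2⟩,
      fun x => (pd_iff h0 u x).1 (hQ ▸ h3 x)⟩
  · rintro ⟨h1, h2⟩
    exact ⟨fun i => ⟨(br.sm _).2 (h1 i).1, (br.cl _ (h1 i).1).2 (h1 i).2⟩, _, isGram br h0 u,
      fun x => (pd_iff h0 u x).2 (h2 x)⟩

lemma SmC.comb {α β : Form X} (a : SmC α) (b : SmC β) (c : ℝ) : SmC (α + c • β) := fun e he =>
  ((a e he).add ((b e he).const_smul c)).congr fun y _ => Br.lc_comb e α β c y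

lemma ClC.comb {α β : Form X} (a : SmC α) (b : SmC β) (a' : ClC α) (b' : ClC β) (c : ℝ) :
    ClC (α + c • β) := fun e he y hy u v w => by
  have hy' := e.open_target.mem_nhds hy
  have d1 := ((a e he).contDiffAt hy').differentiableAt (by simp)
  have d2 := ((b e he).contDiffAt hy').differentiableAt (by simp)
  have e1 := a' e he y hy u v w
  have e2 := b' e he y hy u v w
  have : lc e (α + c • β) = lc e α + c • lc e β := funext fun y => Br.lc_comb e α β c y
  rw [cyc] at e1 e2
  rw [cyc, this, fderiv_add d1 (d2.const_smul c), fderiv_const_smul d2]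
  simp only [add_apply, smul_apply, ap_add, ap_smul]
  linear_combination e1 + c * e2

theorem almost (hμ : St.IsVolumeForm μ) (hm : St.IsVolumeMeasure μ m)
    {w : Fin 3 → St.TwoTensor R4 X} (hw : St.IsHypersymplectic μ w) (hn : St.IsNormalized μ m w)
    (hb : St.BPlusThree μ m w) {ε : ℝ} (hε : 0 < ε) :
    ∃ Ω, St.IsCohomologousDeformation μ w Ω ∧ ∃ Q, St.IsGram μ (Ω 1) Q ∧
      (∀ x i j, i ≠ j → Q x i j = 0) ∧ (∀ x i, 1 - ε ≤ 2 * m.real univ * Q x i i) ∧
      ∀ i, Integrable (fun x => Q x i i) m ∧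
        ∫ x, |2 * m.real univ * Q x i i - 1| ∂m ≤ 2 * ε * m.real univ := by
  have br := brS natS X
  have hv := brVS X br μ m hμ hm
  choose u hu using fun i => br.surj (w i) (hw.1 i).1.1
  obtain rfl : w = fun i => ofF (u i) := (funext hu).symm
  obtain ⟨h1, h2⟩ := (hyp_iff br hv.ne u).1 hw
  have hs : HS (sig μ) m u := ⟨fun i => (h1 i).1, fun i => (h1 i).2, h2,
    fun i j => (wi_iff br hv.ne).1 (hn i j), fun γ a b c =>
      hb (ofF γ) ((br.sm γ).2 a) ((br.cl γ a).2 b) (fun i => (wi_iff br hv.ne).2 (c i)) _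
        ((wi_iff br hv.ne).2 rfl)⟩
  obtain ⟨β, a, a1, a2, a3, b1, b2, b3, b4, b5⟩ := path hv hs (κ := 1 - ε) (by linarith)
  have sd : ∀ i, SmC (β i - u i) := fun i => by
    simpa [sub_eq_add_neg] using (b1.sm i).comb (hs.sm i) (-1)
  have cd : ∀ i, ClC (β i - u i) := fun i => by
    simpa [sub_eq_add_neg] using ClC.comb (b1.sm i) (hs.sm i) (b1.cl i) (hs.cl i) (-1)
  have e : ∀ x i, 2 * m.real univ * gram μ β x i i
      = m.real univ * (wq (β i x) (β i x) / sig μ x) := fun x i => by
    have := hv.ne x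
    simp only [gram, Matrix.of_apply]
    field_simp
  refine ⟨fun t i => ofF (u i + a i t • (β i - u i)), ⟨fun i p c d => ?_, ?_, fun t _ => ⟨?_,
    fun i => br.ex _ _ ?_⟩⟩, gram μ β, ?_, fun x i j h => ?_, fun x i => ?_, fun i => ?_⟩
  · exact (br.fam _ _ (a i) p c d (hs.sm i) (sd i) (a1 i)).mono
      (prod_mono (subset_univ _) subset_rfl)
  · simp [a2]
  · exact (hyp_iff br hv.ne _).2 ⟨fun i => ⟨(hs.sm i).comb (sd i) _,
      ClC.comb (hs.sm i) (sd i) (hs.cl i) (cd i) _⟩, b3 t⟩
  · simpa using (b2 i).smul (a i t)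
  · simpa [a3] using isGram br hv.ne β
  · simp [gram, b4 i j x h]
  · rw [e]; exact b5 i x
  · have i1 : ∫ x, wq (β i x) (β i x) / sig μ x ∂m = 1 := by simpa [prC] using b1.on i i
    have i2 : Integrable (fun x => wq (β i x) (β i x) / sig μ x) m :=
      Integrable.of_integral_ne_zero (by rw [i1]; exact one_ne_zero)
    have fin : IsFiniteMeasure m := by
      obtain ⟨D, hf, -⟩ : ∃ D : Dat X, Fit D ∧ True := by
        obtain ⟨Jf, j1, j2, j3⟩ := linJS
        obtain ⟨D, hf, -⟩ := fitS (J := fun x => Jf fun i => u i x)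
          (fun x => (j1 _ _ (hs.pd x)).1)
          fun e he => (j3.comp (contDiffOn_pi.2 fun i => hs.sm i e he)
            fun y _ => (hs.pd _).pull _).congr fun y _ => (j2 _ _ _ (hs.pd _)).symm
        exact ⟨D, hf, trivial⟩
      have ga := geoA D.toAtl
      exact (intS ga (formS natS ga) _ m hf hv).1
    refine ⟨(i2.div_const 2).congr (Eventually.of_forall fun x => ?_), ?_⟩
    · simp only [gram, Matrix.of_apply]
      rw [div_div, mul_comm]
    · simp only [e]
      have i3 := (i2.const_mul (m.real univ)).sub (integrable_const (1 - 2 * ε))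
      refine (integral_mono (i3.add (integrable_const (-(2 * ε))) |>.abs.congr
        (Eventually.of_forall fun x => ?_)) i3 fun x => ?_).trans_eq ?_
      · simp only [Pi.add_apply, Pi.sub_apply]
        congr 1
        ring
      · have := b5 i x
        exact abs_le.2 ⟨by simp only [Pi.sub_apply]; linarith, by simp only [Pi.sub_apply]; linarith⟩
      · simp only [Pi.sub_apply]
        rw [integral_sub (i2.const_mul _) (integrable_const _), integral_const_mul, i1,
          integral_const, smul_eq_mul]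
        ring

end Vale.Agent.P247
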