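import Vale.Agent.P247.Defs
import Vale.Agent.P204.DE
import Vale.Agent.P204.F2

/-! The index inequality for smoothed closed currents and error terms. -/

set_option maxSynthPendingDepth 3
set_option linter.unusedSectionVars false

open scoped Topology ContDiff RealInnerProductSpace Manifold
open Set Metric MeasureTheory Filter

noncomputable section
namespace Vale.Agent.P247

open Vale.Agent.P204

variable {X : Type*} [TopologicalSpace X] [T2Space X] {D : Dat X} {K : Ker D}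

lemma qH_smul (c : ℝ) (g h : D.H) : D.qH (c • g) h = c * D.qH g h := by
  rw [Dat.qH, Dat.qH, real_inner_smul_left]; ring

lemma qH_sub (g g' h : D.H) : D.qH (g - g') h = D.qH g h - D.qH g' h := by
  rw [Dat.qH, Dat.qH, Dat.qH, inner_sub_left]; ring

lemma II_symm (hi : HilS D) (α β : Form X) : II D α β = II D β α := hi.qH_symm _ _

lemma II_add (hi : HilS D) (io : IotaS D) {α β : Form X} (ha : D.Sm α) (hb : D.Sm β) (γ : Form X) :
    II D (α + β) γ = II D α γ + II D β γ := by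
  rw [II, io.add _ _ ha hb, hi.qH_add]; rfl

lemma II_smul (io : IotaS D) (c : ℝ) {α : Form X} (ha : D.Sm α) (γ : Form X) :
    II D (c • α) γ = c * II D α γ := by
  rw [II, io.smul _ _ ha, qH_smul]; rfl

lemma iota_sub (fo : FormS D) (io : IotaS D) {α β : Form X} (ha : D.Sm α) (hb : D.Sm β) :
    D.iota (α - β) = D.iota α - D.iota β := by
  rw [sub_eq_add_neg, ← neg_one_smul ℝ β, io.add _ _ ha (fo.sm_smul _ _ hb), io.smul _ _ hb,
    neg_one_smul, sub_eq_add_neg]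

lemma II_sub (fo : FormS D) (io : IotaS D) {α β : Form X} (ha : D.Sm α) (hb : D.Sm β)
    (γ : Form X) : II D (α - β) γ = II D α γ - II D β γ := by
  rw [II, iota_sub fo io ha hb, qH_sub]; rfl

lemma fn_sub (fo : FormS D) {R : Form X → ℝ} (hR : D.Fn R) {α β : Form X} (ha : D.Sm α)
    (hb : D.Sm β) : R (α - β) = R α - R β := by
  rw [sub_eq_add_neg, ← neg_one_smul ℝ β, hR.1 _ _ ha (fo.sm_smul _ _ hb), hR.2 _ _ hb]; ring

lemma fn_add {R S : Form X → ℝ} (hR : D.Fn R) (hS : D.Fn S) : D.Fn fun α => R α + S α :=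
  ⟨fun α β a b => by simp only [hR.1 α β a b, hS.1 α β a b]; ring,
    fun c α a => by simp only [hR.2 c α a, hS.2 c α a]; ring⟩

lemma isTh_add (hi : HilS D) {t : ℝ} {R S : Form X → ℝ} {Θ Θ' : D.H} (h : K.IsTh t R Θ)
    (h' : K.IsTh t S Θ') : K.IsTh t (fun α => R α + S α) (Θ + Θ') := fun g => by
  rw [hi.qH_add, h g, h' g]

lemma KillsE.killsD {R : Form X → ℝ} (h : KillsE D R) : D.KillsD R :=
  fun j b hb => h j b (hb.mono (by norm_num))

lemma nrmm_mono (nk : NkS) (fo : FormS D) {α : Form X} (ha : D.Sm α) {k l : ℕ} (h : l ≤ k) :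
    D.nrmm l α ≤ D.nrmm k α :=
  Finset.sum_le_sum fun j _ => nk.mono (fo.cj_cc j α ha) h

lemma cont_qH (hi : HilS D) : Continuous fun g : D.H => D.qH g g := by
  let Q : D.H →L[ℝ] D.H := LinearMap.mkContinuous
    ⟨⟨D.mapH Q6, hi.map_add Q6⟩, hi.map_smul Q6⟩ ‖Q6‖ (hi.map_norm Q6)
  exact continuous_const.mul (continuous_id.inner Q.continuous)

lemma cont_qH_l (h : D.H) : Continuous fun g : D.H => D.qH g h :=
  continuous_const.mul (continuous_id.inner continuous_const)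

lemma index_smooth (fo : FormS D) (hi : HilS D) (io : IotaS D) {w : Fin 3 → Form X} (hw : Tri D w)
    {γ : Form X} (h1 : D.Sm γ) (h2 : D.Cl γ) : II D γ γ ≤ ∑ i, II D γ (w i) ^ 2 := by
  set c : Fin 3 → ℝ := fun i => II D γ (w i) with hc
  have s : ∀ i, D.Sm (c i • w i) := fun i => fo.sm_smul _ _ (hw.sm i)
  have s' : ∀ i, D.Cl (c i • w i) := fun i => fo.cl_smul _ _ (hw.sm i) (hw.cl i)
  have s01 := fo.sm_add _ _ (s 0) (s 1)
  have s012 := fo.sm_add _ _ s01 (s 2)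
  have e : ∀ δ, II D (γ - (c 0 • w 0 + c 1 • w 1 + c 2 • w 2)) δ
      = II D γ δ - (c 0 * II D (w 0) δ + c 1 * II D (w 1) δ + c 2 * II D (w 2) δ) := fun δ => by
    rw [II_sub fo io h1 s012, II_add hi io s01 (s 2), II_add hi io (s 0) (s 1),
      II_smul io _ (hw.sm 0), II_smul io _ (hw.sm 1), II_smul io _ (hw.sm 2)]
  have z : ∀ i, II D (γ - (c 0 • w 0 + c 1 • w 1 + c 2 • w 2)) (w i) = 0 := fun i => by
    rw [e, hw.on, hw.on, hw.on]
    fin_cases i <;> simp [hc]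
  have h3 := hw.sig _ (F2.sm_sub fo h1 s012) (F2.cl_sub fo h1 s012 h2
    (fo.cl_add _ _ s01 (s 2) (fo.cl_add _ _ (s 0) (s 1) (s' 0) (s' 1)) (s' 2))) z
  rw [e, II_symm hi (w 0), II_symm hi (w 1), II_symm hi (w 2), z, z, z, II_symm hi γ, e,
    II_symm hi (w 0), II_symm hi (w 1), II_symm hi (w 2)] at h3
  rw [Fin.sum_univ_three]
  simp only [hc] at h3
  nlinarith

lemma mem_closure_closed (cs : ClosS K) {ε : ℝ} {R : Form X → ℝ} {Θ : D.H} (h0 : 0 < ε)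
    (h1 : ε ≤ K.ε0) (hR : D.Fn R) (hD : D.KillsD R) (hT : K.IsTh ε R Θ) :
    Θ ∈ closure {g | ∃ γ, D.Sm γ ∧ D.Cl γ ∧ g = D.iota γ} := by
  refine Metric.mem_closure_iff.2 fun η hη => ?_
  obtain ⟨γ, a, b, c⟩ := cs ε R Θ h0 h1 hR hD hT (η / 2) (by positivity)
  exact ⟨_, ⟨γ, a, b, rfl⟩, by rw [dist_eq_norm]; linarith⟩

/-- the index inequality -/
lemma keyI (fo : FormS D) (hi : HilS D) (io : IotaS D) (cs : ClosS K) {w : Fin 3 → Form X}
    (hw : Tri D w) {ε : ℝ} {R : Form X → ℝ} {Θ : D.H} (h0 : 0 < ε) (h1 : ε ≤ K.ε0) (hR : D.Fn R)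
    (hD : D.KillsD R) (hT : K.IsTh ε R Θ) :
    D.qH Θ Θ ≤ ∑ i, D.qH Θ (D.iota (w i)) ^ 2 := by
  have hc : IsClosed {g : D.H | D.qH g g ≤ ∑ i, D.qH g (D.iota (w i)) ^ 2} :=
    isClosed_le (cont_qH hi) (continuous_finsetSum _ fun i _ => (cont_qH_l _).pow 2)
  refine closure_minimal ?_ hc (mem_closure_closed cs h0 h1 hR hD hT)
  rintro _ ⟨γ, a, b, rfl⟩
  exact index_smooth fo hi io hw a b

lemma err_ord (fo : FormS D) (ms : MS K) (ap : AppS K) {α : Form X} (ha : D.Sm α) (k : ℕ) :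
    ∃ C, 0 ≤ C ∧ ∀ (t Λ : ℝ) (R : Form X → ℝ) (Θ : D.H), 0 < t → t ≤ K.ε0 → 0 ≤ Λ → D.Fn R →
      D.Ord R k Λ → K.IsTh t R Θ → |D.qH Θ (D.iota α) - R α| ≤ C * t * Λ := by
  obtain ⟨C, hC, h⟩ := ap α k ha
  refine ⟨C, hC, fun t Λ R Θ ht ht' hΛ hR ho hT => ?_⟩
  have s := ms.sm t (D.iota α) ht ht'
  rw [hT, ← fn_sub fo hR s ha]
  refine (ho _ (F2.sm_sub fo s ha)).trans ?_
  rw [mul_comm (C * t)]
  exact mul_le_mul_of_nonneg_left (h t ht ht') hΛ

lemma err_bd (nk : NkS) (fo : FormS D) (se : SemS D) (ms : MS K) (ap : AppS K) {α : Form X}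
    (ha : D.Sm α) (M : ℕ) : ∃ C, 0 ≤ C ∧ ∀ (t β : ℝ) (s : Form X → ℝ) (Θ : D.H), 0 < t →
      t ≤ K.ε0 → 0 ≤ β → D.Fn s → D.KillsI s → D.Bd s M t β → K.IsTh t s Θ →
      |D.qH Θ (D.iota α) - s α| ≤ C * t * β := by
  obtain ⟨C, hC, h⟩ := ap α M ha
  obtain ⟨C1, hC1, h1⟩ := nk.dom_sup
  obtain ⟨C2, hC2, h2⟩ := se.nrmm_le M
  refine ⟨C1 * C2 * C, by positivity, fun t β s Θ ht ht' hβ hs hI hb hT => ?_⟩
  have t1 : t ≤ 1 := by linarith [DEA.eps_le K]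
  have sm := ms.sm t (D.iota α) ht ht'
  have sm' := F2.sm_sub fo sm ha
  rw [hT, ← fn_sub fo hs sm ha, fo.s_sum s _ hs hI sm']
  refine (Finset.abs_sum_le_sum_abs _ _).trans ?_
  have e : ∀ j, |D.sj s j (D.cj j (K.M t (D.iota α) - α))|
      ≤ β * C1 * Nk M (D.cj j (K.M t (D.iota α) - α)) := fun j => by
    have hc := fo.cj_cc j _ sm'
    have hN := nk.nonneg M (D.cj j (K.M t (D.iota α) - α))
    refine (hb j _ _ (hc.mono (by linarith)) (nk.dom_nk ht t1 (hc.mono (by norm_num)))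
      (h1 _ hN).1).trans ?_
    rw [mul_assoc]
    exact mul_le_mul_of_nonneg_left (h1 _ hN).2 hβ
  refine (Finset.sum_le_sum fun j _ => e j).trans ?_
  rw [← Finset.mul_sum]
  have e2 := (h2 _ sm').trans (mul_le_mul_of_nonneg_left (h t ht ht') hC2)
  calc _ ≤ β * C1 * (C2 * (C * t)) := mul_le_mul_of_nonneg_left e2 (by positivity)
    _ = _ := by ring

lemma uniform3 {P : Fin 3 → ℝ → Prop} (h : ∀ i, ∃ C, 0 ≤ C ∧ P i C)
    (hm : ∀ i C C', C ≤ C' → P i C → P i C') : ∃ C, 0 ≤ C ∧ ∀ i, P i C := by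
  choose C h0 h1 using h
  refine ⟨∑ i, C i, Finset.sum_nonneg fun i _ => h0 i, fun i => hm i _ _ ?_ (h1 i)⟩
  exact Finset.single_le_sum (fun i _ => h0 i) (Finset.mem_univ i)

lemma err_ord3 (fo : FormS D) (ms : MS K) (ap : AppS K) {w : Fin 3 → Form X}
    (ha : ∀ i, D.Sm (w i)) (k : ℕ) :
    ∃ C, 0 ≤ C ∧ ∀ i (t Λ : ℝ) (R : Form X → ℝ) (Θ : D.H), 0 < t → t ≤ K.ε0 → 0 ≤ Λ → D.Fn R →
      D.Ord R k Λ → K.IsTh t R Θ → |D.qH Θ (D.iota (w i)) - R (w i)| ≤ C * t * Λ :=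
  uniform3 (fun i => err_ord fo ms ap (ha i) k) fun _ _ _ hC h t Λ R Θ a b c d e f =>
    (h t Λ R Θ a b c d e f).trans (by gcongr)

lemma err_bd3 (nk : NkS) (fo : FormS D) (se : SemS D) (ms : MS K) (ap : AppS K)
    {w : Fin 3 → Form X} (ha : ∀ i, D.Sm (w i)) (M : ℕ) :
    ∃ C, 0 ≤ C ∧ ∀ i (t β : ℝ) (s : Form X → ℝ) (Θ : D.H), 0 < t →
      t ≤ K.ε0 → 0 ≤ β → D.Fn s → D.KillsI s → D.Bd s M t β → K.IsTh t s Θ →
      |D.qH Θ (D.iota (w i)) - s (w i)| ≤ C * t * β :=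
  uniform3 (fun i => err_bd nk fo se ms ap (ha i) M) fun _ _ _ hC h t β s Θ a b c d e f g =>
    (h t β s Θ a b c d e f g).trans (by gcongr)

/-- closed currents of finite order vanish on null forms -/
lemma kills_null (fo : FormS D) (hi : HilS D) (ms : MS K) (ap : AppS K) (cs : ClosS K)
    {γ : Form X} (hγ : Null D γ) {R : Form X → ℝ} {k : ℕ} {Λ : ℝ} (hΛ : 0 ≤ Λ) (hR : D.Fn R)
    (ho : D.Ord R k Λ) (hD : D.KillsD R) : R γ = 0 := by
  obtain ⟨C, hC, h⟩ := err_ord fo ms ap hγ.1 k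
  obtain ⟨C', -, h'⟩ := ms.theta k
  have key : ∀ t, 0 < t → t ≤ K.ε0 → |R γ| ≤ C * t * Λ := fun t ht ht' => by
    obtain ⟨Θ, hT, -⟩ := h' t R Λ ht ht' hΛ hR ho
    have hc : IsClosed {g : D.H | D.qH g (D.iota γ) = 0} :=
      isClosed_eq (cont_qH_l _) continuous_const
    have h0 : D.qH Θ (D.iota γ) = 0 := by
      refine closure_minimal ?_ hc (mem_closure_closed cs ht ht' hR hD hT)
      rintro _ ⟨δ, a, b, rfl⟩
      exact (II_symm hi δ γ).trans (hγ.2.2 δ a b)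
    have := h t Λ R Θ ht ht' hΛ hR ho hT
    rwa [h0, zero_sub, abs_neg] at this
  have lim : Tendsto (fun t : ℝ => C * t * Λ) (𝓝[>] 0) (𝓝 (C * 0 * Λ)) :=
    (Continuous.tendsto (by fun_prop) 0).mono_left nhdsWithin_le_nhds
  rw [mul_zero, zero_mul] at lim
  refine abs_nonpos_iff.1 (ge_of_tendsto lim ?_)
  filter_upwards [Ioc_mem_nhdsGT K.pos] with t ht using key t ht.1 ht.2

end Vale.Agent.P247
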