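import Vale.Agent.P247.Defs

set_option maxSynthPendingDepth 3

open scoped Topology ContDiff RealInnerProductSpace Manifold
open Set Metric MeasureTheory Filter

noncomputable section
namespace Vale.Agent.P247

open Vale.Agent.P204 Vale.Agent.P204.Bridge

namespace KopK

lemma cv (Hs : V × V × ℝ → Op) (a : V → E6) {ε : ℝ} (hε : 0 < ε) (z : V) :
    ∫ y, ksc Hs ε y z (a y) = ∫ v, Hs (z - ε • v, v, ε) (a (z - ε • v)) := by
  have h1 := Measure.integral_comp_smul volume (fun x : V => ksc Hs ε (z - x) z (a (z - x))) ε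
  rw [integral_sub_left_eq_self (fun y => ksc Hs ε y z (a y)), finrank_euclideanSpace_fin,
    abs_of_pos (by positivity)] at h1
  simp only [ksc, sub_sub_cancel, smul_smul, inv_mul_cancel₀ hε.ne', one_smul,
    smul_apply, integral_smul] at h1 ⊢
  exact (smul_right_injective E6 (inv_ne_zero (pow_ne_zero 4 hε.ne'))
    (h1.trans (mul_smul _ _ _))).symm

lemma sl_id (u v : V) (c : ℝ) : sl u v (c • ContinuousLinearMap.id ℝ E6) = c • st u v :=
  wq_ext fun β => by
    rw [wq_sl, wq_smul_l, wq_symm, wq_st]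
    simp

lemma st_pos (F : Frame) (z : V) : 0 < pull (F.Ai z) (st (bv 0) (F.J z (bv 0))) 0 := by
  have h1 := pull_st (F.A z) (F.Ai z) (F.inv1 z) (bv 0) (F.J z (bv 0))
  have h2 := congrArg (fun h : E6 => h 0) h1
  simp only [F.A_J, st_J0_0, PiLp.smul_apply, smul_eq_mul] at h2
  have h3 := F.le_norm_A z (bv 0)
  rw [norm_bv] at h3
  have h4 : 0 < ‖F.A z (bv 0)‖ ^ 2 / 2 := by
    have : 0 < ‖F.A z (bv 0)‖ := by linarith
    positivity
  rw [← h2] at h4
  exact (pos_iff_pos_of_mul_pos h4).1 (F.det_pos z)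

/-- the weight of the kernel at scale zero is nonnegative -/
lemma wt_nonneg (F : Frame) {Hs : V × V × ℝ → Op} (hH : ContDiff ℝ ∞ Hs) {ε0 Cc : ℝ}
    (hε0 : 0 < ε0) (hc : ∀ ε, 0 < ε → ε ≤ ε0 → Cone F (ksc Hs ε) Cc ε) {z v : V} (hz : ‖z‖ ≤ 2)
    {c : ℝ} (h0 : Hs (z, v, 0) = c • ContinuousLinearMap.id ℝ E6) : 0 ≤ c := by
  let φ : ℝ → ℝ := fun ε =>
    pull (F.Ai z) (sl (bv 0) (F.J (z + ε • v) (bv 0)) (Hs (z, v, ε))) 0 + Cc * ε ^ 2
  have hφ : Continuous φ := by
    have a1 : Continuous fun ε : ℝ => F.J (z + ε • v) (bv 0) :=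
      (F.smJ.continuous.comp (by fun_prop)).clm_apply continuous_const
    have a2 : Continuous fun ε : ℝ => sl (bv 0) (F.J (z + ε • v) (bv 0)) :=
      (contDiff_sl (n := 0)).continuous.comp (continuous_const.prodMk a1)
    have a3 : Continuous fun ε : ℝ => Hs (z, v, ε) := hH.continuous.comp (by fun_prop)
    have a4 : Continuous fun ε : ℝ =>
        pull (F.Ai z) (sl (bv 0) (F.J (z + ε • v) (bv 0)) (Hs (z, v, ε))) :=
      (pull (F.Ai z)).continuous.comp (a2.clm_apply a3)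
    exact ((p6 0).continuous.comp a4).add (by fun_prop)
  have h1 : ∀ ε, 0 < ε → ε ≤ ε0 → 0 ≤ φ ε := fun ε hε hε' => by
    have h2 := (hc ε hε hε' z (z + ε • v) (bv 0) hz (norm_bv 0)).2.2
    have h3 : ksc Hs ε z (z + ε • v) = (ε ^ 4)⁻¹ • Hs (z, v, ε) := by
      simp only [ksc, add_sub_cancel_left, smul_smul, inv_mul_cancel₀ hε.ne', one_smul]
    have h4 := (norm_nonneg _).trans h2
    rw [h3, map_smul, map_smul, PiLp.smul_apply, smul_eq_mul] at h4
    have h5 : φ ε = ε ^ 4 * ((ε ^ 4)⁻¹ *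
        pull (F.Ai z) (sl (bv 0) (F.J (z + ε • v) (bv 0)) (Hs (z, v, ε))) 0 + Cc * (ε ^ 2)⁻¹) := by
      simp only [φ]
      field_simp
    rw [h5]
    positivity
  have h6 : 0 ≤ φ 0 := by
    refine ge_of_tendsto (hφ.continuousAt.tendsto.mono_left (nhdsWithin_le_nhds (s := Ioi 0))) ?_
    filter_upwards [Ioc_mem_nhdsGT hε0] with ε hε using h1 ε hε.1 hε.2
  simp only [φ, zero_smul, add_zero, h0] at h6
  rw [sl_id, map_smul, PiLp.smul_apply, smul_eq_mul] at h6
  have h7 : 0 ≤ c * pull (F.Ai z) (st (bv 0) (F.J z (bv 0))) 0 := by simpa using h6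
  exact nonneg_of_mul_nonneg_left h7 (st_pos F z)

lemma intOn {K : Set V} (hK : IsCompact K) {Φ : V → Op} (hΦ : ContinuousOn Φ K) {g : V → E6}
    (hg : Integrable g) : IntegrableOn (fun v => Φ v (g v)) K := by
  obtain ⟨M, hM⟩ := hK.exists_bound_of_continuousOn hΦ
  have h1 : AEStronglyMeasurable Φ (volume.restrict K) := hΦ.aestronglyMeasurable hK.measurableSet
  refine Integrable.mono' ((hg.integrableOn (s := K)).norm.const_mul M) ?_ ?_
  · exact isBoundedBilinearMap_apply.continuous.comp_aestronglyMeasurable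
      (h1.prodMk hg.aestronglyMeasurable.restrict)
  · filter_upwards [ae_restrict_mem hK.measurableSet] with v hv
    exact ((Φ v).le_opNorm _).trans (mul_le_mul_of_nonneg_right (hM v hv) (norm_nonneg _))

/-- the rescaling factor -/
def fac (F : Frame) (σ : V → ℝ) (z y : V) : ℝ := √(σ z * (F.A y).det / (σ y * (F.A z).det))

/-- transport of a framed form from `y` to `z` -/
def tp (F : Frame) (σ : V → ℝ) (z y : V) : Op :=
  fac F σ z y • (pull (F.A z)).comp (pull (F.Ai y))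

lemma tp_self (F : Frame) {σ : V → ℝ} {z : V} (hz : 0 < σ z) :
    tp F σ z z = ContinuousLinearMap.id ℝ E6 := by
  have h1 : fac F σ z z = 1 := by
    rw [fac, div_self (mul_pos hz (F.det_pos z)).ne', Real.sqrt_one]
  ext1 h
  simp [tp, h1]

lemma pull_tp (F : Frame) (σ : V → ℝ) (z y : V) (g : E6) :
    pull (F.Ai z) (tp F σ z y g) = fac F σ z y • pull (F.Ai y) g := by
  simp [tp]

lemma pair_ge (li : LinS) (F : Frame) {σ : V → ℝ} {z y : V} (hz : 0 < σ z) (hy : 0 < σ y)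
    {g u : E6} (h1 : Pm (pull (F.Ai y) g) = 0) (h2 : ‖Pa (pull (F.Ai y) g)‖ ≤ pull (F.Ai y) g 0)
    (h3 : σ y ≤ wq g g) (hu : ‖Pa u‖ ≤ u 0) (hu' : Pm u = 0) :
    √(σ z / (F.A z).det) * √(wq u u) ≤ wq (pull (F.Ai z) (tp F σ z y g)) u := by
  obtain ⟨a1, a2⟩ := li.rcs _ u h2 hu h1 hu'
  obtain ⟨a3, -⟩ := li.rcs u u hu hu hu' hu'
  rw [pull_tp, wq_smul_l]
  have dy := F.det_pos y
  have dz := F.det_pos z
  have e1 : (F.Ai y).det = ((F.A y).det)⁻¹ := eq_inv_of_mul_eq_one_left (F.det_mul y)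
  rw [wq_pull, e1] at a2
  have a4 : √(σ y / (F.A y).det) * √(wq u u) ≤ wq (pull (F.Ai y) g) u := by
    rw [← Real.sqrt_mul (by positivity)]
    refine Real.sqrt_le_iff.2 ⟨a1, le_trans ?_ a2⟩
    refine mul_le_mul_of_nonneg_right ?_ a3
    rw [div_eq_inv_mul]
    exact mul_le_mul_of_nonneg_left h3 (by positivity)
  have a5 : √(σ z / (F.A z).det) = fac F σ z y * √(σ y / (F.A y).det) := by
    rw [fac, ← Real.sqrt_mul (by positivity)]
    congr 1
    field_simp
  rw [a5, mul_assoc]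
  exact mul_le_mul_of_nonneg_left a4 (Real.sqrt_nonneg _)

/-- the compact parameter set -/
def S (C0 ε0 : ℝ) : Set (V × V × ℝ) := closedBall 0 1 ×ˢ closedBall 0 C0 ×ˢ Icc 0 ε0

lemma near {C0 ε0 : ℝ} (h : C0 * ε0 ≤ 1 / 2) {p : V × V × ℝ} (hp : p ∈ S C0 ε0) :
    ‖p.1‖ ≤ 1 ∧ ‖p.1 - p.2.2 • p.2.1‖ ≤ 2 := by
  obtain ⟨h1, h2, h3, h4⟩ := hp
  rw [mem_closedBall_zero_iff] at h1 h2
  refine ⟨h1, (norm_sub_le _ _).trans ?_⟩
  rw [norm_smul, Real.norm_of_nonneg h3]
  have : p.2.2 * ‖p.2.1‖ ≤ ε0 * C0 := mul_le_mul h4 h2 (norm_nonneg _) (h3.trans h4)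
  linarith [mul_comm C0 ε0]

lemma tp_sm (F : Frame) {σ : V → ℝ} (hσ : ContDiffOn ℝ ∞ σ (ball 0 3))
    (hpos : ∀ y, ‖y‖ ≤ 2 → 0 < σ y) {C0 ε0 : ℝ} (h : C0 * ε0 ≤ 1 / 2) :
    ContDiffOn ℝ ∞ (fun p : V × V × ℝ => tp F σ p.1 (p.1 - p.2.2 • p.2.1)) (S C0 ε0) := by
  have h1 : ContDiff ℝ ∞ fun p : V × V × ℝ => p.1 - p.2.2 • p.2.1 := by fun_prop
  have h2 : ContDiffOn ℝ ∞ (fun p : V × V × ℝ => σ p.1) (S C0 ε0) :=
    hσ.comp contDiff_fst.contDiffOn fun p hp =>
      mem_ball_zero_iff.2 (by linarith [(near h hp).1])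
  have h3 : ContDiffOn ℝ ∞ (fun p : V × V × ℝ => σ (p.1 - p.2.2 • p.2.1)) (S C0 ε0) :=
    hσ.comp h1.contDiffOn fun p hp => mem_ball_zero_iff.2 (by linarith [(near h hp).2])
  have h4 : ContDiff ℝ ∞ fun p : V × V × ℝ => (F.A p.1).det := cd_det (F.smA.comp contDiff_fst)
  have h5 : ContDiff ℝ ∞ fun p : V × V × ℝ => (F.A (p.1 - p.2.2 • p.2.1)).det :=
    cd_det (F.smA.comp h1)
  have h6 : ContDiffOn ℝ ∞ (fun p : V × V × ℝ => fac F σ p.1 (p.1 - p.2.2 • p.2.1)) (S C0 ε0) := by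
    refine ContDiffOn.sqrt ((h2.mul h5.contDiffOn).div (h3.mul h4.contDiffOn) fun p hp => ?_)
      fun p hp => ?_
    · exact (mul_pos (hpos _ (near h hp).2) (F.det_pos _)).ne'
    · exact (div_pos (mul_pos (hpos _ ((near h hp).1.trans one_le_two)) (F.det_pos _))
        (mul_pos (hpos _ (near h hp).2) (F.det_pos _))).ne'
  exact h6.smul ((cd_pull (F.smA.comp contDiff_fst)).clm_comp (cd_pull (F.smAi.comp h1))).contDiffOn

end KopK

open KopK in
theorem kopKS (li : LinS) : KopKS := by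
  intro F Hs C0 ε0 Cc σ hs hC0 hε0 hsm hc hσ hpos
  obtain ⟨hH, hz0, h, hh, hint⟩ := hs
  let w : V × V × ℝ → ℝ := fun p => Hs (p.1, p.2.1, 0) (b6 0) 0
  have hw : ContDiff ℝ ∞ w := (p6 0).contDiff.comp
    ((hH.comp (by fun_prop : ContDiff ℝ ∞ fun p : V × V × ℝ => (p.1, p.2.1, (0 : ℝ)))).clm_apply
      contDiff_const)
  have hwh : ∀ z v t, ‖z‖ ≤ 1 → w (z, v, t) = h z v := fun z v t hz => by
    simp [w, hh z v (by linarith), b6_apply]
  let W : V × V × ℝ → Op := fun p => w p • tp F σ p.1 (p.1 - p.2.2 • p.2.1)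
  let U : V × V × ℝ → Op := fun p => Hs (p.1 - p.2.2 • p.2.1, p.2.1, p.2.2)
  have hW : ContDiffOn ℝ ∞ W (S C0 ε0) := hw.contDiffOn.smul (tp_sm F hσ hpos hsm)
  have hU : ContDiff ℝ ∞ U := hH.comp (by fun_prop)
  obtain ⟨L, hL⟩ := (hU.contDiffOn.sub hW).exists_lipschitzOnWith (by simp)
    ((convex_closedBall _ _).prod ((convex_closedBall _ _).prod (convex_Icc _ _)))
    ((isCompact_closedBall _ _).prod ((isCompact_closedBall _ _).prod isCompact_Icc))
  let K : Set V := closedBall 0 C0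
  have hK : IsCompact K := isCompact_closedBall _ _
  refine ⟨L * volume.real K, by positivity, fun t B g ht ht' hB hg hae z hz => ?_⟩
  have hS : ∀ v ∈ K, ∀ s, 0 ≤ s → s ≤ ε0 → (z, v, s) ∈ S C0 ε0 := fun v hv s h1 h2 =>
    ⟨mem_closedBall_zero_iff.2 hz, hv, h1, h2⟩
  have hσz : 0 < σ z := hpos z (hz.trans one_le_two)
  have hd : ∀ v ∈ K, ‖U (z, v, t) - W (z, v, t)‖ ≤ L * t := fun v hv => by
    have h1 := hL.norm_sub_le (hS v hv t ht.le ht') (hS v hv 0 le_rfl hε0.le)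
    have h2 : U (z, v, 0) - W (z, v, 0) = 0 := by
      simp only [U, W, zero_smul, sub_zero, tp_self F hσz, hwh z v 0 hz, hh z v (by linarith),
        sub_self]
    rw [h2, sub_zero] at h1
    simpa [Prod.norm_def, abs_of_pos ht, max_eq_right ht.le] using h1
  let g' : V → E6 := fun v => g (z - t • v)
  have hg' : Integrable g' := (hg.comp_sub_left z).comp_smul ht.ne'
  have hq : Measure.QuasiMeasurePreserving (fun v : V => z - t • v) volume volume :=
    (Measure.measurePreserving_sub_left volume z).quasiMeasurePreserving.comp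
      (Measure.quasiMeasurePreserving_smul volume ht.ne')
  have hae' : ∀ᵐ v ∂volume.restrict K, v ∈ K ∧ Pm (pull (F.Ai (z - t • v)) (g' v)) = 0 ∧
      ‖Pa (pull (F.Ai (z - t • v)) (g' v))‖ ≤ pull (F.Ai (z - t • v)) (g' v) 0 ∧
      σ (z - t • v) ≤ wq (g' v) (g' v) ∧ ‖g' v‖ ≤ B := by
    filter_upwards [ae_restrict_mem hK.measurableSet, ae_restrict_of_ae (hq.ae hae)] with v hv h1
    exact ⟨hv, h1 (near hsm (hS v hv t ht.le ht')).2⟩
  have cs : Continuous fun v : V => (z, v, t) := by fun_prop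
  have iW : IntegrableOn (fun v => W (z, v, t) (g' v)) K :=
    intOn hK (hW.continuousOn.comp cs.continuousOn fun v hv => hS v hv t ht.le ht') hg'
  have iU : IntegrableOn (fun v => U (z, v, t) (g' v)) K :=
    intOn hK (hU.continuous.comp cs).continuousOn hg'
  have hwK : ∫ v in K, w (z, v, t) = 1 := by
    rw [setIntegral_eq_integral_of_forall_compl_eq_zero fun v hv => ?_]
    · simp only [hwh z _ t hz, hint z (by linarith)]
    · simp only [w, hz0 z v 0 (not_le.1 fun h => hv (mem_closedBall_zero_iff.2 h)), zero_apply,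
        PiLp.zero_apply]
  have iw : IntegrableOn (fun v => w (z, v, t)) K :=
    (hw.continuous.comp cs).continuousOn.integrableOn_compact hK
  have hw0 : ∀ v, 0 ≤ w (z, v, t) := fun v => by
    rw [hwh z v t hz]
    exact wt_nonneg F hH hε0 hc (hz.trans one_le_two) (hh z v (by linarith))
  have hPm : Pm (pull (F.Ai z) (∫ v in K, W (z, v, t) (g' v))) = 0 := by
    rw [← ContinuousLinearMap.comp_apply, ← ContinuousLinearMap.integral_comp_comm _ iW]
    refine integral_eq_zero_of_ae ?_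
    filter_upwards [hae'] with v hv
    simp only [W, ContinuousLinearMap.comp_apply, smul_apply, map_smul, pull_tp, hv.2.1, smul_zero,
      Pi.zero_apply]
  have dz := F.det_pos z
  obtain ⟨c1, c2⟩ := li.dual (pull (F.Ai z) (∫ v in K, W (z, v, t) (g' v))) √(σ z / (F.A z).det)
    (Real.sqrt_pos.2 (by positivity)) hPm fun u hu hu' => by
      rw [wq_symm (pull _ _) u, ← wqL_apply u (pull _ _), ← ContinuousLinearMap.comp_apply,
        ← ContinuousLinearMap.integral_comp_comm _ iW]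
      have e : √(σ z / (F.A z).det) * √(wq u u)
          = ∫ v in K, w (z, v, t) * (√(σ z / (F.A z).det) * √(wq u u)) := by
        rw [integral_mul_const, hwK, one_mul]
      rw [e]
      refine integral_mono_ae (iw.mul_const _) (ContinuousLinearMap.integrable_comp _ iW) ?_
      filter_upwards [hae'] with v hv
      simp only [W, ContinuousLinearMap.comp_apply, smul_apply, map_smul, wqL_apply, smul_eq_mul]
      refine mul_le_mul_of_nonneg_left ?_ (hw0 v)
      rw [wq_symm u (pull _ _)]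
      exact pair_ge li F hσz (hpos _ (near hsm (hS v hv.1 t ht.le ht')).2) hv.2.1 hv.2.2.1
        hv.2.2.2.1 hu hu'
  refine ⟨∫ v in K, W (z, v, t) (g' v), hPm, c1.le, ?_, ?_⟩
  · rw [Real.sq_sqrt (by positivity), wq_pull, eq_inv_of_mul_eq_one_left (F.det_mul z),
      div_eq_inv_mul] at c2
    exact le_of_mul_le_mul_left c2 (by positivity)
  · have e : ∫ y, ksc Hs t y z (g y) = ∫ v in K, U (z, v, t) (g' v) := by
      rw [cv Hs g ht, setIntegral_eq_integral_of_forall_compl_eq_zero fun v hv => ?_]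
      simp only [U, hz0 _ v t (not_le.1 fun h => hv (mem_closedBall_zero_iff.2 h)), zero_apply]
    rw [e, ← integral_sub iU iW]
    have e2 : L * volume.real K * t * B = (L * t * B) * volume.real K := by ring
    rw [e2]
    refine norm_setIntegral_le_of_norm_le_const_ae hK.measure_lt_top ?_
    filter_upwards [hae'] with v hv
    rw [← sub_apply]
    exact (ContinuousLinearMap.le_opNorm _ _).trans
      (mul_le_mul (hd v hv.1) hv.2.2.2.2 (norm_nonneg _) (by positivity))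

end Vale.Agent.P247
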