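import Vale.Agent.P247.Bdd0
import Vale.Agent.P204.Sev
import Vale.Agent.P204.MT
import Vale.Agent.P204.Cur
import Vale.Agent.P204.Hil

/-! Positive currents which are exact up to an anti-invariant part. -/

set_option maxSynthPendingDepth 3
set_option linter.unusedSectionVars false

open scoped Topology ContDiff RealInnerProductSpace Manifold
open Set Metric MeasureTheory Filter

noncomputable section
namespace Vale.Agent.P247

open Vale.Agent.P204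

variable {X : Type*} [TopologicalSpace X] [T2Space X] {D : Dat X} {K : Ker D}

namespace MT2
open Sev

lemma cm3 (ta : TauS) (ga : GeoA D.toAtl) (fo : FormS D) {m : Fin D.n → Measure (V × V)}
    (h : ∀ j, PM 1 (m j)) : ∃ mm m0 ms : Fin D.n → Measure (V × V), D.IsCM m mm ∧
      (∀ j, PM 1 (m0 j)) ∧ (∀ j, PM 1 (ms j)) ∧
      D.IsCM m0 (fun j => (mm j).restrict {p | p.1 ∈ Efin (mm j)}) ∧
      D.IsCM ms (fun j => (mm j).restrict {p | p.1 ∈ (Efin (mm j))ᶜ}) ∧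
      ∀ α, D.Sm α → D.T m α = D.T m0 α + D.T ms α := by
  have hE : ∀ j, MeasurableSet (Efin (Cur.mm D m j)) := fun j =>
    ta.efin_meas _ (Cur.pm_mm ga h j).1
  refine ⟨Cur.mm D m, fun i => (m i).restrict {p | p.1 ∈ Efin (Cur.mm D m i)},
    fun i => (m i).restrict {p | p.1 ∈ (Efin (Cur.mm D m i))ᶜ}, ?_, fun i => ?_, fun i => ?_,
    Cur.cm_gen ga fo h hE fun i j x hi hj => Cur.key ga h hi hj,
    Cur.cm_gen ga fo h (fun j => (hE j).compl) fun i j x hi hj a b => a (Cur.key ga h hj hi b),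
    fun α hα => ?_⟩
  · simpa using Cur.cm_gen ga fo h (A := fun _ => univ) (fun _ => MeasurableSet.univ)
      fun _ _ _ _ _ _ => mem_univ _
  · have := (h i).1
    exact ⟨inferInstance, ae_restrict_of_ae (h i).2⟩
  · have := (h i).1
    exact ⟨inferInstance, ae_restrict_of_ae (h i).2⟩
  · simp only [Dat.T, TL, ← Finset.sum_add_distrib]
    exact Finset.sum_congr rfl fun i _ =>
      (integral_add_compl (measurable_fst (hE i)) (Cur.sm_int (h i) hα i)).symm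

lemma ev_lin (C : ℝ) {η : ℝ} (hη : 0 < η) : ∀ᶠ t in 𝓝[>] (0 : ℝ), C * t ≤ η := by
  have : Tendsto (fun t : ℝ => C * t) (𝓝 0) (𝓝 (C * 0)) := Continuous.tendsto (by fun_prop) 0
  rw [mul_zero] at this
  exact (this.mono_left nhdsWithin_le_nhds).eventually_le_const hη

lemma G_mono (ta : TauS) (μ μ' : Measure (V × V)) [IsFiniteMeasure μ] [IsFiniteMeasure μ']
    (S : Set (V × V)) (r : ℝ) : G (μ.restrict S) μ' r ≤ G μ μ' r := by
  refine integral_mono ((mass_int ta _ μ' r).div_const _).integrableOn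
    ((mass_int ta μ μ' r).div_const _).integrableOn fun p => ?_
  exact div_le_div_of_nonneg_right
    (ENNReal.toReal_mono (measure_ne_top _ _) (Measure.restrict_apply_le _ _)) (sq_nonneg r)

lemma tau0_small (ta : TauS) (hi : HilS D) {mm : Fin D.n → Measure (V × V)} {Dn : ℝ}
    (hf : ∀ j, IsFiniteMeasure (mm j))
    (hD : ∀ j y r, ‖y‖ ≤ 4 → 0 < r → mass (mm j) y r ≤ Dn * r ^ 2) {δ : ℝ} (hδ : 0 < δ) :
    ∀ᶠ t in 𝓝[>] (0 : ℝ), ∀ j, t ^ 2 * ∫ y, tau ((mm j).restrict {p | p.1 ∈ Efin (mm j)}) K.C0 t y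
      * tau ((mm j).restrict {p | p.1 ∈ Efin (mm j)}) K.C0 t y ∂(D.nu j) ≤ δ := by
  obtain ⟨C1, hC1, htt⟩ := tt_le (K := K) ta hi
  have hC0 : 0 < K.C0 := one_pos.trans_le K.one_le
  have hr : Tendsto (fun t : ℝ => 2 * K.C0 * t) (𝓝[>] 0) (𝓝[>] 0) := by
    refine tendsto_nhdsWithin_iff.mpr ⟨?_, ?_⟩
    · have : Tendsto (fun t : ℝ => 2 * K.C0 * t) (𝓝 0) (𝓝 (2 * K.C0 * 0)) :=
        Continuous.tendsto (by fun_prop) 0
      rw [mul_zero] at this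
      exact this.mono_left nhdsWithin_le_nhds
    · filter_upwards [self_mem_nhdsWithin] with t ht
      have ht' : 0 < t := ht
      show 0 < 2 * K.C0 * t
      positivity
  refine eventually_all.2 fun j => ?_
  have := hf j
  have hl := ((G_tendsto ta (hD j)).comp hr).const_mul C1
  rw [mul_zero] at hl
  filter_upwards [ev_small (K := K), hl.eventually_le_const hδ] with t ht h
  refine (htt j _ _ t inferInstance inferInstance ht.1 ht.2).2.trans (le_trans ?_ h)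
  exact mul_le_mul_of_nonneg_left (G_mono ta _ _ _ _) hC1

lemma lower (ta : TauS) (hi : HilS D) (th : ThTS K) {m0 mm : Fin D.n → Measure (V × V)} {Dn : ℝ}
    (hm0 : ∀ j, PM 1 (m0 j)) (hf : ∀ j, IsFiniteMeasure (mm j))
    (hmm0 : D.IsCM m0 (fun j => (mm j).restrict {p | p.1 ∈ Efin (mm j)}))
    (hD : ∀ j y r, ‖y‖ ≤ 4 → 0 < r → mass (mm j) y r ≤ Dn * r ^ 2) {η : ℝ} (hη : 0 < η) :
    ∀ᶠ t in 𝓝[>] (0 : ℝ), ∀ T0, K.IsTh t (D.T m0) T0 → -η ≤ D.qH T0 T0 := by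
  obtain ⟨C, hC, h⟩ := th
  obtain ⟨C1, -, htt⟩ := tt_le (K := K) ta hi
  have hδ : 0 < η / (8 * C ^ 2 * D.n + 1) := by positivity
  filter_upwards [ev_small (K := K), tau0_small (K := K) ta hi hf hD hδ] with t ht hl T0 hT0
  obtain ⟨ht, ht0⟩ := ht
  have b0 := h t m0 _ T0 ht ht0 hm0 hmm0 hT0
  obtain ⟨q1, q2⟩ := hi.qH_eq T0 T0
  rw [q2]
  have key : ∀ j, -(8 * C ^ 2 * (η / (8 * C ^ 2 * D.n + 1)))
      ≤ ∫ y, wq (T0 j y) (T0 j y) ∂(D.nu j) := fun j => by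
    have := hf j
    have i1 := (htt j ((mm j).restrict {p | p.1 ∈ Efin (mm j)})
      ((mm j).restrict {p | p.1 ∈ Efin (mm j)}) t inferInstance inferInstance ht ht0).1
    refine (neg_le_neg (mul_le_mul_of_nonneg_left (hl j) (by positivity))).trans ?_
    rw [← integral_const_mul, ← integral_const_mul, ← integral_neg]
    refine integral_mono_ae ((i1.const_mul _).const_mul _).neg (q1 j) ?_
    filter_upwards [b0 j] with y y0
    exact pt_bound hC ht (t_small ht ht0).2 (tau_nn _ _ ht y) (tau_nn _ _ ht y) y0.1 y0.2.1 y0.2.2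
      y0.1 y0.2.1 y0.2.2
  refine le_trans ?_ (Finset.sum_le_sum fun j _ => key j)
  rw [Finset.sum_const, Finset.card_univ, Fintype.card_fin, nsmul_eq_mul, mul_neg, neg_le_neg_iff,
    ← mul_assoc, mul_div_assoc', div_le_iff₀ (by positivity)]
  nlinarith

section
variable (nk : NkS) (ta : TauS) (fo : FormS D) (se : SemS D) (hi : HilS D) (cu : CurS D) (ms : MS K)
  (le : LeakS K) (th : ThTS K) (io : IotaS D) (ap : AppS K) (cs : ClosS K) {w : Fin 3 → Form X}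
  (hw : Tri D w) {s : Form X → ℝ} (hs : D.Fn s) (hI : D.KillsI s) {M : ℕ} {ε1 B : ℝ}
  (he : 0 < ε1) (he' : ε1 ≤ K.ε0) (hB : 0 ≤ B) (hBd : ∀ ε, 0 < ε → ε ≤ ε1 → D.Bd s M ε B)

include nk ta fo se hi cu ms le th io ap cs hw hs hI he he' hB hBd in
lemma upper {m mm : Fin D.n → Measure (V × V)} {Dn : ℝ} {f : Fin D.n → V → E2}
    (hm : ∀ j, PM 1 (m j)) (hmm : D.IsCM m mm)
    (hD : ∀ j y r, ‖y‖ ≤ 4 → 0 < r → mass (mm j) y r ≤ Dn * r ^ 2)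
    (hf : ∀ j, MemLp (f j) 2 volume ∧ ∀ c, Cc 6 c → D.sj s j c = ∫ y, ⟪f j y, c y⟫)
    (hK : D.KillsD fun α => D.T m α + s α) (h1 : s (w 1) = 0) (h2 : s (w 2) = 0) {η : ℝ}
    (hη : 0 < η) : ∀ᶠ t in 𝓝[>] (0 : ℝ), ∀ T Θ, K.IsTh t (D.T m) T → K.IsTh t s Θ →
      D.qH T T + 2 * ‖D.mapH Pm Θ‖ ^ 2 ≤ (D.T m (w 0) + s (w 0)) ^ 2 + η := by
  obtain ⟨Λ, hΛ, ho⟩ := cu.ord m hm
  obtain ⟨E1, hE1, er1⟩ := err_ord3 fo ms ap hw.sm 0
  obtain ⟨E2, hE2, er2⟩ := err_bd3 nk fo se ms ap hw.sm M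
  obtain ⟨C, hC, hl⟩ := le.leak M
  set p := D.T m (w 0) + s (w 0) with hp
  have lim : Tendsto (fun t : ℝ => 2 * |p| * ((E1 * Λ + E2 * B) * t)
      + 3 * ((E1 * Λ + E2 * B) * t) ^ 2 + 2 * (C * t * B) ^ 2) (𝓝 0)
      (𝓝 (2 * |p| * ((E1 * Λ + E2 * B) * 0) + 3 * ((E1 * Λ + E2 * B) * 0) ^ 2
        + 2 * (C * 0 * B) ^ 2)) := Continuous.tendsto (by fun_prop) 0
  simp only [mul_zero, zero_mul, ne_eq, OfNat.ofNat_ne_zero, not_false_eq_true, zero_pow,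
    add_zero] at lim
  filter_upwards [cross ta fo hi ms le th hm hmm hD hs hI hf (η := η / 4) (by positivity),
    (lim.mono_left nhdsWithin_le_nhds).eventually_le_const (half_pos hη), Ioc_mem_nhdsGT he]
    with t c1 c2 ht T Θ hT hΘ
  have ht0 := ht.2.trans he'
  have k := keyI fo hi io cs hw ht.1 ht0 (fn_add (cu.fn m hm) hs) hK (isTh_add hi hT hΘ)
  set e := (E1 * Λ + E2 * B) * t with he
  have d : ∀ i, |D.qH (T + Θ) (D.iota (w i)) - (D.T m (w i) + s (w i))| ≤ e := fun i => by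
    have d1 := abs_le.1 (er1 i t Λ _ T ht.1 ht0 hΛ (cu.fn m hm) ho hT)
    have d2 := abs_le.1 (er2 i t B s Θ ht.1 ht0 hB hs hI (hBd t ht.1 ht.2) hΘ)
    rw [hi.qH_add]
    exact abs_le.2 ⟨by linarith [d1.1, d2.1], by linarith [d1.2, d2.2]⟩
  have d0 := d 0
  have d1 := d 1
  have d2 := d 2
  rw [io.T_anti m _ hm hw.a1, h1, add_zero, sub_zero] at d1
  rw [io.T_anti m _ hm hw.a2, h2, add_zero, sub_zero] at d2
  rw [← hp] at d0
  have f0 : D.qH (T + Θ) (D.iota (w 0)) ^ 2 ≤ (|p| + e) ^ 2 := by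
    rw [← sq_abs]
    refine pow_le_pow_left₀ (abs_nonneg _) ?_ 2
    linarith [abs_sub_abs_le_abs_sub (D.qH (T + Θ) (D.iota (w 0))) p]
  have f1 : D.qH (T + Θ) (D.iota (w 1)) ^ 2 ≤ e ^ 2 := by
    rw [← sq_abs]; exact pow_le_pow_left₀ (abs_nonneg _) d1 2
  have f2 : D.qH (T + Θ) (D.iota (w 2)) ^ 2 ≤ e ^ 2 := by
    rw [← sq_abs]; exact pow_le_pow_left₀ (abs_nonneg _) d2 2
  rw [Fin.sum_univ_three, hi.qH_add, hi.qH_symm T, hi.qH_symm Θ, hi.qH_add, hi.qH_add,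
    hi.qH_symm T Θ] at k
  have e1 := (abs_le.mp (c1 Θ T hΘ hT)).1
  have e3 := hi.qH_self Θ
  have e5 : ‖D.mapH Po Θ‖ ^ 2 ≤ (C * t * B) ^ 2 := pow_le_pow_left₀ (norm_nonneg _)
    (hl t B s Θ ht.1 ht0 hB hs hI hΘ (hBd t ht.1 ht.2)) 2
  have := sq_abs p
  nlinarith

include nk fo se hi ms le ap hw hs hI he he' hB hBd in
lemma sw {η : ℝ} (hη : 0 < η) : ∀ᶠ t in 𝓝[>] (0 : ℝ), ∀ Θ, K.IsTh t s Θ →
    |s (w 0)| ≤ 2 * ‖D.mapH Pm Θ‖ * ‖D.mapH Pm (D.iota (w 0))‖ + η := by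
  obtain ⟨E2, hE2, er2⟩ := err_bd nk fo se ms ap (hw.sm 0) M
  obtain ⟨C, hC, hl⟩ := le.leak M
  set g := D.iota (w 0) with hg
  filter_upwards [ev_lin (E2 * B + 2 * (C * B) * ‖D.mapH Po g‖) hη, Ioc_mem_nhdsGT he]
    with t c ht Θ hΘ
  have ht0 := ht.2.trans he'
  have d := abs_le.1 (er2 t B s Θ ht.1 ht0 hB hs hI (hBd t ht.1 ht.2) hΘ)
  have l := hl t B s Θ ht.1 ht0 hB hs hI hΘ (hBd t ht.1 ht.2)
  have z : ∀ h : D.H, D.mapH Po (D.mapH Pm h) = 0 := fun h =>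
    (Hil.map_map (L'' := 0) (fun a => by apply E6_ext <;> simp) h).trans (Hil.map_zero' h)
  have e1 : D.qH Θ g = D.qH Θ (D.mapH Pm g) + D.qH (D.mapH Po Θ) (D.mapH Po g) := by
    have a1 := hi.qH_minus (D.mapH Po g) (D.mapH Pm Θ) (z Θ)
    rw [Hil.MO, norm_zero, mul_zero, zero_mul, abs_nonpos_iff] at a1
    have a2 := hi.qH_add (D.mapH Pm g) (D.mapH Po g) Θ
    have a3 := hi.qH_add (D.mapH Pm Θ) (D.mapH Po Θ) (D.mapH Po g)
    rw [Hil.split] at a2 a3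
    rw [hi.qH_symm Θ g, a2, hi.qH_symm (D.mapH Po g) Θ, a3, hi.qH_symm (D.mapH Pm Θ), a1,
      hi.qH_symm Θ]
    ring
  have e2 := abs_le.1 (hi.qH_minus Θ (D.mapH Pm g) (z g))
  have e3 := abs_le.1 (hi.qH_le (D.mapH Po Θ) (D.mapH Po g))
  have e4 := mul_le_mul_of_nonneg_right l (norm_nonneg (D.mapH Po g))
  exact abs_le.2 ⟨by nlinarith [d.2, e2.1, e3.1], by nlinarith [d.1, e2.2, e3.2]⟩

end

lemma alg {x b p : ℝ} (hb : 0 ≤ b)
    (h : ∀ η, 0 < η → ∃ a, 0 ≤ a ∧ 2 * a ^ 2 ≤ p ^ 2 + 2 * η ∧ |x| ≤ 2 * a * b + η) :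
    x ^ 2 ≤ 2 * b ^ 2 * p ^ 2 := by
  have lim : Tendsto (fun η : ℝ => 2 * √(p ^ 2 / 2 + η) * b + η) (𝓝[>] 0)
      (𝓝 (2 * √(p ^ 2 / 2 + 0) * b + 0)) :=
    (Continuous.tendsto (by fun_prop) 0).mono_left nhdsWithin_le_nhds
  have h1 : |x| ≤ 2 * √(p ^ 2 / 2 + 0) * b + 0 := by
    refine ge_of_tendsto lim ?_
    filter_upwards [self_mem_nhdsWithin] with η hη
    obtain ⟨a, a0, a1, a2⟩ := h η hη
    have : a ≤ √(p ^ 2 / 2 + η) := Real.le_sqrt_of_sq_le (by linarith)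
    refine a2.trans ?_
    gcongr
  rw [add_zero, add_zero] at h1
  have h2 := pow_le_pow_left₀ (abs_nonneg x) h1 2
  rw [sq_abs, mul_pow, mul_pow, Real.sq_sqrt (by positivity)] at h2
  linarith

end MT2

/-- first conclusion -/
def MT1S (D : Dat X) (w : Fin 3 → Form X) : Prop :=
  ∀ m s k Λ, (∀ j, PM 1 (m j)) → 0 ≤ Λ → D.Fn s → D.OrdM s k Λ →
    KillsE D (fun α => D.T m α + s α) → s (w 1) = 0 → s (w 2) = 0 →
    D.T m (w 0) ≤ 2 * (D.T m (w 0) + s (w 0))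

/-- second conclusion -/
def MT2S (D : Dat X) (w : Fin 3 → Form X) (ρ : Form X) : Prop :=
  ∀ m s k Λ, (∀ j, PM 1 (m j)) → 0 ≤ Λ → D.Fn s → D.OrdM s k Λ →
    KillsE D (fun α => D.T m α + s α) → s (w 1) = 0 → s (w 2) = 0 →
    ∀ η, 0 < η → ∃ β, InK D ρ 1 β ∧ D.T m β ≤ D.T m (w 0) + s (w 0) + η

open MT2 Sev in
theorem core (nk : NkS) (l2 : L2S) (lo : ∀ F, LocS F) (ta : TauS) (ga : GeoA D.toAtl)
    (fo : FormS D) (se : SemS D) (hi : HilS D) (cu : CurS D) (ms : MS K) (le : LeakS K)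
    (th : ThTS K) (io : IotaS D) (ap : AppS K) (cs : ClosS K) (bd : Bdd0S K)
    {w : Fin 3 → Form X} (hw : Tri D w) {m : Fin D.n → Measure (V × V)} {s : Form X → ℝ} {k : ℕ}
    {Λ : ℝ} (hm : ∀ j, PM 1 (m j)) (hΛ : 0 ≤ Λ) (hs : D.Fn s) (ho : D.OrdM s k Λ)
    (hZ : KillsE D (fun α => D.T m α + s α)) (h1 : s (w 1) = 0) (h2 : s (w 2) = 0) :
    D.T m (w 0) ≤ 2 * (D.T m (w 0) + s (w 0)) ∧ 0 ≤ D.T m (w 0) + s (w 0) ∧
    ∃ (mm m0 m1 : Fin D.n → Measure (V × V)) (Dn : ℝ), (∀ j, IsFiniteMeasure (mm j)) ∧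
      (∀ j, PM 1 (m0 j)) ∧ (∀ j, PM 1 (m1 j)) ∧
      D.IsCM m0 (fun j => (mm j).restrict {p | p.1 ∈ Efin (mm j)}) ∧
      D.IsCM m1 (fun j => (mm j).restrict {p | p.1 ∈ (Efin (mm j))ᶜ}) ∧
      (∀ α, D.Sm α → D.T m α = D.T m0 α + D.T m1 α) ∧
      (∀ j y r, ‖y‖ ≤ 4 → 0 < r → mass (mm j) y r ≤ Dn * r ^ 2) ∧
      ∀ η, 0 < η → ∀ᶠ t in 𝓝[>] (0 : ℝ),
        (∀ T, K.IsTh t (D.T m0) T → D.qH T T ≤ (D.T m (w 0) + s (w 0)) ^ 2 + η) ∧
        ∀ T, K.IsTh t (D.T m) T → D.qH T T ≤ (D.T m (w 0) + s (w 0)) ^ 2 + η := by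
  obtain ⟨mm, m0, m1, hcm, hm0, hm1, hcm0, hcm1, hsum⟩ := cm3 ta ga fo hm
  obtain ⟨M, ε1, B, Dn, -, he, he', hB, hBd, hD⟩ := bd m mm s k Λ hm hcm hΛ hs ho hZ
  have hI := fo.killsI s k Λ ho
  have hfin : ∀ j, IsFiniteMeasure (mm j) := fun j => (hcm j).1.1
  choose f hf using fun j => l2 (D.sj s j) M ε1 B he (fo.llin s j hs)
    (fun ε h0 h => hBd ε h0 h j)
  have hLH : ∀ j, LH (D.F j) (mm j) (f j) Dn := fun j =>
    ⟨(hcm j).1, (hf j).1, fun b hb => by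
      rw [MT.rr_eq fo hcm hs hI (hf j).2 hb]
      exact hZ j b hb, hD j⟩
  have hKD : D.KillsD (fun α => D.T m0 α + s α) := fun j b hb => by
    have := lo (D.F j) (mm j) (f j) Dn (hLH j) b hb
    rw [MT.rr_eq fo hcm0 hs hI (hf j).2 (hb.mono (by norm_num))] at this
    exact this
  have u0 := fun η (hη : 0 < η) => upper nk ta fo se hi cu ms le th io ap cs hw hs hI he he' hB hBd
    hm0 hcm0 (fun j => by have := hfin j; exact dens_restrict _ (hD j)) hf hKD h1 h2 hη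
  have u1 := fun η (hη : 0 < η) => upper nk ta fo se hi cu ms le th io ap cs hw hs hI he he' hB hBd
    hm hcm hD hf hZ.killsD h1 h2 hη
  obtain ⟨C1, hC1, hcr⟩ := se.crude k
  obtain ⟨_, -, thk⟩ := ms.theta k
  obtain ⟨_, -, th0⟩ := ms.theta 0
  obtain ⟨Λ0, hΛ0, o0⟩ := cu.ord m0 hm0
  have ex : ∀ t, 0 < t → t ≤ K.ε0 → ∃ Θ, K.IsTh t s Θ := fun t a b =>
    (thk t s (C1 * Λ) a b (by positivity) hs (hcr s Λ hΛ ho).1).imp fun _ h => h.1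
  have key := alg (x := s (w 0)) (p := D.T m0 (w 0) + s (w 0))
    (norm_nonneg (D.mapH Pm (D.iota (w 0)))) fun η hη => by
      obtain ⟨t, a1, a2, a3, a4⟩ := ((u0 η hη).and ((lower ta hi th hm0 hfin hcm0 hD hη).and
        ((sw nk fo se hi ms le ap hw hs hI he he' hB hBd hη).and (ev_small (K := K))))).exists
      obtain ⟨Θ, hΘ⟩ := ex t a4.1 a4.2
      obtain ⟨T, hT, -⟩ := th0 t _ Λ0 a4.1 a4.2 hΛ0 (cu.fn m0 hm0) o0
      exact ⟨_, norm_nonneg _, by linarith [a1 T Θ hT hΘ, a2 T hT], a3 Θ hΘ⟩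
  have one : II D (w 0) (w 0) = 1 := by simpa using hw.on 0 0
  have hb := io.po_pos _ (hw.sm 0) hw.tm (by rw [one]; exact one_ne_zero)
  rw [one] at hb
  have n0 := io.T_nn m0 _ hm0 hw.tm
  have n1 := io.T_nn m1 _ hm1 hw.tm
  have sp := hsum _ (hw.sm 0)
  set p := D.T m0 (w 0) + s (w 0) with hp
  have p0 : 0 ≤ p := by
    by_contra hn
    push Not at hn
    have : p ^ 2 ≤ s (w 0) ^ 2 := by nlinarith
    nlinarith [sq_pos_of_neg hn]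
  have p1 : -p ≤ s (w 0) := (abs_le_of_sq_le_sq' (by nlinarith [sq_nonneg p]) p0).1
  refine ⟨by linarith, by linarith, mm, m0, m1, Dn, hfin, hm0, hm1, hcm0, hcm1, hsum, hD,
    fun η hη => ?_⟩
  filter_upwards [u0 η hη, u1 η hη, ev_small (K := K)] with t a0 a1 ht
  obtain ⟨Θ, hΘ⟩ := ex t ht.1 ht.2
  have p2 : p ^ 2 ≤ (D.T m (w 0) + s (w 0)) ^ 2 := pow_le_pow_left₀ p0 (by linarith) 2
  exact ⟨fun T hT => by linarith [a0 T Θ hT hΘ, sq_nonneg ‖D.mapH Pm Θ‖],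
    fun T hT => by linarith [a1 T Θ hT hΘ, sq_nonneg ‖D.mapH Pm Θ‖]⟩

end Vale.Agent.P247
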