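import Vale.Agent.P247.MT2

/-! The two conclusions on positive currents. -/

set_option maxSynthPendingDepth 3
set_option linter.unusedSectionVars false

open scoped Topology ContDiff RealInnerProductSpace Manifold
open Set Metric MeasureTheory Filter

noncomputable section
namespace Vale.Agent.P247

open Vale.Agent.P204

variable {X : Type*} [TopologicalSpace X] [T2Space X] {D : Dat X} {K : Ker D}

theorem mt1S (nk : NkS) (l2 : L2S) (lo : ∀ F, LocS F) (ta : TauS) (ga : GeoA D.toAtl)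
    (fo : FormS D) (se : SemS D) (hi : HilS D) (cu : CurS D) (ms : MS K) (le : LeakS K)
    (th : ThTS K) (io : IotaS D) (ap : AppS K) (cs : ClosS K) (bd : Bdd0S K)
    {w : Fin 3 → Form X} (hw : Tri D w) : MT1S D w :=
  fun _ _ _ _ hm hΛ hs ho hZ h1 h2 =>
    (core nk l2 lo ta ga fo se hi cu ms le th io ap cs bd hw hm hΛ hs ho hZ h1 h2).1

namespace MT3
open Sev

lemma real_restrict_le (μ : Measure (V × V)) [IsFiniteMeasure μ] (S : Set (V × V)) :
    (μ.restrict S).real univ ≤ μ.real univ :=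
  ENNReal.toReal_mono (measure_ne_top _ _) (Measure.restrict_apply_le _ _)

lemma bounds (ta : TauS) (hi : HilS D) {mm : Fin D.n → Measure (V × V)} {Dn : ℝ}
    (hf : ∀ j, IsFiniteMeasure (mm j))
    (hD : ∀ j y r, ‖y‖ ≤ 4 → 0 < r → mass (mm j) y r ≤ Dn * r ^ 2) :
    ∃ W, 0 ≤ W ∧ ∀ j (S : Set (V × V)) t, 0 < t → t ≤ K.ε0 →
      Integrable (tau ((mm j).restrict S) K.C0 t) (D.nu j) ∧
      Integrable (fun y => tau ((mm j).restrict S) K.C0 t y * tau ((mm j).restrict S) K.C0 t y)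
        (D.nu j) ∧
      ∫ y, tau ((mm j).restrict S) K.C0 t y ∂(D.nu j) ≤ W ∧
      t ^ 2 * ∫ y, tau ((mm j).restrict S) K.C0 t y * tau ((mm j).restrict S) K.C0 t y ∂(D.nu j)
        ≤ W := by
  obtain ⟨C1, hC1, htt⟩ := tt_le (K := K) ta hi
  obtain ⟨Cw, hCw, hw⟩ := nu_le hi
  obtain ⟨Cl, hCl, hl⟩ := ta.l1
  have hC0 : 0 < K.C0 := one_pos.trans_le K.one_le
  set R : ℝ := ∑ j, (mm j).real univ with hR
  have R0 : 0 ≤ R := Finset.sum_nonneg fun j _ => measureReal_nonneg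
  have R1 : ∀ j (S : Set (V × V)), ((mm j).restrict S).real univ ≤ R := fun j S => by
    have := hf j
    exact (real_restrict_le _ _).trans (Finset.single_le_sum
      (f := fun j => (mm j).real univ) (fun j _ => measureReal_nonneg) (Finset.mem_univ j))
  refine ⟨Cw * (Cl * K.C0 ^ 4 * R) + C1 * (|Dn| * R), by positivity, fun j S t ht ht0 => ?_⟩
  have := hf j
  obtain ⟨i1, i2⟩ := hl ((mm j).restrict S) K.C0 t inferInstance hC0.le ht
  obtain ⟨i3, i4⟩ := hw j _ (tau_nn ((mm j).restrict S) K.C0 ht) i1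
  have i5 := setIntegral_le_integral (s := closedBall (0 : V) 2) i1
    (Eventually.of_forall (tau_nn ((mm j).restrict S) K.C0 ht))
  obtain ⟨j1, j2⟩ := htt j ((mm j).restrict S) ((mm j).restrict S) t inferInstance inferInstance
    ht ht0
  have j3 := G_le (μ' := (mm j).restrict S) (r := 2 * K.C0 * t) (by positivity)
    (dens_restrict S (hD j))
  have r1 := R1 j S
  refine ⟨i3, j1, ?_, ?_⟩
  · have : ∫ y, tau ((mm j).restrict S) K.C0 t y ∂(D.nu j) ≤ Cw * (Cl * K.C0 ^ 4 * R) := by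
      refine i4.trans (mul_le_mul_of_nonneg_left ((i5.trans i2).trans ?_) hCw)
      gcongr
    have : 0 ≤ C1 * (|Dn| * R) := by positivity
    linarith
  · have : C1 * G ((mm j).restrict S) ((mm j).restrict S) (2 * K.C0 * t) ≤ C1 * (|Dn| * R) := by
      refine mul_le_mul_of_nonneg_left (j3.trans ?_) hC1
      gcongr
    have : 0 ≤ Cw * (Cl * K.C0 ^ 4 * R) := by positivity
    linarith

lemma sing_small (ta : TauS) (sg : SingS) (hi : HilS D) {mm : Fin D.n → Measure (V × V)}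
    (hf : ∀ j, IsFiniteMeasure (mm j)) {δ : ℝ} (hδ : 0 < δ) :
    ∀ᶠ t in 𝓝[>] (0 : ℝ), ∀ j,
      (D.nu j).real {y | δ < tau ((mm j).restrict {p | p.1 ∈ (Efin (mm j))ᶜ}) K.C0 t y} ≤ δ := by
  refine eventually_all.2 fun j => ?_
  have := hf j
  have hE := ta.efin_meas _ (hf j)
  refine (sg _ (D.nu j) (Efin (mm j))ᶜ K.C0 δ inferInstance (hi.fin j)
    (withDensity_absolutelyContinuous _ _) (ta.efin_ae _ (hf j)) ?_
    (one_pos.trans_le K.one_le) hδ).eventually_le_const hδ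
  exact ae_restrict_mem (measurable_fst hE.compl)

end MT3

open MT2 MT3 Sev in
theorem mt2S (nk : NkS) (l2 : L2S) (lo : ∀ F, LocS F) (ta : TauS) (ga : GeoA D.toAtl)
    (fo : FormS D) (se : SemS D) (hi : HilS D) (cu : CurS D) (ms : MS K) (le : LeakS K)
    (th : ThTS K) (io : IotaS D) (ap : AppS K) (cs : ClosS K) (bd : Bdd0S K) (sg : SingS)
    (ad : AdS D) (sk : SmKS K) {w : Fin 3 → Form X} (hw : Tri D w) {ρ : Form X} (r1 : D.Sm ρ)
    (r2 : D.Inv ρ) (r3 : D.Tm ρ) (r4 : II D ρ ρ ≤ 1) : MT2S D w ρ := by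
  intro m s k Λ hm hΛ hs ho hZ h1 h2 η hη
  obtain ⟨-, hr, mm, m0, m1, Dn, hf, hm0, hm1, c0, c1, hsum, hD, hq⟩ :=
    core nk l2 lo ta ga fo se hi cu ms le th io ap cs bd hw hm hΛ hs ho hZ h1 h2
  set r := D.T m (w 0) + s (w 0) with hrr
  obtain ⟨C2, hC2, hsk⟩ := sk ρ r1 r2 r3
  obtain ⟨C, hC, hth⟩ := th
  obtain ⟨B, hB⟩ := io.sq_bd ρ r1 r3
  obtain ⟨W, hW, hbd⟩ := bounds (K := K) ta hi hf hD
  have n0 := io.T_nn m ρ hm r3
  set η' := η / (1 + C2 * D.T m ρ) with hη'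
  have η0 : 0 < η' := by positivity
  obtain ⟨q1, q2⟩ := hi.qH_eq (D.iota ρ) (D.iota ρ)
  obtain ⟨δ, hδ, had⟩ := ad (fun j y => wq (D.iota ρ j y) (D.iota ρ j y)) B C (W + r ^ 2 + 1) r η'
    (fun j => (q1 j).aestronglyMeasurable) hB (by rw [← q2]; exact r4) hC (by positivity) hr η0
  obtain ⟨_, -, th0⟩ := ms.theta 0
  obtain ⟨Λ0, hΛ0, o0⟩ := cu.ord m0 hm0
  obtain ⟨Λ1, hΛ1, o1⟩ := cu.ord m1 hm1
  obtain ⟨t, a1, a2, a3, a4, a5, a6⟩ := ((ev_small (K := K)).and ((ev_lin 1 hδ).and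
    ((tau0_small (K := K) ta hi hf hD hδ).and ((sing_small (K := K) ta sg hi hf hδ).and
    ((hq δ hδ).and (hq 1 one_pos)))))).exists
  obtain ⟨ht, ht0⟩ := a1
  obtain ⟨T0, hT0, -⟩ := th0 t _ Λ0 ht ht0 hΛ0 (cu.fn m0 hm0) o0
  obtain ⟨T1, hT1, -⟩ := th0 t _ Λ1 ht ht0 hΛ1 (cu.fn m1 hm1) o1
  have hT : K.IsTh t (D.T m) (T0 + T1) := fun h => by
    rw [hi.qH_add, hT0 h, hT1 h, hsum _ (ms.sm t h ht ht0)]
  have r2' := sq_nonneg r
  obtain ⟨h, hh, hle⟩ := had t T0 T1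
    (fun j => tau ((mm j).restrict {p | p.1 ∈ Efin (mm j)}) K.C0 t)
    (fun j => tau ((mm j).restrict {p | p.1 ∈ (Efin (mm j))ᶜ}) K.C0 t) ht (by linarith)
    (fun j => by
      have := hf j
      exact ⟨(ta.meas _ _ inferInstance).const_mul _, (ta.meas _ _ inferInstance).const_mul _⟩)
    (fun j y => ⟨tau_nn _ _ ht y, tau_nn _ _ ht y⟩)
    (fun j => ⟨(hbd j _ t ht ht0).1, (hbd j _ t ht ht0).1, (hbd j _ t ht ht0).2.1,
      (hbd j _ t ht ht0).2.1⟩)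
    (fun j => ⟨by linarith [(hbd j {p | p.1 ∈ Efin (mm j)} t ht ht0).2.2.1],
      by linarith [(hbd j {p | p.1 ∈ (Efin (mm j))ᶜ} t ht ht0).2.2.1], a3 j,
      by linarith [(hbd j {p | p.1 ∈ (Efin (mm j))ᶜ} t ht ht0).2.2.2], a4 j⟩)
    (fun j => by
      filter_upwards [hth t m0 _ T0 ht ht0 hm0 c0 hT0 j, hth t m1 _ T1 ht ht0 hm1 c1 hT1 j]
        with y y0 y1
      exact ⟨y0, y1⟩)
    (a5.1 T0 hT0) (by linarith [a6.2 _ hT])
  obtain ⟨β, hβ, hTβ⟩ := hsk t (η' / t) h ht ht0 (by positivity) hh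
  refine ⟨β, hβ, ?_⟩
  rw [hTβ m hm, ← hT h]
  have e1 : C2 * t * (η' / t) * D.T m ρ = η' * (C2 * D.T m ρ) := by field_simp
  have e2 : η' * (1 + C2 * D.T m ρ) = η := by rw [hη']; field_simp
  rw [e1]
  linarith

end Vale.Agent.P247
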