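import Vale.Agent.P247.Defs

set_option maxSynthPendingDepth 3

open scoped Topology ContDiff RealInnerProductSpace Manifold
open Set Metric MeasureTheory Filter

noncomputable section
namespace Vale.Agent.P247

open Vale.Agent.P204 Vale.Agent.P204.Bridge

namespace One

lemma d1_congr {b b' : V → Cov} {y : V} (h : b =ᶠ[𝓝 y] b') : d1 b y = d1 b' y := by
  rw [d1, d1, h.fderiv_eq]

/-- naturality of the exterior derivative of a one-form -/
lemma nat1 {τ : V → V} {b : V → Cov} {y : V} (hτ : ContDiffAt ℝ ∞ τ y)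
    (hb : DifferentiableAt ℝ b (τ y)) :
    d1 (fun y' => (b (τ y')).comp (fderiv ℝ τ y')) y = pull (fderiv ℝ τ y) (d1 b (τ y)) := by
  have h1 : HasFDerivAt (fun y' => b (τ y')) ((fderiv ℝ b (τ y)).comp (fderiv ℝ τ y)) y :=
    hb.hasFDerivAt.comp y (hτ.differentiableAt (by simp)).hasFDerivAt
  have h2 : HasFDerivAt (fderiv ℝ τ) (fderiv ℝ (fderiv ℝ τ) y) y :=
    ((hτ.fderiv_right (m := ∞) (by simp)).differentiableAt (by simp)).hasFDerivAt
  have h3 := (hτ.isSymmSndFDerivAt (by simp; norm_cast)).eq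
  refine ap_ext fun p q => ?_
  rw [ap_d1, ap_pull, ap_d1, (h1.clm_comp h2).fderiv]
  simp [h3 p q]

lemma d1_fderiv {g : V → ℝ} {y : V} (hg : ContDiffAt ℝ ∞ g y) : d1 (fderiv ℝ g) y = 0 := by
  refine ap_ext fun p q => ?_
  rw [ap_d1, ap_zero, (hg.isSymmSndFDerivAt (by simp; norm_cast)).eq p q, sub_self]

variable {X : Type*} [TopologicalSpace X] [ChartedSpace R4 X]
variable {e e' : OpenPartialHomeomorph X V} {U : Set X}

omit [ChartedSpace R4 X] in
lemma dom_open (e : OpenPartialHomeomorph X V) (hU : IsOpen U) : IsOpen (dom e U) :=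
  e.symm.isOpen_inter_preimage hU

omit [ChartedSpace R4 X] in
lemma dom_mem {x : X} (hx : x ∈ e.source) (hU : x ∈ U) : e x ∈ dom e U :=
  ⟨e.map_source hx, by rw [mem_preimage, e.left_inv hx]; exact hU⟩

omit [ChartedSpace R4 X] in
lemma dom_ind {P : V → Prop} (h : ∀ x ∈ e.source, x ∈ U → P (e x)) : ∀ y ∈ dom e U, P y := by
  intro y hy
  have := h _ (e.map_target hy.1) hy.2
  rwa [e.right_inv hy.1] at this

lemma lc1_ev (h : Good e) (h' : Good e') (η : X → Cov) {x : X} (hx : x ∈ e.source)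
    (hx' : x ∈ e'.source) : lc1 e' η =ᶠ[𝓝 (e' x)]
      fun y => (lc1 e η (e (e'.symm y))).comp (fderiv ℝ (fun y => e (e'.symm y)) y) := by
  filter_upwards [dom_nhds hx hx'] with y hy
  rw [tm_fderiv h h' hy, lc1, lc1, e.left_inv hy.2]
  ext1 v
  simp

omit [ChartedSpace R4 X] in
lemma fn_ev (f : X → ℝ) {x : X} (hx : x ∈ e.source) (hx' : x ∈ e'.source) :
    (fun y => f (e'.symm y)) =ᶠ[𝓝 (e' x)] fun y => f (e.symm (e (e'.symm y))) := by
  filter_upwards [dom_nhds hx hx'] with y hy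
  rw [e.left_inv hy.2]

lemma sm0 {f : X → ℝ} (h : Good e) (hU : IsOpen U) (hs : U ⊆ e.source)
    (hf : ContDiffOn ℝ ∞ (fun y => f (e.symm y)) (dom e U)) : Sm0 U f := by
  intro e' h'
  refine dom_ind fun x hx' hx => ContDiffAt.contDiffWithinAt ?_
  have h2 : ContDiffAt ℝ ∞ (fun y => f (e.symm y)) (e (e'.symm (e' x))) := by
    rw [e'.left_inv hx']
    exact hf.contDiffAt ((dom_open e hU).mem_nhds (dom_mem (hs hx) hx))
  exact (h2.comp (f := fun y => e (e'.symm y)) (e' x) (tm_at h h' (hs hx) hx')).congr_of_eventuallyEq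
    (fn_ev f (hs hx) hx')

lemma sm1 {η : X → Cov} (h : Good e) (hU : IsOpen U) (hs : U ⊆ e.source)
    (hf : ContDiffOn ℝ ∞ (lc1 e η) (dom e U)) : Sm1 U η := by
  intro e' h'
  refine dom_ind fun x hx' hx => ContDiffAt.contDiffWithinAt ?_
  have h1 := tm_at h h' (hs hx) hx'
  have h2 : ContDiffAt ℝ ∞ (lc1 e η) (e (e'.symm (e' x))) := by
    rw [e'.left_inv hx']
    exact hf.contDiffAt ((dom_open e hU).mem_nhds (dom_mem (hs hx) hx))
  exact ((h2.comp (f := fun y => e (e'.symm y)) (e' x) h1).clm_comp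
    (h1.fderiv_right (m := ∞) (by simp))).congr_of_eventuallyEq (lc1_ev h h' η (hs hx) hx')

lemma dz_at {f : X → ℝ} {ξ : Cov} {x : X} (h : Good e) (h' : Good e') (hx : x ∈ e.source)
    (hx' : x ∈ e'.source) (hf : HasFDerivAt (fun y => f (e.symm y)) ξ (e x)) :
    HasFDerivAt (fun y => f (e'.symm y))
      (ξ.comp (((fr e x).symm : End).comp (fr e' x : End))) (e' x) := by
  have h2 : HasFDerivAt (fun y => f (e.symm y)) ξ (e (e'.symm (e' x))) := by
    rwa [e'.left_inv hx']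
  exact (h2.comp (f := fun y => e (e'.symm y)) (e' x) (tm_deriv h h' hx hx')).congr_of_eventuallyEq
    (fn_ev f hx hx')

lemma dz {f : X → ℝ} {η : X → Cov} (h : Good e) (hs : U ⊆ e.source)
    (hf : ∀ y ∈ dom e U, HasFDerivAt (fun y => f (e.symm y)) (lc1 e η y) y) : D0 U f η := by
  intro e' h'
  refine dom_ind fun x hx' hx => ?_
  refine (dz_at h h' (hs hx) hx' (hf _ (dom_mem (hs hx) hx))).congr_fderiv ?_
  rw [lc1, lc1, e.left_inv (hs hx), e'.left_inv hx']
  ext1 v
  simp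

lemma done {η : X → Cov} {γ : Form X} (h : Good e) (hU : IsOpen U) (hs : U ⊆ e.source)
    (hf : ContDiffOn ℝ ∞ (lc1 e η) (dom e U)) (hd : ∀ y ∈ dom e U, d1 (lc1 e η) y = lc e γ y) :
    D1 U η γ := by
  intro e' h'
  refine dom_ind fun x hx' hx => ?_
  have h2 : ContDiffAt ℝ ∞ (lc1 e η) (e (e'.symm (e' x))) := by
    rw [e'.left_inv hx']
    exact hf.contDiffAt ((dom_open e hU).mem_nhds (dom_mem (hs hx) hx))
  rw [d1_congr (lc1_ev h h' η (hs hx) hx'),
    nat1 (tm_at h h' (hs hx) hx') (h2.differentiableAt (by simp)),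
    (lc_ev h h' γ (hs hx) hx').self_of_nhds]
  simp only [e'.left_inv hx', hd _ (dom_mem (hs hx) hx)]

lemma glue {η : X → Cov} {γ : Form X} (H : ∀ x, ∃ U η', IsOpen U ∧ x ∈ U ∧ Sm1 U η' ∧
    D1 U η' γ ∧ ∀ x' ∈ U, η x' = η' x') : Sm1 univ η ∧ D1 univ η γ := by
  have key : ∀ e : OpenPartialHomeomorph X V, Good e → ∀ y ∈ dom e univ,
      ContDiffAt ℝ ∞ (lc1 e η) y ∧ d1 (lc1 e η) y = lc e γ y := by
    intro e h
    refine dom_ind fun x hx _ => ?_
    obtain ⟨U, η', hU, hxU, hs, hd, he⟩ := H x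
    have hn := (dom_open e hU).mem_nhds (dom_mem hx hxU)
    have hev : lc1 e η =ᶠ[𝓝 (e x)] lc1 e η' := by
      filter_upwards [hn] with y hy
      rw [lc1, lc1, he _ hy.2]
    exact ⟨((hs e h).contDiffAt hn).congr_of_eventuallyEq hev,
      (d1_congr hev).trans (hd e h _ (dom_mem hx hxU))⟩
  exact ⟨fun e h y hy => (key e h y hy).1.contDiffWithinAt, fun e h y hy => (key e h y hy).2⟩

lemma grad [IsManifold (𝓡 4) ∞ X] {f : X → ℝ} (hU : IsOpen U) (hf : Sm0 U f) :
    ∃ η, Sm1 U η ∧ D0 U f η ∧ D1 U η 0 := by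
  obtain ⟨η, hη⟩ : ∃ η : X → Cov, ∀ x, η x =
      (fderiv ℝ (fun y => f ((chartAt R4 x).symm y)) (chartAt R4 x x)).comp
        ((fr (chartAt R4 x) x).symm : End) := ⟨_, fun _ => rfl⟩
  have h0 : D0 U f η := by
    intro e h
    refine dom_ind fun x hx hxU => ?_
    have hc := mem_chart_source R4 x
    have h1 := (((hf _ (good_chart x)).contDiffAt ((dom_open _ hU).mem_nhds
      (dom_mem hc hxU))).differentiableAt (by simp)).hasFDerivAt
    refine (dz_at (good_chart x) h hc hx h1).congr_fderiv ?_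
    rw [lc1, e.left_inv hx, hη]
    rfl
  refine ⟨η, fun e h => ?_, h0, fun e h y hy => ?_⟩
  · exact ((contDiffOn_infty_iff_fderiv_of_isOpen (dom_open e hU)).1 (hf e h)).2.congr
      fun y hy => (h0 e h y hy).fderiv.symm
  · have hn := (dom_open e hU).mem_nhds hy
    have hev : lc1 e η =ᶠ[𝓝 y] fderiv ℝ fun y => f (e.symm y) := by
      filter_upwards [hn] with z hz using (h0 e h z hz).fderiv.symm
    rw [d1_congr hev, d1_fderiv ((hf e h).contDiffAt hn), lc]
    simp

lemma uniq [IsManifold (𝓡 4) ∞ X] {f : X → ℝ} {η η' : X → Cov} (h : D0 U f η) (h' : D0 U f η')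
    {x : X} (hx : x ∈ U) : η x = η' x := by
  have hc := mem_chart_source R4 x
  have h1 := (h _ (good_chart x) _ (dom_mem hc hx)).unique (h' _ (good_chart x) _ (dom_mem hc hx))
  rw [lc1, lc1, (chartAt R4 x).left_inv hc] at h1
  ext1 v
  have h2 := congrArg (fun T : Cov => T ((fr (chartAt R4 x) x).symm v)) h1
  simpa using h2

lemma ext [T2Space X] (D : Dat X) (j : Fin D.n) {b : V → Cov} (hD : Fit D) (hb : Cc 12 b) :
    ExC (D.ext j (d1 b)) := by
  obtain ⟨hg, hfr⟩ := hD j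
  obtain ⟨ζ, hζ⟩ : ∃ ζ : X → Cov, ∀ x, ζ x =
      (D.ext0 j b x).comp ((fr (D.e j) x).symm : End) := ⟨_, fun _ => rfl⟩
  refine ⟨ζ, glue fun x => ?_⟩
  by_cases hx : x ∈ (D.e j).source
  · have h1 : ∀ y ∈ dom (D.e j) (D.e j).source, lc1 (D.e j) ζ y = b y := by
      intro y hy
      rw [lc1, hζ, Atl.ext0, if_pos ((D.e j).map_target hy.1), (D.e j).right_inv hy.1]
      ext1 v
      simp
    have h2 : ContDiffOn ℝ ∞ (lc1 (D.e j) ζ) (dom (D.e j) (D.e j).source) :=
      hb.1.contDiffOn.congr h1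
    refine ⟨_, ζ, (D.e j).open_source, hx, sm1 hg (D.e j).open_source subset_rfl h2,
      done hg (D.e j).open_source subset_rfl h2 fun y hy => ?_, fun _ _ => rfl⟩
    have hev : lc1 (D.e j) ζ =ᶠ[𝓝 y] b := by
      filter_upwards [(dom_open _ (D.e j).open_source).mem_nhds hy] with z hz using h1 z hz
    rw [d1_congr hev, lc, Atl.ext, Atl.ext0, if_pos ((D.e j).map_target hy.1), (D.e j).right_inv hy.1, pull_pull, hfr]
    have h3 : ((fr (D.e j) ((D.e j).symm y)).symm : End).comp (fr (D.e j) ((D.e j).symm y) : End)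
        = ContinuousLinearMap.id ℝ V := by
      ext1 v
      simp
    rw [h3, pull_id]
    rfl
  · have hK : IsCompact ((D.e j).symm '' closedBall (0 : V) 12) :=
      (isCompact_closedBall _ _).image_of_continuousOn
        ((D.e j).continuousOn_symm.mono (D.big j))
    have h0 : ∀ {E : Type} [NormedAddCommGroup E] [NormedSpace ℝ E] {g : V → E}, Cc 12 g →
        ∀ x' ∈ ((D.e j).symm '' closedBall (0 : V) 12)ᶜ, D.ext0 j g x' = 0 := by
      intro E _ _ g hg x' hx'
      rw [Atl.ext0]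
      split_ifs with h
      · refine hg.2 _ (lt_of_not_ge fun hle => hx' ⟨_, mem_closedBall_zero_iff.2 hle, ?_⟩)
        exact (D.e j).left_inv h
      · rfl
    have hz : ∀ e : OpenPartialHomeomorph X V, lc1 e (0 : X → Cov) = fun _ => 0 := fun e => by
      funext y
      simp [lc1]
    refine ⟨_, 0, hK.isClosed.isOpen_compl, ?_, fun e _ => ?_, fun e _ y hy => ?_,
      fun x' hx' => ?_⟩
    · rintro ⟨y, hy, rfl⟩
      exact hx ((D.e j).map_target (D.big j hy))
    · rw [hz]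
      exact contDiffOn_const
    · rw [hz, lc, Atl.ext, h0 hb.d1 _ hy.2, d1]
      simp
    · rw [hζ, h0 hb _ hx']
      simp

end One

theorem oneS (na : NatS) (X : Type*) [TopologicalSpace X] [ChartedSpace R4 X] [T2Space X]
    [IsManifold (𝓡 4) ∞ X] : OneS X :=
  ⟨fun _ _ _ h hU hs hf => One.sm0 h hU hs hf, fun _ _ _ h hU hs hf => One.sm1 h hU hs hf,
    fun _ _ _ _ h _ hs hf => One.dz h hs hf,
    fun _ _ _ _ h hU hs hf hd => One.done h hU hs hf hd, fun _ _ H => One.glue H,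
    fun _ _ hU hf => One.grad hU hf, fun _ _ _ _ _ h h' _ hx => One.uniq h h' hx,
    fun D j _ hD hb => One.ext D j hD hb⟩

end Vale.Agent.P247
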