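import Vale.Agent.P247.StepC

/-! The three steps and the resulting path. -/

set_option maxSynthPendingDepth 3
set_option linter.unusedSectionVars false

open scoped Topology ContDiff RealInnerProductSpace Manifold
open Set Metric MeasureTheory Filter Function

noncomputable section
namespace Vale.Agent.P247

open Vale.Agent.P204 Vale.Agent.P204.Bridge

lemma PD.perm {r : ℝ} {w : Fin 3 → E6} (h : PD r w) (π : Equiv.Perm (Fin 3)) :
    PD r (w ∘ π) := fun v hv => by
  have := h (v ∘ π.symm) fun h0 => hv (by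
    funext i
    simpa using congrFun h0 (π i))
  rwa [← Equiv.sum_comp π, show (fun i => (v ∘ π.symm) (π i) • w (π i))
    = fun i => v i • (w ∘ π) i from funext fun i => by simp] at this

variable {X : Type*} [TopologicalSpace X] [ChartedSpace R4 X] [T2Space X] [CompactSpace X]
  [IsManifold (𝓡 4) ∞ X] [MeasurableSpace X] [BorelSpace X]
  {σ : X → ℝ} {m : Measure X} {w : Fin 3 → Form X}

lemma prC_symm (α β : Form X) : prC σ m α β = prC σ m β α := by
  simp only [prC, wq_symm (α _)]

lemma HS.perm (h : HS σ m w) (π : Equiv.Perm (Fin 3)) : HS σ m (w ∘ π) :=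
  ⟨fun i => h.sm _, fun i => h.cl _, fun x => (h.pd x).perm π, fun i j => by
    simp [h.on], fun γ a b c => h.sig γ a b fun i => by simpa using c (π.symm i)⟩

/-- the result of one step -/
structure Stp (σ : X → ℝ) (m : Measure X) (κ : ℝ) (w : Fin 3 → Form X) (i : Fin 3)
    (β : Form X) : Prop where
  ex : ExC (β - w i)
  orth : ∀ j x, j ≠ i → wq (β x) (w j x) = 0
  pd : ∀ x (t : ℝ), 0 ≤ t → t ≤ 1 →
    PD (σ x)⁻¹ (update (fun j => w j x) i (w i x + t • (β x - w i x)))
  big : ∀ x, κ ≤ m.real univ * (wq (β x) (β x) / σ x)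
  hs : HS σ m (update w i β)

theorem stepI (hv : VolC σ m) (hw : HS σ m w) {κ : ℝ} (hκ : κ < 1) (i : Fin 3) :
    ∃ β, Stp σ m κ w i β := by
  obtain ⟨β, b1, b2, b3, b4, b5, b6, b7⟩ := stepC hv (hw.perm (Equiv.swap 0 i)) hκ
  have e0 : (w ∘ Equiv.swap 0 i) 0 = w i := by simp
  rw [e0] at b3 b4 b6
  have pd : ∀ x (t : ℝ), 0 ≤ t → t ≤ 1 →
      PD (σ x)⁻¹ (update (fun j => w j x) i (w i x + t • (β x - w i x))) := fun x t t0 t1 => by
    have := (b6 x t t0 t1).perm (Equiv.swap 0 i)
    refine (congrArg _ (funext fun j => ?_)).mp this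
    fin_cases i <;> fin_cases j <;> simp [Equiv.swap_apply_def]
  have pr : ∀ j γ, SmC γ → ClC γ → prC σ m (update w i β j) γ = prC σ m (w j) γ :=
    fun j γ a b => by
      by_cases h : j = i
      · rw [h, update_self, b4 γ a b]
      · rw [update_of_ne h]
  have sm : ∀ j, SmC (update w i β j) := fun j => by
    by_cases h : j = i
    · rw [h, update_self]; exact b1
    · rw [update_of_ne h]; exact hw.sm j
  have cl : ∀ j, ClC (update w i β j) := fun j => by
    by_cases h : j = i
    · rw [h, update_self]; exact b2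
    · rw [update_of_ne h]; exact hw.cl j
  refine ⟨β, b3, fun j x hj => ?_, pd, b7, sm, cl, fun x => ?_, fun j k => ?_, fun γ a b c => ?_⟩
  · have := b5 x
    fin_cases i <;> fin_cases j <;> simp_all [Equiv.swap_apply_def]
  · have := pd x 1 zero_le_one le_rfl
    rw [one_smul, add_sub_cancel] at this
    refine (congrArg _ (funext fun j => ?_)).mp this
    by_cases h : j = i
    · rw [h, update_self, update_self]
    · rw [update_of_ne h, update_of_ne h]
  · rw [pr j _ (sm k) (cl k), prC_symm, pr k _ (hw.sm j) (hw.cl j), prC_symm, hw.on]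
  · exact hw.sig γ a b fun j => by rw [prC_symm, ← pr j γ a b, prC_symm, c]

lemma ExC.smul {γ : Form X} (h : ExC γ) (c : ℝ) : ExC (c • γ) := by
  obtain ⟨η, h1, h2⟩ := h
  have e : ∀ e : OpenPartialHomeomorph X V, lc1 e (c • η) = c • lc1 e η := fun e => by
    funext y
    simp [lc1]
  refine ⟨c • η, fun f hf => ?_, fun f hf y hy => ?_⟩
  · rw [e]; exact (h1 f hf).const_smul c
  · have := h2 f hf y hy
    rw [e, d1, fderiv_const_smul_field, Pi.smul_apply, map_smul, ← d1, this]
    simp [lc]

theorem path (hv : VolC σ m) (hw : HS σ m w) {κ : ℝ} (hκ : κ < 1) :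
    ∃ (β : Fin 3 → Form X) (a : Fin 3 → ℝ → ℝ), (∀ i, ContDiff ℝ ∞ (a i)) ∧ (∀ i, a i 0 = 0) ∧
      (∀ i, a i 1 = 1) ∧ HS σ m β ∧ (∀ i, ExC (β i - w i)) ∧
      (∀ t x, PD (σ x)⁻¹ fun i => (w i + a i t • (β i - w i)) x) ∧
      (∀ i j x, i ≠ j → wq (β i x) (β j x) = 0) ∧
      ∀ i x, κ ≤ m.real univ * (wq (β i x) (β i x) / σ x) := by
  obtain ⟨b0, s0⟩ := stepI hv hw hκ 0
  obtain ⟨b1, s1⟩ := stepI hv s0.hs hκ 1
  obtain ⟨b2, s2⟩ := stepI hv s1.hs hκ 2
  have z : ∀ {x : ℝ}, x ≤ 0 → Real.smoothTransition x = 0 := Real.smoothTransition.zero_of_nonpos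
  have o : ∀ {x : ℝ}, 1 ≤ x → Real.smoothTransition x = 1 := Real.smoothTransition.one_of_one_le
  have n := Real.smoothTransition.nonneg
  have l := Real.smoothTransition.le_one
  refine ⟨![b0, b1, b2], fun i t => Real.smoothTransition (3 * t - (i : ℕ)), fun i => ?_,
    fun i => z ?_, fun i => o ?_, ?_, fun i => ?_, fun t x => ?_, fun i j x hij => ?_,
    fun i x => ?_⟩
  · exact Real.smoothTransition.contDiff.comp (by fun_prop)
  · simp
  · fin_cases i <;> norm_num
  · refine (congrArg _ (funext fun j => ?_)).mp s2.hs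
    fin_cases j <;> simp
  · fin_cases i
    · exact s0.ex
    · simpa using s1.ex
    · simpa using s2.ex
  · rcases le_total t (1 / 3) with h1 | h1
    · refine (congrArg _ (funext fun j => ?_)).mp (s0.pd x _ (n (3 * t)) (l _))
      fin_cases j
      · simp
      · simp [z (x := 3 * t - 1) (by linarith)]
      · simp [z (x := 3 * t - 2) (by linarith)]
    rcases le_total t (2 / 3) with h2 | h2
    · refine (congrArg _ (funext fun j => ?_)).mp (s1.pd x _ (n (3 * t - 1)) (l _))
      fin_cases j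
      · simp [o (x := 3 * t) (by linarith)]
      · simp
      · simp [z (x := 3 * t - 2) (by linarith)]
    · refine (congrArg _ (funext fun j => ?_)).mp (s2.pd x _ (n (3 * t - 2)) (l _))
      fin_cases j
      · simp [o (x := 3 * t) (by linarith)]
      · simp [o (x := 3 * t - 1) (by linarith)]
      · simp
  · have e1 : wq (b1 x) (b0 x) = 0 := by simpa using s1.orth 0 x (by simp)
    have e2 : wq (b2 x) (b0 x) = 0 := by simpa using s2.orth 0 x (by simp)
    have e3 : wq (b2 x) (b1 x) = 0 := by simpa using s2.orth 1 x (by simp)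
    have f1 := (wq_symm _ _).trans e1
    have f2 := (wq_symm _ _).trans e2
    have f3 := (wq_symm _ _).trans e3
    fin_cases i <;> fin_cases j <;> simp_all
  · fin_cases i
    exacts [s0.big x, s1.big x, s2.big x]

end Vale.Agent.P247
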