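import Vale.Agent.P247.All

/-! One step of the deformation: the first form of a triple is replaced. -/

set_option maxSynthPendingDepth 3
set_option linter.unusedSectionVars false

open scoped Topology ContDiff RealInnerProductSpace Manifold
open Set Metric MeasureTheory Filter

noncomputable section
namespace Vale.Agent.P247

open Vale.Agent.P204 Vale.Agent.P204.Bridge

variable {X : Type*} [TopologicalSpace X] [ChartedSpace R4 X] [T2Space X] [CompactSpace X]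
  [IsManifold (𝓡 4) ∞ X] [MeasurableSpace X] [BorelSpace X]

/-- a normalized hypersymplectic triple -/
structure HS (σ : X → ℝ) (m : Measure X) (w : Fin 3 → Form X) : Prop where
  sm : ∀ i, SmC (w i)
  cl : ∀ i, ClC (w i)
  pd : ∀ x, PD (σ x)⁻¹ fun i => w i x
  on : ∀ i j, prC σ m (w i) (w j) = if i = j then 1 else 0
  sig : ∀ γ, SmC γ → ClC γ → (∀ i, prC σ m γ (w i) = 0) → prC σ m γ γ ≤ 0

lemma PD.pull {r : ℝ} {w : Fin 3 → E6} (h : PD r w) (L : V ≃L[ℝ] V) :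
    ∃ r', PD r' fun i => pull (L : End) (w i) := by
  have hd : (L : End).det ≠ 0 := L.toLinearEquiv.isUnit_det'.ne_zero
  refine ⟨r * ((L : End).det)⁻¹, fun v hv => ?_⟩
  have := h v hv
  simp only [← map_smul, ← map_sum, wq_pull]
  rwa [mul_assoc, inv_mul_cancel_left₀ hd]

lemma PD.first {r : ℝ} {w : Fin 3 → E6} (h : PD r w) : 0 < r * wq (w 0) (w 0) := by
  simpa [Fin.sum_univ_three] using h ![1, 0, 0] (by simp)

lemma pos_of_mul_pos_of_pos {a b : ℝ} (h : 0 < a * b) (hb : 0 ≤ b) : 0 < a := by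
  by_contra hn
  push Not at hn
  nlinarith

lemma eta3 {α : Type*} (w : Fin 3 → α) : ![w 0, w 1, w 2] = w := by
  funext i; fin_cases i <;> rfl

theorem stepC {σ : X → ℝ} {m : Measure X} (hv : VolC σ m) {w : Fin 3 → Form X} (hw : HS σ m w)
    {κ : ℝ} (hκ : κ < 1) : ∃ β, SmC β ∧ ClC β ∧ ExC (β - w 0) ∧
      (∀ γ, SmC γ → ClC γ → prC σ m β γ = prC σ m (w 0) γ) ∧
      (∀ x, wq (β x) (w 1 x) = 0 ∧ wq (β x) (w 2 x) = 0) ∧
      (∀ x (t : ℝ), 0 ≤ t → t ≤ 1 → PD (σ x)⁻¹ ![w 0 x + t • (β x - w 0 x), w 1 x, w 2 x]) ∧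
      ∀ x, κ ≤ m.real univ * (wq (β x) (β x) / σ x) := by
  obtain ⟨Jf, j1, j2, j3⟩ := linJS
  obtain ⟨D, hf, hJ⟩ := fitS (J := fun x => Jf fun i => w i x) (fun x => (j1 _ _ (hw.pd x)).1)
    fun e he => (j3.comp (contDiffOn_pi.2 fun i => hw.sm i e he)
      fun y _ => (hw.pd _).pull _).congr fun y _ => (j2 _ _ _ (hw.pd _)).symm
  have jx : ∀ x, CS (D.J x) ∧ TameP (D.J x) (w 0 x) ∧ AntiP (D.J x) (w 1 x) ∧
      AntiP (D.J x) (w 2 x) := fun x => hJ ▸ j1 _ _ (hw.pd x)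
  have ga := geoA D.toAtl
  have fo : FormS D := formS natS ga
  have se := semS nkS ga fo
  have hi : HilS D := hilS ga
  obtain ⟨io, kn, mk⟩ := allD D
  have tm : D.Tm (w 0) := fun x => (jx x).2.1
  have sgn : ∀ j y, ‖y‖ ≤ 2 → 0 < sg σ (D.e j) y := fun j y hy => by
    have e1 := linS.pos (D.F j) y _ (tm_locP fo tm j (hy.trans (by norm_num)))
    rw [hf.loc, lc, wq_pull] at e1
    have e2 := (hw.pd ((D.e j).symm y)).first
    have e3 := hv.ne ((D.e j).symm y)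
    rw [sg]
    set s := σ ((D.e j).symm y)
    set d := (fr (D.e j) ((D.e j).symm y) : End).det
    set q := wq (w 0 ((D.e j).symm y)) (w 0 ((D.e j).symm y))
    have e4 : s * d * (s⁻¹ * q) ^ 2 = s⁻¹ * q * (d * q) := by field_simp
    exact pos_of_mul_pos_of_pos (by rw [e4]; exact mul_pos e2 e1) (sq_nonneg (s⁻¹ * q))
  obtain ⟨fin, hint⟩ := intS ga fo σ m hf hv
  have pi : ∀ α β, SmC α → SmC β → prC σ m α β = II D α β := fun α β a b => by
    rw [hint sgn α β (hf.sm.2 a) (hf.sm.2 b), io.eq α β (hf.sm.2 a) (hf.sm.2 b)]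
  have tri : Tri D w := ⟨fun i => hf.sm.2 (hw.sm i), fun i => (hf.cl (hw.sm i)).2 (hw.cl i), tm,
    fun x => (jx x).2.2.1, fun x => (jx x).2.2.2,
    fun i j => by rw [← pi _ _ (hw.sm i) (hw.sm j), hw.on], fun γ a b c => by
      have a' := hf.sm.1 a
      rw [← pi _ _ a' a']
      exact hw.sig γ a' ((hf.cl a').1 b) fun i => by rw [pi _ _ a' (hw.sm i), c]⟩
  have vol : 0 < m.real univ := by
    refine lt_of_le_of_ne measureReal_nonneg fun h0 => ?_
    have h1 : m = 0 := by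
      rw [← Measure.measure_univ_eq_zero]
      exact (measureReal_eq_zero_iff (measure_ne_top _ _)).1 h0.symm
    simpa [prC, h1] using hw.on 0 0
  obtain ⟨ρ, r1, r2, r3, r4⟩ := rhoS linS fo σ (w 0) (m.real univ)⁻¹ hf hv.sm sgn (tri.sm 0) tm
    (inv_pos.2 vol)
  obtain ⟨β, hn, b1, b2, b3, b4⟩ := mk w ρ tri r1 r2 r3 (by
    rw [← pi _ _ (hf.sm.1 r1) (hf.sm.1 r1), prC]
    simp only [r4, mul_div_cancel_right₀ _ (hv.ne _), integral_const, smul_eq_mul,
      mul_inv_cancel₀ vol.ne', le_refl]) κ hκ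
  have sb := hf.sm.1 b1
  have cb : D.Cl β := by
    simpa using fo.cl_add _ _ hn.1 (tri.sm 0) hn.2.1 (tri.cl 0)
  refine ⟨β, sb, (hf.cl sb).1 cb, cechS (poiS avgS) (oneS natS X) ga fo se (netS ga)
    (glueS (oneS natS X)) hf _ hn.1 hn.2.1 (kn _ hn), fun γ a b => ?_,
    fun x => ⟨linS.orth _ _ _ (jx x).1 (b2 x) (jx x).2.2.1,
      linS.orth _ _ _ (jx x).1 (b2 x) (jx x).2.2.2⟩, fun x t t0 t1 => ?_, fun x => ?_⟩
  · have := hn.2.2 γ (hf.sm.2 a) ((hf.cl a).2 b)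
    rw [II_sub fo io b1 (tri.sm 0)] at this
    rw [pi _ _ sb a, pi _ _ (hw.sm 0) a]
    linarith
  · refine linS.swap (D.J x) _ (w 0 x) _ _ _ (jx x).1 (jx x).2.2.1 (jx x).2.2.2 (fun v hv => ?_)
      (by rw [eta3 fun i => w i x]; exact hw.pd x)
    have e1 := tm x v hv
    have e2 := b3 x v hv
    rw [ap_add, ap_smul, ap_sub]
    rcases t0.eq_or_lt with rfl | t0'
    · simpa using e1
    · nlinarith [mul_pos t0' e2, mul_nonneg (sub_nonneg.2 t1) e1.le]
  · obtain ⟨j, hx, hy⟩ := D.cover x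
    have e1 := b4 j _ hy.le
    have e2 := sgn j (D.e j x) (by linarith)
    rw [hf.loc, hf.loc, lc, lc, wq_pull, wq_pull, r4] at e1
    rw [sg] at e2
    rw [(D.e j).left_inv hx] at e1 e2
    set d := (fr (D.e j) x : End).det
    have e3 := hv.ne x
    have e4 : m.real univ * (wq (β x) (β x) / σ x) - κ = m.real univ * (σ x * d)⁻¹ *
        (d * wq (β x) (β x) - κ * (d * ((m.real univ)⁻¹ * σ x))) := by
      have : d ≠ 0 := by rintro h; simp [h] at e2
      field_simp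
    have : 0 ≤ m.real univ * (σ x * d)⁻¹ *
        (d * wq (β x) (β x) - κ * (d * ((m.real univ)⁻¹ * σ x))) :=
      mul_nonneg (by positivity) (sub_nonneg.2 e1)
    linarith

end Vale.Agent.P247
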